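import Vale.Agent.P007.H11.Arith
import Mathlib.GroupTheory.CosetCover
import Mathlib.LinearAlgebra.Basis.VectorSpace

/-! Block structure of a typical point: the block is a full level set of the real
multiplication. -/

set_option autoImplicit false

open MeasureTheory Matrix Filter Topology ProbabilityTheory
open scoped ENNReal

namespace Vale.Agent.P007.H11

open Vale.Agent.P007 Vale.Agent.P007.Koopman Vale.Agent.P007.Mautner Vale.Agent.P007.R
  Vale.Agent.P007.R.Blk

variable {n : ℕ}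

/-- a real matrix in the commutant is a real combination of rational matrices in the
commutant -/
theorem decomp {A : Set (Matrix (Fin n) (Fin n) ℚ)} (P : Matrix (Fin n) (Fin n) ℝ)
    (hP : ∀ s ∈ A, P * qm s = qm s * P) :
    ∃ (ι : Type) (S : Finset ι) (θ : ι → ℝ) (c : ι → Matrix (Fin n) (Fin n) ℚ),
      (∀ k, ∀ s ∈ A, c k * s = s * c k) ∧ P = ∑ k ∈ S, θ k • qm (c k) := by
  classical
  have hcomm : ∀ φ : ℝ →ₗ[ℚ] ℚ, ∀ s ∈ A, (P.map φ) * s = s * (P.map φ) := by
    intro φ s hs
    ext i j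
    have h1 := congrFun (congrFun (hP s hs) i) j
    rw [mul_apply, mul_apply] at h1 ⊢
    have h2 := congrArg φ h1
    rw [map_sum, map_sum] at h2
    calc ∑ k, P.map φ i k * s k j = ∑ k, φ (P i k * qm s k j) := by
          refine Finset.sum_congr rfl fun k _ => ?_
          have : P i k * qm s k j = (s k j) • P i k := by
            rw [Rat.smul_def, mul_comm]; rfl
          rw [this, map_smul, smul_eq_mul, map_apply, mul_comm]
      _ = ∑ k, φ (qm s i k * P k j) := h2
      _ = ∑ k, s i k * P.map φ k j := by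
          refine Finset.sum_congr rfl fun k _ => ?_
          have : qm s i k * P k j = (s i k) • P k j := by
            rw [Rat.smul_def]; rfl
          rw [this, map_smul, smul_eq_mul, map_apply]
  let b := Module.Basis.ofVectorSpace ℚ ℝ
  refine ⟨_, Finset.univ.biUnion fun q : Fin n × Fin n => (b.repr (P q.1 q.2)).support,
    fun k => b k, fun k => P.map (b.coord k), fun k s hs => hcomm (b.coord k) s hs, ?_⟩
  ext i j
  rw [Matrix.sum_apply]
  have h1 : P i j = ∑ k ∈ (b.repr (P i j)).support, (b.repr (P i j) k) • b k := by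
    conv_lhs => rw [← b.linearCombination_repr (P i j), Finsupp.linearCombination_apply]
    rfl
  have h2 : (∑ k ∈ (b.repr (P i j)).support, (b.repr (P i j) k) • b k) =
      ∑ k ∈ Finset.univ.biUnion fun q : Fin n × Fin n => (b.repr (P q.1 q.2)).support,
        (b.repr (P i j) k) • b k := by
    refine Finset.sum_subset ?_ ?_
    · intro k hk
      exact Finset.mem_biUnion.2 ⟨(i, j), Finset.mem_univ _, hk⟩
    · intro k _ hk
      rw [Finsupp.notMem_support_iff.1 hk, zero_smul]
  rw [h1, h2]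
  refine Finset.sum_congr rfl fun k _ => ?_
  rw [Matrix.smul_apply]
  change (b.repr (P i j) k) • b k = b k * (((b.repr (P i j)) k : ℚ) : ℝ)
  rw [Rat.smul_def, mul_comm]

/-- the diagonal functional -/
noncomputable def Dg (g : G n) (i : Fin n) : Matrix (Fin n) (Fin n) ℚ →ₗ[ℚ] ℝ where
  toFun c := ((g⁻¹).1 * qm c * g.1) i i
  map_add' c c' := by
    have : qm (c + c') = qm c + qm c' := by
      ext i j
      simp [qm]
    rw [this, Matrix.mul_add, Matrix.add_mul, Matrix.add_apply]
  map_smul' q c := by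
    have : qm (q • c) = (q : ℝ) • qm c := by
      ext i j
      simp [qm]
    rw [this, Matrix.mul_smul, Matrix.smul_mul, Matrix.smul_apply, smul_eq_mul, RingHom.id_apply,
      Rat.smul_def]

theorem Dg_apply (g : G n) (i : Fin n) (c : Matrix (Fin n) (Fin n) ℚ) :
    Dg g i c = ((g⁻¹).1 * qm c * g.1) i i := rfl

/-- the rational commutant -/
def comm (A : Set (Matrix (Fin n) (Fin n) ℚ)) : Submodule ℚ (Matrix (Fin n) (Fin n) ℚ) where
  carrier := {c | ∀ s ∈ A, c * s = s * c}
  zero_mem' := fun s _ => by rw [zero_mul, mul_zero]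
  add_mem' := fun {a b} ha hb s hs => by rw [add_mul, mul_add, ha s hs, hb s hs]
  smul_mem' := fun q c hc s hs => by rw [Matrix.smul_mul, Matrix.mul_smul, hc s hs]

/-- one rational matrix of the commutant separates the block from its complement -/
theorem exists_sep {B : Finset (Fin n)} (g : G n) :
    ∃ c : Matrix (Fin n) (Fin n) ℚ, (∀ s ∈ AA B g, c * s = s * c) ∧
      ∀ i ∈ B, ∀ l, l ∉ B → Dg g i c ≠ Dg g l c := by
  classical
  set π : Matrix (Fin n) (Fin n) ℝ := diagonal (bI B) with hπ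
  have hπcomm : ∀ M : Matrix (Fin n) (Fin n) ℝ, BD B M → π * M = M * π :=
    fun M hM => (BD_iff B M).1 hM
  obtain ⟨ι, S, θ, d, hd, hdec⟩ := decomp (A := AA B g) (g.1 * π * (g⁻¹).1) (by
    intro s hs
    have h1 := hπcomm _ hs
    have e1 : g.1 * π * (g⁻¹).1 * qm s = g.1 * (π * ((g⁻¹).1 * qm s * g.1)) * (g⁻¹).1 := by
      simp only [Matrix.mul_assoc]
      rw [g_mul_inv, Matrix.mul_one]
    have e2 : qm s * (g.1 * π * (g⁻¹).1) = g.1 * (((g⁻¹).1 * qm s * g.1) * π) * (g⁻¹).1 := by
      simp only [← Matrix.mul_assoc]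
      rw [g_mul_inv, Matrix.one_mul]
    rw [e1, e2, h1])
  have hπd : ∀ i, π i i = ∑ k ∈ S, θ k * Dg g i (d k) := by
    intro i
    have e2 : (g⁻¹).1 * (g.1 * π * (g⁻¹).1) * g.1 = π := by
      simp only [Matrix.mul_assoc]
      rw [g_inv_mul, Matrix.mul_one, ← Matrix.mul_assoc, g_inv_mul, Matrix.one_mul]
    conv_lhs => rw [← e2]
    rw [hdec, Matrix.mul_sum, Matrix.sum_mul, Matrix.sum_apply]
    refine Finset.sum_congr rfl fun k _ => ?_
    rw [Matrix.mul_smul, Matrix.smul_mul, Matrix.smul_apply, smul_eq_mul, Dg_apply]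
  -- the subspaces
  let J : Type := {q : Fin n × Fin n // q.1 ∈ B ∧ q.2 ∉ B}
  let W : J → Subspace ℚ (comm (AA B g)) := fun q =>
    LinearMap.ker (((Dg g q.1.1).comp (comm (AA B g)).subtype) -
      ((Dg g q.1.2).comp (comm (AA B g)).subtype))
  by_contra hcon
  push Not at hcon
  have hcov : ⋃ q, (W q : Set (comm (AA B g))) = Set.univ := by
    refine Set.eq_univ_of_forall fun c => ?_
    obtain ⟨i, hi, l, hl, heq⟩ := hcon c.1 c.2
    refine Set.mem_iUnion.2 ⟨⟨(i, l), hi, hl⟩, ?_⟩
    change c ∈ LinearMap.ker _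
    rw [LinearMap.mem_ker, LinearMap.sub_apply]
    exact sub_eq_zero.2 heq
  obtain ⟨⟨⟨i, l⟩, hi, hl⟩, htop⟩ := Subspace.exists_eq_top_of_iUnion_eq_univ hcov
  have hall : ∀ c ∈ comm (AA B g), Dg g i c = Dg g l c := by
    intro c hc
    have h1 : (⟨c, hc⟩ : comm (AA B g)) ∈ W ⟨(i, l), hi, hl⟩ := by
      rw [htop]; exact Submodule.mem_top
    have h2 := LinearMap.mem_ker.1 h1
    rw [LinearMap.sub_apply] at h2
    exact sub_eq_zero.1 h2
  have h1 : π i i = π l l := by
    rw [hπd i, hπd l]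
    exact Finset.sum_congr rfl fun k _ => by rw [hall (d k) (hd k)]
  rw [hπ, diagonal_apply_eq, diagonal_apply_eq] at h1
  simp only [bI] at h1
  simp only at hi hl
  rw [if_pos hi, if_neg hl] at h1
  exact one_ne_zero h1

/-- a nonscalar rational matrix of the commutant gives a real multiplication, constant on the
block -/
theorem mult_of_comm {B : Finset (Fin n)} (hB : 2 ≤ B.card) (g : G n)
    (hrow : ∀ z : Fin n → ℤ, z ≠ 0 → ∃ i ∈ B, (zr z ᵥ* g.1) i ≠ 0)
    (hcol : ∀ z : Fin n → ℤ, z ≠ 0 → ∃ i ∈ B, ((g⁻¹).1 *ᵥ zr z) i ≠ 0)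
    (hD : ∀ i ∈ B, ∀ j ∈ B, Matrix.single i j (1 : ℝ) ∈ Submodule.span ℝ
      {M | ∃ s ∈ AA B g, M = (g⁻¹).1 * qm s * g.1})
    (hD' : ∀ i, Matrix.single i i (1 : ℝ) ∈ Submodule.span ℝ
      {M | ∃ s ∈ AA B g, M = (g⁻¹).1 * qm s * g.1})
    (c : Matrix (Fin n) (Fin n) ℚ) (hc : ∀ s ∈ AA B g, c * s = s * c)
    (hcns : ∀ q : ℚ, c ≠ q • 1) :
    ∃ b : ℤ, b ≠ 0 ∧ IsMult (fun j => (b : ℝ) * Dg g j c) ∧
      Stab (fun j => (b : ℝ) * Dg g j c) g ∧ ∀ i ∈ B, ∀ j ∈ B, Dg g i c = Dg g j c := by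
  classical
  obtain ⟨i₀, hi₀, j₀, hj₀, hij₀⟩ := Finset.one_lt_card.1 (show 1 < B.card by omega)
  -- clear the denominators
  obtain ⟨b, hb⟩ := IsLocalization.exist_integer_multiples_of_finite (nonZeroDivisors ℤ)
    (fun q : Fin n × Fin n => c q.1 q.2)
  choose z hz using hb
  have hb0 : (b : ℤ) ≠ 0 := nonZeroDivisors.coe_ne_zero b
  set T : Matrix (Fin n) (Fin n) ℤ := fun i j => z (i, j) with hT
  set t : Matrix (Fin n) (Fin n) ℚ := T.map fun q : ℤ => (q : ℚ) with ht
  have htc : t = ((b : ℤ) : ℚ) • c := by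
    ext i j
    have h1 := hz (i, j)
    rw [zsmul_eq_mul] at h1
    rw [ht, map_apply, Matrix.smul_apply, smul_eq_mul]
    exact h1
  have htns : ∀ q : ℚ, t ≠ q • 1 := by
    intro q hq
    apply hcns ((((b : ℤ) : ℚ))⁻¹ * q)
    have hb0' : ((b : ℤ) : ℚ) ≠ 0 := by exact_mod_cast hb0
    rw [mul_smul, ← hq, htc, smul_smul, inv_mul_cancel₀ hb0', one_smul]
  have htcomm : ∀ s ∈ AA B g, t * s = s * t := by
    intro s hs
    rw [htc, Matrix.smul_mul, Matrix.mul_smul, hc s hs]
  have hqt : qm t = castM T := by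
    ext i j
    rw [qm, ht, castM, map_apply, map_apply, map_apply]
    exact Rat.cast_intCast _
  -- the conjugate
  set P : Matrix (Fin n) (Fin n) ℝ := (g⁻¹).1 * qm t * g.1 with hP
  have hPcomm : ∀ M ∈ Submodule.span ℝ {M | ∃ s ∈ AA B g, M = (g⁻¹).1 * qm s * g.1},
      P * M = M * P := by
    intro M hM
    induction hM using Submodule.span_induction with
    | mem M hM =>
      obtain ⟨s, hs, rfl⟩ := hM
      have e1 : ∀ s t : Matrix (Fin n) (Fin n) ℚ, (g⁻¹).1 * qm s * g.1 *
          ((g⁻¹).1 * qm t * g.1) = (g⁻¹).1 * qm (s * t) * g.1 := by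
        intro s t
        rw [qm_mul]
        simp only [Matrix.mul_assoc]
        congr 2
        rw [← Matrix.mul_assoc, g_mul_inv, Matrix.one_mul]
      rw [hP, e1, e1, htcomm s hs]
    | zero => rw [Matrix.mul_zero, Matrix.zero_mul]
    | add M M' _ _ h1 h2 => rw [Matrix.mul_add, Matrix.add_mul, h1, h2]
    | smul c M _ h1 => rw [Matrix.mul_smul, Matrix.smul_mul, h1]
  set p : Fin n → ℝ := fun j => P j j with hp
  have hPd : P = diagonal p := by
    ext i j
    by_cases hij : i = j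
    · subst hij
      rw [diagonal_apply_eq]
    · rw [diagonal_apply_ne _ hij]
      have h1 := congrFun (congrFun (hPcomm _ (hD' j)) i) j
      rw [Matrix.mul_apply, Matrix.mul_apply, Finset.sum_eq_single j, Finset.sum_eq_single j] at h1
      · rw [single_apply_same, mul_one, single_apply, if_neg (fun h => hij h.1.symm),
          zero_mul] at h1
        exact h1
      · intro k _ hk
        rw [single_apply, if_neg (fun h => hij h.1.symm), zero_mul]
      · intro h
        exact absurd (Finset.mem_univ j) h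
      · intro k _ hk
        rw [single_apply, if_neg (fun h => hk h.1.symm), mul_zero]
      · intro h
        exact absurd (Finset.mem_univ j) h
  have hpeqB : ∀ i ∈ B, ∀ j ∈ B, p i = p j := by
    intro i hi j hj
    have h1 := congrFun (congrFun (hPcomm _ (hD i hi j hj)) i) j
    rw [hPd, diagonal_mul, mul_diagonal, single_apply_same, mul_one, one_mul] at h1
    exact h1
  have hpeq : p i₀ = p j₀ := hpeqB i₀ hi₀ j₀ hj₀
  have hgp : (g : Matrix (Fin n) (Fin n) ℝ) * diagonal p =
      castM T * (g : Matrix (Fin n) (Fin n) ℝ) := by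
    rw [← hPd, hP, ← Matrix.mul_assoc, ← Matrix.mul_assoc, g_mul_inv, Matrix.one_mul, hqt]
  -- the minimal polynomial
  have hint : ∀ j, IsIntegral ℤ (p j) := fun j => ⟨T.charpoly, T.charpoly_monic, by
    have := aeval_charpoly hgp j
    rwa [Polynomial.aeval_def] at this⟩
  set f : Polynomial ℤ := minpoly ℤ (p i₀) with hf
  have hfm : f.Monic := minpoly.monic (hint i₀)
  have hfi : Irreducible f := minpoly.irreducible (hint i₀)
  have hf0 : Polynomial.aeval (p i₀) f = 0 := minpoly.aeval ℤ (p i₀)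
  -- `f(T) = 0`
  set Ft : Matrix (Fin n) (Fin n) ℚ := Polynomial.aeval t f with hFt
  have hgF : (g : Matrix (Fin n) (Fin n) ℝ) * diagonal (fun j => Polynomial.aeval (p j) f) =
      qm Ft * (g : Matrix (Fin n) (Fin n) ℝ) := by
    rw [hFt, qm_aeval, ← aeval_diag]
    exact aeval_conj _ _ _ (by rw [hgp, hqt]) f
  have hdetR : (qm Ft).det = 0 := by
    have h1 := congrArg Matrix.det hgF
    rw [Matrix.det_mul, Matrix.det_mul, det_G, one_mul, mul_one, det_diagonal] at h1
    rw [← h1]
    exact Finset.prod_eq_zero (Finset.mem_univ i₀) hf0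
  have hdet : Ft.det = 0 := by
    have h1 : (qm Ft).det = ((Ft.det : ℚ) : ℝ) := by
      have := (Rat.castHom ℝ).map_det Ft
      exact this.symm
    rw [h1] at hdetR
    exact_mod_cast hdetR
  have hFcomm : ∀ s ∈ AA B g, Ft * s = s * Ft := by
    intro s hs
    have h1 : Commute t s := htcomm s hs
    rw [hFt, Polynomial.aeval_eq_sum_range, Finset.mul_sum, Finset.sum_mul]
    refine Finset.sum_congr rfl fun k _ => ?_
    rw [mul_smul_comm, smul_mul_assoc, (h1.pow_left k).eq]
  have hFt0 : Ft = 0 := by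
    obtain ⟨w, hw0, hw⟩ := Matrix.exists_vecMul_eq_zero_iff.2 hdet
    rcases irr g hrow hcol hD (LinearMap.ker (vecMulLinear Ft)) (by
      intro s hs w hw
      rw [LinearMap.mem_ker] at hw ⊢
      change w ᵥ* Ft = 0 at hw
      change (w ᵥ* s) ᵥ* Ft = 0
      rw [vecMul_vecMul, ← hFcomm s hs, ← vecMul_vecMul, hw, zero_vecMul]) with h | h
    · exfalso
      apply hw0
      have h1 : w ∈ LinearMap.ker (vecMulLinear Ft) := by
        rw [LinearMap.mem_ker]
        exact hw
      rw [h] at h1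
      exact (Submodule.mem_bot ℚ).1 h1
    · ext i j
      have h1 : (Pi.single i (1 : ℚ) : Fin n → ℚ) ∈ LinearMap.ker (vecMulLinear Ft) := by
        rw [h]; exact Submodule.mem_top
      rw [LinearMap.mem_ker] at h1
      change (Pi.single i (1 : ℚ) : Fin n → ℚ) ᵥ* Ft = 0 at h1
      rw [single_one_vecMul] at h1
      exact congrFun h1 j
  have hall : ∀ j, Polynomial.aeval (p j) f = 0 := by
    intro j
    have h1 : diagonal (fun j => Polynomial.aeval (p j) f) = 0 := by
      have h2 : (g⁻¹).1 * ((g : Matrix (Fin n) (Fin n) ℝ) *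
          diagonal (fun j => Polynomial.aeval (p j) f)) = 0 := by
        rw [hgF, hFt0]
        have h3 : qm (0 : Matrix (Fin n) (Fin n) ℚ) = 0 := by
          ext i j
          simp [qm]
        rw [h3, Matrix.zero_mul, Matrix.mul_zero]
      rwa [← Matrix.mul_assoc, g_inv_mul, Matrix.one_mul] at h2
    have h2 := congrFun (congrFun h1 j) j
    rwa [diagonal_apply_eq] at h2
  have hpD : ∀ j, p j = ((b : ℤ) : ℝ) * Dg g j c := by
    intro j
    have h1 : p j = Dg g j t := rfl
    rw [h1, htc, map_smul, Rat.smul_def, Rat.cast_intCast]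
  have hpfun : p = fun j => ((b : ℤ) : ℝ) * Dg g j c := funext hpD
  have hb0R : ((b : ℤ) : ℝ) ≠ 0 := by exact_mod_cast hb0
  refine ⟨b, hb0, hpfun ▸ ⟨f, hfm, hfi, ?_, ?_, hall⟩, hpfun ▸ ⟨T, hgp⟩, ?_⟩
  · -- the degree is not one
    by_contra hle
    push Not at hle
    have hpos : 0 < f.natDegree := minpoly.natDegree_pos (hint i₀)
    have h1 : f.natDegree = 1 := by omega
    have h2 : Ft = t + (f.coeff 0 : ℚ) • 1 := by
      rw [hFt, Polynomial.aeval_eq_sum_range, h1, Finset.sum_range_succ, Finset.sum_range_one,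
        pow_zero, pow_one]
      have h3 : f.coeff 1 = 1 := by
        have := hfm.coeff_natDegree
        rwa [h1] at this
      rw [h3, one_smul, add_comm]
      congr 1
    rw [hFt0] at h2
    apply htns (-(f.coeff 0 : ℚ))
    rw [neg_smul]
    exact eq_neg_of_add_eq_zero_left h2.symm
  · have hdvd : f ∣ T.charpoly :=
      minpoly.isIntegrallyClosed_dvd (hint i₀) (aeval_charpoly hgp i₀)
    have hdeg : T.charpoly.natDegree = n := by
      rw [T.charpoly_natDegree_eq_dim, Fintype.card_fin]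
    have hle : f.natDegree ≤ n := by
      rw [← hdeg]
      exact Polynomial.natDegree_le_of_dvd hdvd T.charpoly_monic.ne_zero
    rcases lt_or_eq_of_le hle with h | h
    · exact h
    · exfalso
      have heq : T.charpoly = f := by
        refine Polynomial.eq_of_monic_of_dvd_of_natDegree_le hfm T.charpoly_monic hdvd ?_
        rw [hdeg, h]
      have hsep : (f.map (Int.castRingHom ℝ)).Separable := by
        have h3 : (minpoly ℚ (p i₀)).Separable :=
          (minpoly.irreducible ((hint i₀).tower_top)).separable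
        rw [minpoly.isIntegrallyClosed_eq_field_fractions' ℚ (hint i₀)] at h3
        have h4 := h3.map (f := algebraMap ℚ ℝ)
        rw [Polynomial.map_map] at h4
        have h5 : (algebraMap ℚ ℝ).comp (algebraMap ℤ ℚ) = Int.castRingHom ℝ := RingHom.ext_int _ _
        rw [h5] at h4
        exact h4
      have hnd := Polynomial.nodup_roots hsep
      rw [← heq, charpoly_roots hgp] at hnd
      have hinj := Multiset.inj_on_of_nodup_map hnd
      exact hij₀ (hinj _ (Finset.mem_univ_val i₀) _ (Finset.mem_univ_val j₀) hpeq)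
  · intro i hi j hj
    have h1 := hpeqB i hi j hj
    rw [hpD, hpD] at h1
    exact mul_left_cancel₀ hb0R h1

/-- The block structure at a typical point gives a real multiplication by a field of degree
strictly between `1` and `n`, of which the block is a full level set. -/
theorem exists_mult' {B : Finset (Fin n)} (hB : 2 ≤ B.card)
    (hB' : B ≠ Finset.univ) (g : G n)
    (hrow : ∀ z : Fin n → ℤ, z ≠ 0 → ∃ i ∈ B, (zr z ᵥ* g.1) i ≠ 0)
    (hcol : ∀ z : Fin n → ℤ, z ≠ 0 → ∃ i ∈ B, ((g⁻¹).1 *ᵥ zr z) i ≠ 0)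
    (hD : ∀ i ∈ B, ∀ j ∈ B, Matrix.single i j (1 : ℝ) ∈ Submodule.span ℝ
      {M | ∃ s ∈ AA B g, M = (g⁻¹).1 * qm s * g.1})
    (hD' : ∀ i, Matrix.single i i (1 : ℝ) ∈ Submodule.span ℝ
      {M | ∃ s ∈ AA B g, M = (g⁻¹).1 * qm s * g.1}) :
    ∃ p : Fin n → ℝ, IsMult p ∧ Stab p g ∧ ∀ i ∈ B, ∀ j, j ∈ B ↔ p j = p i := by
  classical
  obtain ⟨i₀, hi₀, j₀, hj₀, hij₀⟩ := Finset.one_lt_card.1 (show 1 < B.card by omega)
  obtain ⟨l, hl⟩ : ∃ l, l ∉ B := by
    by_contra hcon
    push Not at hcon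
    exact hB' (Finset.eq_univ_iff_forall.2 hcon)
  obtain ⟨c, hc, hsep⟩ := exists_sep (B := B) g
  have hcns : ∀ q : ℚ, c ≠ q • 1 := by
    intro q hq
    apply hsep i₀ hi₀ l hl
    have h1 : ∀ i, Dg g i (q • (1 : Matrix (Fin n) (Fin n) ℚ)) = (q : ℝ) := by
      intro i
      rw [map_smul, Dg_apply]
      have h2 : qm (1 : Matrix (Fin n) (Fin n) ℚ) = 1 :=
        Matrix.map_one _ Rat.cast_zero Rat.cast_one
      rw [h2, Matrix.mul_one, g_inv_mul, one_apply_eq, Rat.smul_def, mul_one]
    rw [hq, h1, h1]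
  obtain ⟨b, hb0, hmult, hstab, hconst⟩ := mult_of_comm hB g hrow hcol hD hD' c hc hcns
  have hb0R : (b : ℝ) ≠ 0 := by exact_mod_cast hb0
  refine ⟨fun j => (b : ℝ) * Dg g j c, hmult, hstab, fun i hi j => ⟨fun hj => ?_, fun h => ?_⟩⟩
  · change (b : ℝ) * Dg g j c = (b : ℝ) * Dg g i c
    rw [hconst j hj i hi]
  · by_contra hj
    exact hsep i hi j hj (mul_left_cancel₀ hb0R h).symm

end Vale.Agent.P007.H11
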