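import Mathlib.MeasureTheory.Measure.Restrict
import Mathlib.MeasureTheory.Measure.Typeclasses.SFinite
import Mathlib.Order.Zorn

/-!
Exhaustion of a set by countably many pieces of given types.
-/

namespace Vale.Agent.P007.H11

open MeasureTheory Set Function

/-- If every non-null subset `s` of `R` (in the class `P`) contains a non-null piece of one of
countably many types `Q k`, then `R` is, up to a null set, a countable disjoint union of pieces. -/
theorem exhaustion {α ι : Type*} [MeasurableSpace α] [Countable ι] {ν : Measure α}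
    [IsFiniteMeasure ν] (P : Set α → Prop) (hPm : ∀ s, P s → MeasurableSet s) (hPe : P ∅)
    (hPd : ∀ s t, P s → P t → P (s \ t)) (hPU : ∀ s : ℕ → Set α, (∀ k, P (s k)) → P (⋃ k, s k))
    {R : Set α} (hR : P R) (Q : ι → Set α → Prop)
    (h : ∀ s ⊆ R, P s → ν s ≠ 0 → ∃ t ⊆ s, P t ∧ ν t ≠ 0 ∧ ∃ k, Q k t) :
    ∃ S : ι → ℕ → Set α, (∀ k m, P (S k m) ∧ S k m ⊆ R ∧ (Q k (S k m) ∨ S k m = ∅)) ∧
      ν.restrict R = Measure.sum fun k => Measure.sum fun m => ν.restrict (S k m) := by
  classical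
  -- a maximal disjoint family of pieces
  obtain ⟨T, hT⟩ : ∃ T, Maximal (fun T : Set (Set α) => T.PairwiseDisjoint id ∧
      ∀ t ∈ T, t ⊆ R ∧ P t ∧ ν t ≠ 0 ∧ ∃ k, Q k t) T := by
    refine zorn_subset {T : Set (Set α) | T.PairwiseDisjoint id ∧
      ∀ t ∈ T, t ⊆ R ∧ P t ∧ ν t ≠ 0 ∧ ∃ k, Q k t} fun c hc hchain => ?_
    refine ⟨⋃₀ c, ⟨?_, ?_⟩, fun s hs => subset_sUnion_of_mem hs⟩
    · exact (pairwiseDisjoint_sUnion hchain.directedOn).2 fun T hT => (hc hT).1
    · rintro t ⟨T, hT, ht⟩
      exact (hc hT).2 t ht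
  obtain ⟨⟨hdisj, hprop⟩, hmax⟩ := hT
  -- it is countable
  have hcount : T.Countable := by
    have h1 := Measure.countable_meas_pos_of_disjoint_iUnion (μ := ν) (As := fun t : T => t.1)
      (fun t => hPm _ (hprop t.1 t.2).2.1) fun s t hst =>
        hdisj s.2 t.2 fun h' => hst (Subtype.ext h')
    have h2 : {t : T | 0 < ν t.1} = univ :=
      eq_univ_of_forall fun t => pos_iff_ne_zero.2 (hprop t.1 t.2).2.2.1
    rw [h2] at h1
    have := countable_univ_iff.1 h1
    exact countable_coe_iff.1 this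
  have hPU' : P (⋃₀ T) := by
    rcases T.eq_empty_or_nonempty with hT0 | hT0
    · rw [hT0, sUnion_empty]
      exact hPe
    · obtain ⟨f, hf⟩ := hcount.exists_eq_range hT0
      rw [hf, sUnion_range]
      exact hPU f fun k => (hprop _ (hf ▸ mem_range_self k)).2.1
  have hUR : ⋃₀ T ⊆ R := sUnion_subset fun t ht => (hprop t ht).1
  have hnull : ν (R \ ⋃₀ T) = 0 := by
    by_contra hne
    obtain ⟨t, htR, htP, htν, k, hk⟩ := h _ sdiff_subset (hPd _ _ hR hPU') hne
    have hins : insert t T ⊆ T := by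
      refine hmax ⟨?_, ?_⟩ (subset_insert _ _)
      · refine hdisj.insert fun s hs _ => ?_
        refine Set.disjoint_left.2 fun x hx hx' => ?_
        exact (htR hx).2 ⟨s, hs, hx'⟩
      · intro s hs
        rcases mem_insert_iff.1 hs with rfl | hs
        · exact ⟨htR.trans sdiff_subset, htP, htν, k, hk⟩
        · exact hprop s hs
    have htT : t ∈ T := hins (mem_insert _ _)
    have ht0 : t = ∅ := eq_empty_of_forall_notMem fun x hx => (htR hx).2 ⟨t, htT, hx⟩
    exact htν (by rw [ht0, measure_empty])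
  -- the numbering
  have : Countable T := hcount.to_subtype
  obtain ⟨e, he⟩ := exists_injective_nat T
  choose kk hkk using fun t : T => (hprop t.1 t.2).2.2.2
  let S : ι → ℕ → Set α := fun k m =>
    if h : ∃ t : T, e t = m ∧ kk t = k then h.choose.1 else ∅
  have hS1 : ∀ k m, S k m = ∅ ∨ ∃ t : T, e t = m ∧ kk t = k ∧ S k m = t.1 := by
    intro k m
    by_cases h : ∃ t : T, e t = m ∧ kk t = k
    · exact Or.inr ⟨h.choose, h.choose_spec.1, h.choose_spec.2, dif_pos h⟩
    · exact Or.inl (dif_neg h)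
  have hS2 : ∀ t : T, S (kk t) (e t) = t.1 := by
    intro t
    have h : ∃ t' : T, e t' = e t ∧ kk t' = kk t := ⟨t, rfl, rfl⟩
    have h1 : S (kk t) (e t) = h.choose.1 := dif_pos h
    rw [h1, he h.choose_spec.1]
  have hSd : ∀ k k' m m', (k ≠ k' ∨ m ≠ m') → Disjoint (S k m) (S k' m') := by
    intro k k' m m' hne
    rcases hS1 k m with h1 | ⟨t, ht1, ht2, ht3⟩
    · rw [h1]
      exact disjoint_bot_left
    rcases hS1 k' m' with h1 | ⟨t', ht1', ht2', ht3'⟩
    · rw [h1]
      exact disjoint_bot_right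
    rw [ht3, ht3']
    refine hdisj t.2 t'.2 fun heq => ?_
    have : t = t' := Subtype.ext heq
    subst this
    rcases hne with h | h
    · exact h (ht2.symm.trans ht2')
    · exact h (ht1.symm.trans ht1')
  have hSP : ∀ k m, P (S k m) := by
    intro k m
    rcases hS1 k m with h1 | ⟨t, -, -, ht3⟩
    · rw [h1]
      exact hPe
    · rw [ht3]
      exact (hprop t.1 t.2).2.1
  have hSU : (⋃ k, ⋃ m, S k m) = ⋃₀ T := by
    apply subset_antisymm
    · refine iUnion_subset fun k => iUnion_subset fun m => ?_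
      rcases hS1 k m with h1 | ⟨t, -, -, ht3⟩
      · rw [h1]
        exact empty_subset _
      · rw [ht3]
        exact subset_sUnion_of_mem t.2
    · refine sUnion_subset fun t ht => ?_
      have := hS2 ⟨t, ht⟩
      intro x hx
      refine mem_iUnion.2 ⟨kk ⟨t, ht⟩, mem_iUnion.2 ⟨e ⟨t, ht⟩, ?_⟩⟩
      rw [this]
      exact hx
  refine ⟨S, fun k m => ⟨hSP k m, ?_, ?_⟩, ?_⟩
  · rcases hS1 k m with h1 | ⟨t, -, -, ht3⟩
    · rw [h1]
      exact empty_subset _
    · rw [ht3]
      exact (hprop t.1 t.2).1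
  · rcases hS1 k m with h1 | ⟨t, -, ht2, ht3⟩
    · exact Or.inr h1
    · left
      rw [ht3, ← ht2]
      exact hkk t
  · have h1 : ν.restrict R = ν.restrict (⋃ k, ⋃ m, S k m) := by
      rw [hSU]
      refine Measure.restrict_congr_set ?_
      refine (ae_eq_set.2 ⟨hnull, ?_⟩)
      rw [sdiff_eq_empty.2 hUR, measure_empty]
    rw [h1, Measure.restrict_iUnion]
    · congr 1
      funext k
      rw [Measure.restrict_iUnion]
      · exact fun m m' hm => hSd k k m m' (Or.inr hm)
      · exact fun m => hPm _ (hSP k m)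
    · intro k k' hk
      change Disjoint (⋃ m, S k m) (⋃ m, S k' m)
      rw [disjoint_iUnion_left]
      intro m
      rw [disjoint_iUnion_right]
      intro m'
      exact hSd k k' m m' (Or.inl hk)
    · exact fun k => MeasurableSet.iUnion fun m => hPm _ (hSP k m)

end Vale.Agent.P007.H11
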