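import Mathlib

/-! Integral polynomials approximate arbitrary real values at a proper set of real roots of
an irreducible monic integral polynomial. -/

set_option autoImplicit false

open Polynomial

namespace Vale.Agent.P007.H11

/-- a nonzero integral polynomial of degree smaller than that of the irreducible monic
polynomial `f` does not vanish at a root of `f` -/
theorem approx_aeval_ne_zero {f : Polynomial ℤ} (hf : f.Monic) (hfi : Irreducible f) {c : ℝ}
    (hc : Polynomial.aeval c f = 0) {h : Polynomial ℤ} (h0 : h ≠ 0)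
    (hd : h.natDegree < f.natDegree) : Polynomial.aeval c h ≠ 0 := by
  intro hch
  have hint : IsIntegral ℤ c := ⟨f, hf, by rwa [← Polynomial.aeval_def]⟩
  have h1 : minpoly ℤ c ∣ f := minpoly.isIntegrallyClosed_dvd hint hc
  have h2 : minpoly ℤ c ∣ h := minpoly.isIntegrallyClosed_dvd hint hch
  have h3 : ¬ IsUnit (minpoly ℤ c) := minpoly.not_isUnit ℤ c
  have h4 : f ∣ minpoly ℤ c := by
    obtain ⟨g, hg⟩ := h1
    rcases hfi.isUnit_or_isUnit hg with hu | hu
    · exact absurd hu h3
    · rw [hg]
      exact (hu.mul_right_dvd).2 dvd_rfl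
  have h5 : f.natDegree ≤ h.natDegree := Polynomial.natDegree_le_of_dvd (h4.trans h2) h0
  omega

/-- a proper set of real roots has fewer elements than the degree -/
theorem approx_card_lt {f : Polynomial ℤ} (hf : f.Monic) (C : Finset ℝ)
    (hC : ∀ c ∈ C, Polynomial.aeval c f = 0) {b : ℝ} (hb : Polynomial.aeval b f = 0)
    (hbC : b ∉ C) : C.card < f.natDegree := by
  have hg : (f.map (algebraMap ℤ ℝ)).Monic := hf.map _
  have hsub : (insert b C) ⊆ (f.map (algebraMap ℤ ℝ)).roots.toFinset := by
    intro x hx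
    rw [Multiset.mem_toFinset, Polynomial.mem_roots hg.ne_zero, Polynomial.IsRoot.def,
      Polynomial.eval_map_algebraMap]
    rcases Finset.mem_insert.1 hx with rfl | hx
    · exact hb
    · exact hC x hx
  have h1 := Finset.card_le_card hsub
  rw [Finset.card_insert_of_notMem hbC] at h1
  have h2 := Multiset.toFinset_card_le (f.map (algebraMap ℤ ℝ)).roots
  have h3 := Polynomial.card_roots' (f.map (algebraMap ℤ ℝ))
  rw [hf.natDegree_map] at h3
  omega

/-- the value of a polynomial given by a coefficient sequence -/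
theorem approx_aeval_sum (d : ℕ) (a : ℕ → ℤ) (c : ℝ) :
    Polynomial.aeval c (∑ l ∈ Finset.range d, Polynomial.C (a l) * Polynomial.X ^ l) =
      ∑ l ∈ Finset.range d, (a l : ℝ) * c ^ l := by
  rw [map_sum]
  refine Finset.sum_congr rfl fun l _ => ?_
  rw [map_mul, Polynomial.aeval_C, map_pow, Polynomial.aeval_X]
  rfl

/-- pigeonhole: small values at fewer than `d` points -/
theorem approx_small (d : ℕ) (C : Finset ℝ) (hd : C.card < d) {ε : ℝ} (hε : 0 < ε) :
    ∃ h : Polynomial ℤ, h ≠ 0 ∧ h.natDegree < d ∧ ∀ c ∈ C, |Polynomial.aeval c h| ≤ ε := by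
  classical
  -- the bound on the values
  obtain ⟨R, hR0, hR⟩ : ∃ R : ℝ, 0 < R ∧
      ∀ c ∈ C, ∑ l ∈ Finset.range d, |c| ^ l ≤ R := by
    refine ⟨(∑ c ∈ C, ∑ l ∈ Finset.range d, |c| ^ l) + 1, ?_, ?_⟩
    · have : 0 ≤ ∑ c ∈ C, ∑ l ∈ Finset.range d, |c| ^ l :=
        Finset.sum_nonneg fun c _ => Finset.sum_nonneg fun l _ => pow_nonneg (abs_nonneg c) l
      linarith
    · intro c hc
      have := Finset.single_le_sum (f := fun c : ℝ => ∑ l ∈ Finset.range d, |c| ^ l)
        (fun c _ => Finset.sum_nonneg fun l _ => pow_nonneg (abs_nonneg c) l) hc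
      linarith
  obtain ⟨T, hT⟩ := exists_nat_gt (2 * R / ε)
  have hT0 : (0 : ℝ) < T := lt_trans (by positivity) hT
  have hT1 : 1 ≤ T := by exact_mod_cast hT0
  set N : ℕ := (2 * T) ^ (d - 1) with hN
  have hN1 : 1 ≤ N := Nat.one_le_pow _ _ (by omega)
  have hM1 : 1 ≤ N * T := Nat.one_le_iff_ne_zero.2 (by positivity)
  have hNR : (0 : ℝ) < N := by exact_mod_cast hN1
  -- the map
  let val : (Fin d → Fin (N + 1)) → ℝ → ℝ := fun v c => ∑ l : Fin d, ((v l : ℕ) : ℝ) * c ^ (l : ℕ)
  have hval : ∀ v, ∀ c ∈ C, |val v c| ≤ N * R := by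
    intro v c hc
    calc |val v c| ≤ ∑ l : Fin d, |((v l : ℕ) : ℝ) * c ^ (l : ℕ)| :=
          Finset.abs_sum_le_sum_abs _ _
      _ ≤ ∑ l : Fin d, (N : ℝ) * |c| ^ (l : ℕ) := by
          refine Finset.sum_le_sum fun l _ => ?_
          rw [abs_mul, abs_pow, Nat.abs_cast]
          refine mul_le_mul_of_nonneg_right ?_ (pow_nonneg (abs_nonneg c) _)
          exact_mod_cast Nat.lt_succ_iff.1 (v l).2
      _ = N * ∑ l ∈ Finset.range d, |c| ^ l := by
          rw [← Finset.mul_sum, Finset.sum_range fun l => |c| ^ l]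
      _ ≤ N * R := mul_le_mul_of_nonneg_left (hR c hc) hNR.le
  -- the cell
  let cell : (Fin d → Fin (N + 1)) → ℝ → ℕ := fun v c => ⌊(val v c + N * R) * T / (2 * R)⌋₊
  have hcell : ∀ v, ∀ c ∈ C, cell v c < N * T + 1 := by
    intro v c hc
    have h1 := abs_le.1 (hval v c hc)
    have h2 : (val v c + N * R) * T / (2 * R) ≤ ((N * T : ℕ) : ℝ) := by
      rw [div_le_iff₀ (by positivity)]
      push_cast
      have : (val v c + N * R) * T ≤ (N * R + N * R) * T :=
        mul_le_mul_of_nonneg_right (by linarith) hT0.le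
      nlinarith
    exact Nat.lt_succ_iff.2 (Nat.floor_le_of_le h2)
  let F : (Fin d → Fin (N + 1)) → (C → Fin (N * T + 1)) :=
    fun v c => ⟨cell v c.1, hcell v c.1 c.2⟩
  have hcard : Fintype.card (C → Fin (N * T + 1)) < Fintype.card (Fin d → Fin (N + 1)) := by
    rw [Fintype.card_fun, Fintype.card_fun, Fintype.card_fin, Fintype.card_fin, Fintype.card_fin,
      Fintype.card_coe]
    calc (N * T + 1) ^ C.card ≤ (N * (2 * T)) ^ C.card := by
          refine Nat.pow_le_pow_left ?_ _
          calc N * T + 1 ≤ N * T + N * T := by omega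
            _ = N * (2 * T) := by ring
      _ ≤ (N * (2 * T)) ^ (d - 1) := by
          refine Nat.pow_le_pow_right ?_ (by omega)
          calc 0 < N * T := hM1
            _ ≤ N * (2 * T) := Nat.mul_le_mul_left _ (by omega)
      _ = N ^ (d - 1) * N := by rw [mul_pow, ← hN]
      _ = N ^ d := by
          rw [← pow_succ]
          congr 1
          omega
      _ < (N + 1) ^ d := Nat.pow_lt_pow_left (by omega) (by omega)
  obtain ⟨v, w, hvw, hFvw⟩ := Fintype.exists_ne_map_eq_of_card_lt F hcard
  -- the difference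
  let a : ℕ → ℤ := fun l => if hl : l < d then ((v ⟨l, hl⟩ : ℕ) : ℤ) - ((w ⟨l, hl⟩ : ℕ) : ℤ) else 0
  refine ⟨∑ l ∈ Finset.range d, Polynomial.C (a l) * Polynomial.X ^ l, ?_, ?_, ?_⟩
  · intro h0
    apply hvw
    funext l
    have h1 := congrArg (fun p => Polynomial.coeff p (l : ℕ)) h0
    simp only [Polynomial.finsetSum_coeff, Polynomial.coeff_C_mul_X_pow, Polynomial.coeff_zero] at h1
    rw [Finset.sum_ite_eq, if_pos (Finset.mem_range.2 l.2)] at h1
    simp only [a, l.2, dif_pos] at h1
    apply Fin.ext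
    have h2 : ((v l : ℕ) : ℤ) = ((w l : ℕ) : ℤ) := by linarith
    exact_mod_cast h2
  · have hdpos : 0 < d := by omega
    have h1 : (∑ l ∈ Finset.range d, Polynomial.C (a l) * Polynomial.X ^ l).natDegree ≤ d - 1 := by
      refine Polynomial.natDegree_sum_le_of_forall_le _ _ fun l hl => ?_
      refine (Polynomial.natDegree_C_mul_X_pow_le _ _).trans ?_
      have := Finset.mem_range.1 hl
      omega
    omega
  · intro c hc
    rw [approx_aeval_sum]
    have h1 : ∑ l ∈ Finset.range d, (a l : ℝ) * c ^ l = val v c - val w c := by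
      rw [Finset.sum_range fun l => (a l : ℝ) * c ^ l, ← Finset.sum_sub_distrib]
      refine Finset.sum_congr rfl fun l _ => ?_
      simp only [a, l.2, dif_pos]
      push_cast
      ring
    rw [h1]
    have h2 : cell v c = cell w c := by
      have := congrFun hFvw ⟨c, hc⟩
      simpa [F] using this
    have hv0 : 0 ≤ (val v c + N * R) * T / (2 * R) := by
      have := abs_le.1 (hval v c hc)
      have h3 : 0 ≤ val v c + N * R := by linarith
      positivity
    have hw0 : 0 ≤ (val w c + N * R) * T / (2 * R) := by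
      have := abs_le.1 (hval w c hc)
      have h3 : 0 ≤ val w c + N * R := by linarith
      positivity
    have e1 := Nat.floor_le hv0
    have e2 := Nat.lt_floor_add_one ((val v c + N * R) * T / (2 * R))
    have e3 := Nat.floor_le hw0
    have e4 := Nat.lt_floor_add_one ((val w c + N * R) * T / (2 * R))
    have h2' : (⌊(val v c + N * R) * T / (2 * R)⌋₊ : ℝ) = ⌊(val w c + N * R) * T / (2 * R)⌋₊ := by
      exact_mod_cast h2
    have h3 : |(val v c + N * R) * T / (2 * R) - (val w c + N * R) * T / (2 * R)| ≤ 1 := by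
      rw [abs_le]
      constructor <;> linarith
    have h4 : (val v c + N * R) * T / (2 * R) - (val w c + N * R) * T / (2 * R)
        = (val v c - val w c) * (T / (2 * R)) := by
      field_simp
      ring
    rw [h4, abs_mul, abs_of_pos (by positivity : (0:ℝ) < T / (2 * R))] at h3
    have h5 : |val v c - val w c| ≤ 2 * R / T := by
      rw [le_div_iff₀ hT0]
      have h6 : |val v c - val w c| * (T / (2 * R)) * (2 * R) ≤ 1 * (2 * R) :=
        mul_le_mul_of_nonneg_right h3 (by positivity)
      have h7 : |val v c - val w c| * (T / (2 * R)) * (2 * R) = |val v c - val w c| * T := by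
        field_simp
      linarith
    refine h5.trans ?_
    rw [div_le_iff₀ hT0]
    rw [div_lt_iff₀ hε] at hT
    linarith

/-- approximation of arbitrary real values at a proper set of real roots -/
theorem exists_poly_approx {f : Polynomial ℤ} (hf : f.Monic) (hfi : Irreducible f) (C : Finset ℝ)
    (hC : ∀ c ∈ C, Polynomial.aeval c f = 0) {b : ℝ} (hb : Polynomial.aeval b f = 0)
    (hbC : b ∉ C) (y : ℝ → ℝ) {δ : ℝ} (hδ : 0 < δ) :
    ∃ h : Polynomial ℤ, ∀ c ∈ C, |Polynomial.aeval c h - y c| < δ := by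
  classical
  set d := f.natDegree with hd
  have hcard : C.card < d := approx_card_lt hf C hC hb hbC
  obtain ⟨R, hR0, hR⟩ : ∃ R : ℝ, 0 < R ∧
      ∀ c ∈ C, ∑ l ∈ Finset.range d, |c| ^ l ≤ R := by
    refine ⟨(∑ c ∈ C, ∑ l ∈ Finset.range d, |c| ^ l) + 1, ?_, ?_⟩
    · have : 0 ≤ ∑ c ∈ C, ∑ l ∈ Finset.range d, |c| ^ l :=
        Finset.sum_nonneg fun c _ => Finset.sum_nonneg fun l _ => pow_nonneg (abs_nonneg c) l
      linarith
    · intro c hc
      have := Finset.single_le_sum (f := fun c : ℝ => ∑ l ∈ Finset.range d, |c| ^ l)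
        (fun c _ => Finset.sum_nonneg fun l _ => pow_nonneg (abs_nonneg c) l) hc
      linarith
  have hε : 0 < δ / (2 * R) := by positivity
  obtain ⟨h, h0, hdeg, hsmall⟩ := approx_small d C hcard hε
  have hne : ∀ c ∈ C, Polynomial.aeval c h ≠ 0 := fun c hc =>
    approx_aeval_ne_zero hf hfi (hC c hc) h0 hdeg
  set q : Polynomial ℝ := Lagrange.interpolate C id fun c => y c / Polynomial.aeval c h with hq
  have hqc : ∀ c ∈ C, q.eval c = y c / Polynomial.aeval c h := by
    intro c hc
    have := Lagrange.eval_interpolate_at_node (s := C) (v := (id : ℝ → ℝ))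
      (fun c => y c / Polynomial.aeval c h) (Function.injective_id.injOn) hc
    exact this
  have hqd : q.natDegree < d := by
    by_cases hq0 : q = 0
    · rw [hq0, Polynomial.natDegree_zero]
      omega
    · have h1 : q.degree < C.card := Lagrange.degree_interpolate_lt _ Function.injective_id.injOn
      have h2 := (Polynomial.natDegree_lt_iff_degree_lt hq0).2 h1
      omega
  let qt : Polynomial ℤ := ∑ l ∈ Finset.range d, Polynomial.C ⌊q.coeff l⌋ * Polynomial.X ^ l
  have hqt : ∀ c ∈ C, |Polynomial.aeval c qt - q.eval c| ≤ R := by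
    intro c hc
    have h1 : Polynomial.aeval c qt = ∑ l ∈ Finset.range d, (⌊q.coeff l⌋ : ℝ) * c ^ l :=
      approx_aeval_sum d (fun l => ⌊q.coeff l⌋) c
    rw [h1, Polynomial.eval_eq_sum_range' hqd, ← Finset.sum_sub_distrib]
    refine (Finset.abs_sum_le_sum_abs _ _).trans (le_trans ?_ (hR c hc))
    refine Finset.sum_le_sum fun l _ => ?_
    rw [← sub_mul, abs_mul, abs_pow]
    have h2 : |(⌊q.coeff l⌋ : ℝ) - q.coeff l| ≤ 1 := by
      rw [abs_le]
      constructor
      · have := Int.lt_floor_add_one (q.coeff l)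
        linarith
      · have := Int.floor_le (q.coeff l)
        linarith
    calc |(⌊q.coeff l⌋ : ℝ) - q.coeff l| * |c| ^ l ≤ 1 * |c| ^ l :=
          mul_le_mul_of_nonneg_right h2 (pow_nonneg (abs_nonneg c) l)
      _ = |c| ^ l := one_mul _
  refine ⟨h * qt, fun c hc => ?_⟩
  have h1 : Polynomial.aeval c (h * qt) - y c
      = Polynomial.aeval c h * (Polynomial.aeval c qt - q.eval c) := by
    rw [hqc c hc, map_mul, mul_sub, mul_div_cancel₀ _ (hne c hc)]
  rw [h1, abs_mul]
  calc |Polynomial.aeval c h| * |Polynomial.aeval c qt - q.eval c|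
      ≤ (δ / (2 * R)) * R :=
        mul_le_mul (hsmall c hc) (hqt c hc) (abs_nonneg _) hε.le
    _ = δ / 2 := by field_simp
    _ < δ := by linarith

end Vale.Agent.P007.H11
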