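import Mathlib.LinearAlgebra.Basis.VectorSpace
import Mathlib.LinearAlgebra.Matrix.SpecialLinearGroup
import Mathlib.Topology.Instances.Matrix
import Mathlib.Topology.Instances.Rat
import Mathlib.Topology.Algebra.Order.Archimedean

/-!
Real solutions of integral linear systems are spanned by integral solutions; rational points are
dense in every basis.
-/

namespace Vale.Agent.P007.H11

open Matrix

/-- A rational vector is a positive integer fraction of an integral vector. -/
theorem exists_clear_denominators {n : ℕ} (x : Fin n → ℚ) :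
    ∃ (N : ℕ) (z : Fin n → ℤ), N ≠ 0 ∧ ∀ j, (z j : ℚ) = N * x j := by
  refine ⟨∏ j, (x j).den, fun j => (∏ i ∈ Finset.univ.erase j, ((x i).den : ℤ)) * (x j).num,
    Finset.prod_ne_zero_iff.2 fun j _ => (x j).den_ne_zero, fun j => ?_⟩
  have h : (∏ i, ((x i).den : ℚ)) = (∏ i ∈ Finset.univ.erase j, ((x i).den : ℚ)) * (x j).den :=
    (Finset.prod_erase_mul _ _ (Finset.mem_univ j)).symm
  push_cast
  rw [h, mul_assoc]
  congr 1
  exact (Rat.den_mul_eq_num (x j)).symm

/-- Every real solution of a homogeneous linear system with integral coefficients is a real linear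
combination of integral solutions. -/
theorem real_solution_mem_span {n : ℕ} {ι : Type} (A : ι → Fin n → ℤ) (ψ : Fin n → ℝ)
    (h : ∀ i, ∑ j, (A i j : ℝ) * ψ j = 0) :
    ψ ∈ Submodule.span ℝ {w : Fin n → ℝ | ∃ z : Fin n → ℤ,
      (∀ i, ∑ j, A i j * z j = 0) ∧ w = fun j => (z j : ℝ)} := by
  classical
  let b := Module.Basis.ofVectorSpace ℚ ℝ
  let S := Finset.univ.biUnion fun j : Fin n => (b.repr (ψ j)).support
  have hψ : ψ = ∑ k ∈ S, (b k) • fun j => ((b.repr (ψ j) k : ℚ) : ℝ) := by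
    funext j
    have h1 : ψ j = ∑ k ∈ S, (b.repr (ψ j) k) • b k := by
      conv_lhs => rw [← b.linearCombination_repr (ψ j)]
      rw [Finsupp.linearCombination_apply]
      refine Finsupp.sum_of_support_subset _ ?_ _ (by simp)
      exact Finset.subset_biUnion_of_mem (fun j : Fin n => (b.repr (ψ j)).support)
        (Finset.mem_univ j)
    rw [Finset.sum_apply]
    refine h1.trans (Finset.sum_congr rfl fun k _ => ?_)
    rw [Pi.smul_apply, smul_eq_mul, Rat.smul_def, mul_comm]
  rw [hψ]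
  refine Submodule.sum_mem _ fun k _ => Submodule.smul_mem _ _ ?_
  obtain ⟨N, z, hN, hz⟩ := exists_clear_denominators fun j => b.repr (ψ j) k
  have hN' : (N : ℝ) ≠ 0 := by exact_mod_cast hN
  have hsol : ∀ i, ∑ j, (A i j : ℚ) * b.repr (ψ j) k = 0 := by
    intro i
    have h2 : b.repr (∑ j, (A i j : ℚ) • ψ j) k = 0 := by
      have : ∑ j, (A i j : ℚ) • ψ j = 0 := by
        rw [← h i]
        refine Finset.sum_congr rfl fun j _ => ?_
        rw [Rat.smul_def]
        norm_cast
      rw [this]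
      simp
    simpa [map_sum, Finsupp.finsetSum_apply] using h2
  have hzr : ∀ j, (z j : ℝ) = N * ((b.repr (ψ j) k : ℚ) : ℝ) := by
    intro j
    have := congrArg (fun q : ℚ => (q : ℝ)) (hz j)
    push_cast at this
    exact this
  have hv : (fun j => ((b.repr (ψ j) k : ℚ) : ℝ)) = (N : ℝ)⁻¹ • fun j => (z j : ℝ) := by
    funext j
    rw [Pi.smul_apply, smul_eq_mul, hzr j, inv_mul_cancel_left₀ hN']
  rw [hv]
  refine Submodule.smul_mem _ _ (Submodule.subset_span ⟨z, fun i => ?_, rfl⟩)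
  have h3 : ((∑ j, A i j * z j : ℤ) : ℚ) = 0 := by
    push_cast
    calc ∑ j, (A i j : ℚ) * (z j : ℚ) = ∑ j, (N : ℚ) * ((A i j : ℚ) * b.repr (ψ j) k) :=
          Finset.sum_congr rfl fun j _ => by rw [hz j]; ring
      _ = 0 := by rw [← Finset.mul_sum, hsol i, mul_zero]
  exact_mod_cast h3

/-- Rational points are dense in every basis: near every vector `w` there is a rational combination
`N⁻¹ v g` of the rows of `g`. -/
theorem exists_rat_close {n : ℕ} (g : Matrix.SpecialLinearGroup (Fin n) ℝ) (w : Fin n → ℝ)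
    {U : Set (Fin n → ℝ)} (hU : U ∈ nhds w) :
    ∃ (N : ℤ) (v : Fin n → ℤ), N ≠ 0 ∧ ((N : ℝ)⁻¹ • ((fun i => (v i : ℝ)) ᵥ* g.1)) ∈ U := by
  have hcont : Continuous fun u : Fin n → ℝ => u ᵥ* g.1 :=
    Continuous.matrix_vecMul continuous_id continuous_const
  have hw : (w ᵥ* (g⁻¹).1) ᵥ* g.1 = w := by
    rw [Matrix.vecMul_vecMul]
    have : (g⁻¹).1 * g.1 = 1 := by
      rw [← Matrix.SpecialLinearGroup.coe_mul, inv_mul_cancel, Matrix.SpecialLinearGroup.coe_one]
    rw [this, Matrix.vecMul_one]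
  have hU' : (fun u : Fin n → ℝ => u ᵥ* g.1) ⁻¹' U ∈ nhds (w ᵥ* (g⁻¹).1) :=
    hcont.continuousAt.preimage_mem_nhds (by simpa only [hw] using hU)
  have hd : DenseRange fun (q : Fin n → ℚ) (i : Fin n) => (q i : ℝ) :=
    DenseRange.piMap fun _ => Rat.denseRange_cast
  obtain ⟨_, hq, q, rfl⟩ := mem_closure_iff_nhds.1 (hd (w ᵥ* (g⁻¹).1)) _ hU'
  obtain ⟨N, z, hN, hz⟩ := exists_clear_denominators q
  have hN' : (N : ℝ) ≠ 0 := by exact_mod_cast hN
  refine ⟨N, z, by exact_mod_cast hN, ?_⟩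
  have hzr : (fun i => (z i : ℝ)) = (N : ℝ) • fun i => (q i : ℝ) := by
    funext j
    have := congrArg (fun q : ℚ => (q : ℝ)) (hz j)
    push_cast at this
    simpa using this
  rw [hzr, Matrix.smul_vecMul, smul_smul]
  rw [show (((N : ℕ) : ℤ) : ℝ) = (N : ℝ) by norm_cast, inv_mul_cancel₀ hN', one_smul]
  exact hq

end Vale.Agent.P007.H11
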