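import Vale.Agent.P007.H11.Arith
import Vale.Agent.P007.H11.RatSol
import Vale.Agent.P007.H11.Approx

/-! At a point with real multiplication, the elements which are trivial on one block and fix the point
up to that block approximate all root group elements of the other blocks. -/

set_option autoImplicit false

open MeasureTheory Matrix Filter Topology ProbabilityTheory
open scoped ENNReal

namespace Vale.Agent.P007.H11

open Vale.Agent.P007 Vale.Agent.P007.Koopman Vale.Agent.P007.Mautner Vale.Agent.P007.R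
  Vale.Agent.P007.R.Blk

variable {n : ℕ}


/-- the matrix with the entries `ω (p k) y k v l` for `p k = p l` and `0` otherwise -/
noncomputable def Zm (p y v : Fin n → ℝ) (ω : ℝ → ℝ) : Matrix (Fin n) (Fin n) ℝ :=
  Matrix.of fun k l => if p k = p l then ω (p k) * y k * v l else 0

theorem Zm_apply (p y v : Fin n → ℝ) (ω : ℝ → ℝ) (k l : Fin n) :
    Zm p y v ω k l = if p k = p l then ω (p k) * y k * v l else 0 := rfl

/-- the parts of `y` and `v` on every block are orthogonal -/
def Perp (p y v : Fin n → ℝ) : Prop := ∀ c : ℝ, ∑ l, (if p l = c then v l * y l else 0) = 0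

theorem Zm_mul_Zm {p y v y' v' : Fin n → ℝ} (h : Perp p y' v) (ω ω' : ℝ → ℝ) :
    Zm p y v ω * Zm p y' v' ω' = 0 := by
  ext k m
  rw [Matrix.mul_apply, Matrix.zero_apply]
  have h0 : ∀ l, Zm p y v ω k l * Zm p y' v' ω' l m =
      (if p l = p k then v l * y' l else 0) *
        (if p k = p m then ω (p k) * y k * ω' (p k) * v' m else 0) := by
    intro l
    rw [Zm_apply, Zm_apply]
    by_cases h1 : p k = p l
    · rw [if_pos h1, if_pos h1.symm, ← h1]
      by_cases h2 : p k = p m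
      · rw [if_pos h2, if_pos h2]; ring
      · rw [if_neg h2, if_neg h2]; ring
    · rw [if_neg h1, zero_mul, if_neg (fun h => h1 (Eq.symm h)), zero_mul]
  rw [Finset.sum_congr rfl fun l _ => h0 l, ← Finset.sum_mul, h (p k), zero_mul]

theorem det_one_add_Zm {p y v : Fin n → ℝ} (h : Perp p y v) (ω : ℝ → ℝ) :
    (1 + Zm p y v ω).det = 1 := by
  classical
  let A : Matrix (Fin n) (Finset.univ.image p) ℝ :=
    Matrix.of fun k c => if p k = c.1 then ω c.1 * y k else 0
  let C : Matrix (Finset.univ.image p) (Fin n) ℝ :=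
    Matrix.of fun c l => if p l = c.1 then v l else 0
  have h1 : Zm p y v ω = A * C := by
    ext k l
    rw [Matrix.mul_apply,
      Finset.sum_eq_single ⟨p k, Finset.mem_image_of_mem p (Finset.mem_univ k)⟩]
    · simp only [A, C, Matrix.of_apply, Zm_apply]
      by_cases h1 : p k = p l
      · rw [if_pos h1, if_pos trivial, if_pos h1.symm]
      · rw [if_neg h1, if_neg (fun h : p l = p k => h1 h.symm), mul_zero]
    · intro c _ hc
      simp only [A, Matrix.of_apply]
      rw [if_neg (fun h => hc (Subtype.ext h.symm)), zero_mul]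
    · intro h
      exact absurd (Finset.mem_univ _) h
  have h2 : C * A = 0 := by
    ext c c'
    rw [Matrix.mul_apply, Matrix.zero_apply]
    have h3 : ∀ l, C c l * A l c' =
        (if p l = c.1 then v l * y l else 0) * (if c = c' then ω c.1 else 0) := by
      intro l
      simp only [A, C, Matrix.of_apply]
      by_cases h3 : p l = c.1
      · rw [if_pos h3, if_pos h3]
        by_cases h4 : c = c'
        · subst h4
          rw [if_pos h3, if_pos rfl]; ring
        · rw [if_neg h4, if_neg (fun h => h4 (Subtype.ext (h3.symm.trans h)))]; ring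
      · rw [if_neg h3, if_neg h3]; ring
    rw [Finset.sum_congr rfl fun l _ => h3 l, ← Finset.sum_mul, h c.1, zero_mul]
  rw [h1, Matrix.det_one_add_mul_comm, h2, add_zero, det_one]

/-! ### divided differences -/

theorem dd_ne {f : Polynomial ℤ} {x y : ℝ} (hxy : x ≠ y) (hx : Polynomial.aeval x f = 0)
    (hy : Polynomial.aeval y f = 0) :
    ∑ r ∈ Finset.range (f.natDegree + 1),
      (f.coeff r : ℝ) * ∑ a ∈ Finset.range r, x ^ a * y ^ (r - 1 - a) = 0 := by
  have h1 : (∑ r ∈ Finset.range (f.natDegree + 1),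
      (f.coeff r : ℝ) * ∑ a ∈ Finset.range r, x ^ a * y ^ (r - 1 - a)) * (x - y) = 0 := by
    rw [Finset.sum_mul]
    have h2 : ∀ r, (f.coeff r : ℝ) * (∑ a ∈ Finset.range r, x ^ a * y ^ (r - 1 - a)) * (x - y) =
        f.coeff r • x ^ r - f.coeff r • y ^ r := by
      intro r
      rw [mul_assoc, geom_sum₂_mul, mul_sub, zsmul_eq_mul, zsmul_eq_mul]
    rw [Finset.sum_congr rfl fun r _ => h2 r, Finset.sum_sub_distrib,
      ← Polynomial.aeval_eq_sum_range, ← Polynomial.aeval_eq_sum_range, hx, hy, sub_zero]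
  rcases mul_eq_zero.1 h1 with h | h
  · exact h
  · exact absurd (sub_eq_zero.1 h) hxy

theorem dd_eq (f : Polynomial ℤ) (x : ℝ) :
    ∑ r ∈ Finset.range (f.natDegree + 1),
      (f.coeff r : ℝ) * ∑ a ∈ Finset.range r, x ^ a * x ^ (r - 1 - a) =
      Polynomial.aeval x (Polynomial.derivative f) := by
  have h1 : ∀ r, ∑ a ∈ Finset.range r, x ^ a * x ^ (r - 1 - a) = r * x ^ (r - 1) := by
    intro r
    exact geom_sum₂_self x r
  rw [Finset.sum_congr rfl fun r _ => by rw [h1 r]]
  rw [Polynomial.derivative_apply, Polynomial.sum_over_range _ (by simp), map_sum]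
  refine Finset.sum_congr rfl fun r _ => ?_
  simp
  ring

/-- block orthogonality from the power sums -/
theorem perp_of_pow {p y v : Fin n → ℝ} (h : ∀ b : ℕ, b < n → ∑ l, v l * p l ^ b * y l = 0) :
    Perp p y v := by
  classical
  intro c
  by_cases hc : ∃ l₀, p l₀ = c
  · obtain ⟨l₀, hl₀⟩ := hc
    set I : Finset ℝ := (Finset.univ.image p).erase c with hI
    set L : Polynomial ℝ := ∏ c' ∈ I, (Polynomial.X - Polynomial.C c') with hL
    have hdeg : L.natDegree < n := by
      rw [hL, Polynomial.natDegree_prod_of_monic _ _ fun i _ => Polynomial.monic_X_sub_C i]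
      simp only [Polynomial.natDegree_X_sub_C, Finset.sum_const, smul_eq_mul, mul_one]
      have h1 : I.card < (Finset.univ.image p).card :=
        Finset.card_erase_lt_of_mem (by rw [← hl₀]; exact Finset.mem_image_of_mem p (Finset.mem_univ _))
      have h2 : (Finset.univ.image p).card ≤ n := by
        refine Finset.card_image_le.trans ?_
        rw [Finset.card_univ, Fintype.card_fin]
      omega
    have h1 : ∑ l, v l * L.eval (p l) * y l = 0 := by
      have h2 : ∀ l, v l * L.eval (p l) * y l =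
          ∑ b ∈ Finset.range (L.natDegree + 1), L.coeff b * (v l * p l ^ b * y l) := by
        intro l
        rw [Polynomial.eval_eq_sum_range, Finset.mul_sum, Finset.sum_mul]
        refine Finset.sum_congr rfl fun b _ => ?_
        ring
      rw [Finset.sum_congr rfl fun l _ => h2 l, Finset.sum_comm]
      refine Finset.sum_eq_zero fun b hb => ?_
      rw [← Finset.mul_sum, h b (by rw [Finset.mem_range] at hb; omega), mul_zero]
    have h3 : ∀ l, v l * L.eval (p l) * y l = L.eval c * (if p l = c then v l * y l else 0) := by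
      intro l
      by_cases hl : p l = c
      · rw [if_pos hl, hl]; ring
      · rw [if_neg hl, mul_zero]
        have h4 : L.eval (p l) = 0 := by
          rw [hL, Polynomial.eval_prod]
          refine Finset.prod_eq_zero (i := p l)
            (Finset.mem_erase.2 ⟨hl, Finset.mem_image_of_mem p (Finset.mem_univ l)⟩) ?_
          rw [Polynomial.eval_sub, Polynomial.eval_X, Polynomial.eval_C, sub_self]
        rw [h4, mul_zero, zero_mul]
    rw [Finset.sum_congr rfl fun l _ => h3 l, ← Finset.mul_sum] at h1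
    have h5 : L.eval c ≠ 0 := by
      rw [hL, Polynomial.eval_prod, Finset.prod_ne_zero_iff]
      intro c' hc'
      rw [Polynomial.eval_sub, Polynomial.eval_X, Polynomial.eval_C]
      exact sub_ne_zero.2 (Finset.mem_erase.1 hc').1.symm
    exact (mul_eq_zero.1 h1).resolve_left h5
  · refine Finset.sum_eq_zero fun l _ => ?_
    rw [if_neg fun h => hc ⟨l, h⟩]

theorem pow_of_perp {p y v : Fin n → ℝ} (h : Perp p y v) (b : ℕ) :
    ∑ l, v l * p l ^ b * y l = 0 := by
  classical
  have h1 : ∀ l, v l * p l ^ b * y l =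
      ∑ c ∈ Finset.univ.image p, c ^ b * (if p l = c then v l * y l else 0) := by
    intro l
    rw [Finset.sum_eq_single (p l)]
    · rw [if_pos rfl]; ring
    · intro c _ hc
      rw [if_neg hc.symm, mul_zero]
    · intro h
      exact absurd (Finset.mem_image_of_mem p (Finset.mem_univ l)) h
  rw [Finset.sum_congr rfl fun l _ => h1 l, Finset.sum_comm]
  refine Finset.sum_eq_zero fun c _ => ?_
  rw [← Finset.mul_sum, h c, mul_zero]

/-! ### the order `g⁻¹ M_n(ℤ) g` -/

theorem castM_one : castM (1 : Matrix (Fin n) (Fin n) ℤ) = 1 := by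
  ext i j
  rw [castM, map_apply, one_apply, one_apply]
  split_ifs <;> simp

theorem castM_zero : castM (0 : Matrix (Fin n) (Fin n) ℤ) = 0 := by
  ext i j
  simp [castM]

theorem castM_add (M N : Matrix (Fin n) (Fin n) ℤ) : castM (M + N) = castM M + castM N := by
  ext i j
  simp [castM]

theorem castM_neg (M : Matrix (Fin n) (Fin n) ℤ) : castM (-M) = -castM M := by
  ext i j
  simp [castM]

/-- the order `g⁻¹ M_n(ℤ) g` -/
def RG (g : G n) : Subring (Matrix (Fin n) (Fin n) ℝ) where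
  carrier := {Y | ∃ N : Matrix (Fin n) (Fin n) ℤ, g.1 * Y = castM N * g.1}
  mul_mem' := by
    rintro Y Y' ⟨N, hN⟩ ⟨N', hN'⟩
    refine ⟨N * N', ?_⟩
    rw [← mul_assoc, hN, mul_assoc, hN', ← mul_assoc, castM_mul]
  one_mem' := ⟨1, by rw [mul_one, castM_one, one_mul]⟩
  add_mem' := by
    rintro Y Y' ⟨N, hN⟩ ⟨N', hN'⟩
    refine ⟨N + N', ?_⟩
    rw [mul_add, hN, hN', castM_add, add_mul]
  zero_mem' := ⟨0, by rw [mul_zero, castM_zero, zero_mul]⟩
  neg_mem' := by
    rintro Y ⟨N, hN⟩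
    refine ⟨-N, ?_⟩
    rw [mul_neg, hN, castM_neg, neg_mul]

theorem tr_of_mem_RG {g γ : G n} (h : γ.1 ∈ RG g) : tr γ (pt g) = pt g := by
  obtain ⟨N, hN⟩ := h
  have hdet : (castM N).det = 1 := by
    have h1 := congrArg Matrix.det hN
    rw [Matrix.det_mul, Matrix.det_mul, det_G g, det_G γ, mul_one, mul_one] at h1
    exact h1.symm
  have hdet' : N.det = 1 := by
    have h1 : ((N.det : ℤ) : ℝ) = (castM N).det := (Int.castRingHom ℝ).map_det N
    rw [hdet] at h1
    exact_mod_cast h1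
  rw [tr_pt]
  symm
  rw [pt_eq_pt]
  refine ⟨⟨N, hdet'⟩, ?_⟩
  apply Subtype.ext
  change castM N = (g * γ * g⁻¹ : G n).1
  rw [coe_mul_G, coe_mul_G, hN, mul_assoc, g_mul_inv, mul_one]

theorem vecMulVec_mem_RG (g : G n) (ψ v₀ : Fin n → ℤ) :
    vecMulVec ((g⁻¹).1 *ᵥ zr ψ) (zr v₀ ᵥ* g.1) ∈ RG g := by
  refine ⟨vecMulVec ψ v₀, ?_⟩
  have h1 : castM (vecMulVec ψ v₀) = vecMulVec (zr ψ) (zr v₀) := by
    ext i j
    simp [castM, vecMulVec_apply, zr]
  rw [h1, vecMulVec_mul, mul_vecMulVec, mulVec_mulVec, g_mul_inv, one_mulVec]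

theorem aeval_mem_RG {p : Fin n → ℝ} {g : G n} (hs : Stab p g) (h : Polynomial ℤ) :
    Polynomial.aeval (diagonal p) h ∈ RG g := by
  rw [Polynomial.aeval_eq_sum_range]
  exact sum_mem fun r _ => zsmul_mem (pow_mem (show diagonal p ∈ RG g from hs) r) _

theorem Zm_deriv (y v : Fin n → ℝ) {p : Fin n → ℝ} {f : Polynomial ℤ}
    (hf : ∀ j, Polynomial.aeval (p j) f = 0) :
    Zm p y v (fun c => Polynomial.aeval c (Polynomial.derivative f)) =
      ∑ r ∈ Finset.range (f.natDegree + 1), f.coeff r • ∑ a ∈ Finset.range r,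
        diagonal p ^ a * vecMulVec y v * diagonal p ^ (r - 1 - a) := by
  ext k l
  rw [Matrix.sum_apply]
  have h1 : ∀ r, (f.coeff r • ∑ a ∈ Finset.range r,
        diagonal p ^ a * vecMulVec y v * diagonal p ^ (r - 1 - a)) k l =
      (f.coeff r : ℝ) * (∑ a ∈ Finset.range r, p k ^ a * p l ^ (r - 1 - a)) * (y k * v l) := by
    intro r
    rw [Matrix.smul_apply, zsmul_eq_mul, Matrix.sum_apply, mul_assoc, Finset.sum_mul]
    congr 1
    refine Finset.sum_congr rfl fun a _ => ?_
    rw [diagonal_pow, diagonal_pow, mul_diagonal, diagonal_mul, vecMulVec_apply, Pi.pow_apply,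
      Pi.pow_apply]
    ring
  rw [Finset.sum_congr rfl fun r _ => h1 r, ← Finset.sum_mul, Zm_apply]
  by_cases h : p k = p l
  · rw [if_pos h, ← h, dd_eq]; ring
  · rw [if_neg h, dd_ne h (hf k) (hf l), zero_mul]

theorem Zm_mul_aeval (p y v : Fin n → ℝ) (ω : ℝ → ℝ) (h : Polynomial ℤ) :
    Zm p y v ω * Polynomial.aeval (diagonal p) h =
      Zm p y v (fun c => Polynomial.aeval c h * ω c) := by
  rw [aeval_diag]
  ext k l
  rw [mul_diagonal, Zm_apply, Zm_apply]
  by_cases h1 : p k = p l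
  · rw [if_pos h1, if_pos h1, h1]; ring
  · rw [if_neg h1, if_neg h1, zero_mul]

/-! ### the elements `1 + Z` -/

/-- `1 + Z` as an element of `SL_n(ℝ)` -/
noncomputable def tau {p y v : Fin n → ℝ} (h : Perp p y v) (ω : ℝ → ℝ) : G n :=
  ⟨1 + Zm p y v ω, det_one_add_Zm h ω⟩

theorem coe_tau {p y v : Fin n → ℝ} (h : Perp p y v) (ω : ℝ → ℝ) :
    (tau h ω : G n).1 = 1 + Zm p y v ω := rfl

theorem coe_tau_mul {p y v y' : Fin n → ℝ} (h : Perp p y v) (h' : Perp p y' v) (ω ω' : ℝ → ℝ) :
    (tau h ω * tau h' ω' : G n).1 = 1 + (Zm p y v ω + Zm p y' v ω') := by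
  rw [coe_mul_G, coe_tau, coe_tau, add_mul, one_mul, mul_add, mul_one, Zm_mul_Zm h', add_zero]
  abel

theorem tau_fix {p : Fin n → ℝ} {f : Polynomial ℤ} (hf : ∀ j, Polynomial.aeval (p j) f = 0)
    {g : G n} (hs : Stab p g) (v₀ ψ : Fin n → ℤ)
    (h : Perp p ((g⁻¹).1 *ᵥ zr ψ) (zr v₀ ᵥ* g.1)) (q : Polynomial ℤ) :
    tr (tau h fun c => Polynomial.aeval c q * Polynomial.aeval c (Polynomial.derivative f))
      (pt g) = pt g := by
  apply tr_of_mem_RG
  rw [coe_tau, ← Zm_mul_aeval, Zm_deriv _ _ hf]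
  refine add_mem (one_mem _) (mul_mem (sum_mem fun r _ => zsmul_mem (sum_mem fun a _ => ?_) _)
    (aeval_mem_RG hs q))
  have hd : diagonal p ∈ RG g := hs
  exact mul_mem (mul_mem (pow_mem hd _) (vecMulVec_mem_RG g ψ v₀)) (pow_mem hd _)

theorem tau_split {p y v : Fin n → ℝ} (h : Perp p y v) (B : Finset (Fin n)) (i₀ : Fin n)
    (hB : ∀ j, j ∈ B ↔ p j = p i₀) (ω : ℝ → ℝ) :
    ∃ q : HB B, tau h ω = io q * tau h (fun c => if c = p i₀ then 0 else ω c) := by
  classical
  set ω₁ : ℝ → ℝ := fun c => if c = p i₀ then ω c else 0 with hω₁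
  set T : Matrix (Fin n) (Fin n) ℝ := 1 + Zm p y v ω₁ with hT
  have hbm : bm (T.submatrix (Subtype.val : B → Fin n) (Subtype.val : B → Fin n)) = T := by
    ext k l
    by_cases hk : k ∈ B
    · by_cases hl : l ∈ B
      · rw [bm_apply_mem' _ hk hl]
        rfl
      · rw [bm_apply_mem_not _ hk hl, hT, Matrix.add_apply, Zm_apply,
          one_apply_ne (fun h : k = l => hl (h ▸ hk)),
          if_neg (fun h => hl ((hB l).2 (h.symm.trans ((hB k).1 hk)))), add_zero]
    · by_cases hl : l ∈ B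
      · rw [bm_apply_not_mem _ hk hl, hT, Matrix.add_apply, Zm_apply,
          one_apply_ne (fun h : k = l => hk (h ▸ hl)),
          if_neg (fun h => hk ((hB k).2 (h.trans ((hB l).1 hl)))), add_zero]
      · rw [bm_apply_not_not _ hk hl, hT, Matrix.add_apply, Zm_apply, one_apply]
        have h1 : ω₁ (p k) = 0 := if_neg fun h => hk ((hB k).2 h)
        rw [h1, zero_mul, zero_mul]
        simp
  have hdet : (T.submatrix (Subtype.val : B → Fin n) (Subtype.val : B → Fin n)).det = 1 := by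
    rw [← det_bm, hbm]
    exact det_one_add_Zm h ω₁
  refine ⟨⟨_, hdet⟩, ?_⟩
  apply Subtype.ext
  rw [coe_mul_G]
  change 1 + Zm p y v ω = bm (T.submatrix (Subtype.val : B → Fin n) (Subtype.val : B → Fin n)) *
    (1 + Zm p y v fun c => if c = p i₀ then 0 else ω c)
  rw [hbm, hT, add_mul, one_mul, mul_add, mul_one, Zm_mul_Zm h, add_zero, add_assoc]
  congr 1
  ext k l
  rw [Matrix.add_apply, Zm_apply, Zm_apply, Zm_apply, hω₁]
  by_cases h1 : p k = p l
  · rw [if_pos h1, if_pos h1, if_pos h1]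
    by_cases h2 : p k = p i₀
    · simp only [if_pos h2]; ring
    · simp only [if_neg h2]; ring
  · rw [if_neg h1, if_neg h1, if_neg h1, add_zero]

/-! ### the monoid -/

theorem bm_sub_one_mul {B : Finset (Fin n)} (M : Matrix B B ℝ) {γ : Matrix (Fin n) (Fin n) ℝ}
    (hγ : ∀ k l, (k ∈ B ∨ l ∈ B) → γ k l = if k = l then 1 else 0) :
    (bm M - 1) * (γ - 1) = 0 ∧ (γ - 1) * (bm M - 1) = 0 := by
  have h1 : ∀ k l, (k ∈ B ∨ l ∈ B) → (γ - 1) k l = 0 := by
    intro k l h
    rw [Matrix.sub_apply, hγ k l h, one_apply, sub_self]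
  have h2 : ∀ k l, (k ∉ B ∨ l ∉ B) → (bm M - 1) k l = 0 := by
    intro k l h
    rw [Matrix.sub_apply, one_apply]
    by_cases hk : k ∈ B
    · have hl : l ∉ B := h.resolve_left (fun h => h hk)
      rw [bm_apply_mem_not _ hk hl, if_neg (fun h : k = l => hl (h ▸ hk)), sub_zero]
    · by_cases hl : l ∈ B
      · rw [bm_apply_not_mem _ hk hl, if_neg (fun h : k = l => hk (h ▸ hl)), sub_zero]
      · rw [bm_apply_not_not _ hk hl, sub_self]
  constructor
  · ext k l
    rw [Matrix.mul_apply]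
    refine Finset.sum_eq_zero fun m _ => ?_
    by_cases hm : m ∈ B
    · rw [h1 m l (Or.inl hm), mul_zero]
    · rw [h2 k m (Or.inr hm), zero_mul]
  · ext k l
    rw [Matrix.mul_apply]
    refine Finset.sum_eq_zero fun m _ => ?_
    by_cases hm : m ∈ B
    · rw [h1 k m (Or.inr hm), zero_mul]
    · rw [h2 m l (Or.inl hm), mul_zero]

theorem io_comm {B : Finset (Fin n)} (q : HB B) {γ : G n}
    (hγ : ∀ k l, (k ∈ B ∨ l ∈ B) → γ.1 k l = if k = l then 1 else 0) :
    io q * γ = γ * io q := by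
  apply Subtype.ext
  rw [coe_mul_G, coe_mul_G, coe_io]
  obtain ⟨h1, h2⟩ := bm_sub_one_mul q.1 hγ
  have h3 : bm q.1 * γ.1 = (bm q.1 - 1) * (γ.1 - 1) + bm q.1 + γ.1 - 1 := by
    rw [sub_mul, mul_sub, one_mul, mul_one]; abel
  have h4 : γ.1 * bm q.1 = (γ.1 - 1) * (bm q.1 - 1) + bm q.1 + γ.1 - 1 := by
    rw [sub_mul, mul_sub, one_mul, mul_one]; abel
  rw [h3, h4, h1, h2]

/-- the elements, trivial on the block `B`, which fix the point `pt g` up to the block `B` -/
def Lam (B : Finset (Fin n)) (g : G n) : Submonoid (G n) where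
  carrier := {γ | (∀ k l, (k ∈ B ∨ l ∈ B) → γ.1 k l = if k = l then 1 else 0) ∧
    ∃ q : HB B, tr (io q * γ) (pt g) = pt g}
  one_mem' := ⟨fun k l _ => by rw [Matrix.SpecialLinearGroup.coe_one, one_apply],
    1, by rw [map_one, one_mul, Vale.Agent.P007.tr_one]⟩
  mul_mem' := by
    rintro γ γ' ⟨hγ, q, hq⟩ ⟨hγ', q', hq'⟩
    refine ⟨?_, q * q', ?_⟩
    · intro k l h
      rw [coe_mul_G, Matrix.mul_apply]
      rcases h with h | h
      · rw [Finset.sum_eq_single k]
        · rw [hγ k k (Or.inl h), if_pos rfl, one_mul, hγ' k l (Or.inl h)]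
        · intro m _ hm
          rw [hγ k m (Or.inl h), if_neg hm.symm, zero_mul]
        · intro h'; exact absurd (Finset.mem_univ _) h'
      · rw [Finset.sum_eq_single l]
        · rw [hγ' l l (Or.inl h), if_pos rfl, mul_one, hγ k l (Or.inr h)]
        · intro m _ hm
          rw [hγ' m l (Or.inr h), if_neg hm, mul_zero]
        · intro h'; exact absurd (Finset.mem_univ _) h'
    · have h1 : (io (q * q') * (γ * γ') : G n) = (io q * γ) * (io q' * γ') := by
        rw [map_mul, mul_assoc, mul_assoc]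
        congr 1
        rw [← mul_assoc, io_comm q' hγ, mul_assoc]
      rw [h1, ← tr_tr, hq, hq']

theorem tau_mem_Lam {p : Fin n → ℝ} {f : Polynomial ℤ} (hf : ∀ j, Polynomial.aeval (p j) f = 0)
    {g : G n} (hs : Stab p g) (v₀ ψ : Fin n → ℤ)
    (h : Perp p ((g⁻¹).1 *ᵥ zr ψ) (zr v₀ ᵥ* g.1)) (B : Finset (Fin n)) (i₀ : Fin n)
    (hB : ∀ j, j ∈ B ↔ p j = p i₀) (q : Polynomial ℤ) :
    (tau h fun c => if c = p i₀ then 0 else
      Polynomial.aeval c q * Polynomial.aeval c (Polynomial.derivative f)) ∈ Lam B g := by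
  refine ⟨?_, ?_⟩
  · intro k l hkl
    rw [coe_tau, Matrix.add_apply, Zm_apply, one_apply]
    by_cases h1 : p k = p l
    · have h2 : p k = p i₀ := by
        rcases hkl with hk | hl
        · exact (hB k).1 hk
        · exact h1.trans ((hB l).1 hl)
      rw [if_pos h1, if_pos h2, zero_mul, zero_mul, add_zero]
    · rw [if_neg h1, add_zero]
  · obtain ⟨r, hr⟩ := tau_split h B i₀ hB
      (fun c => Polynomial.aeval c q * Polynomial.aeval c (Polynomial.derivative f))
    exact ⟨r, by rw [← hr]; exact tau_fix hf hs v₀ ψ h q⟩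

theorem tendsto_G {ι : Type*} {F : Filter ι} {a : ι → G n} {b : G n}
    (h : ∀ k l, Tendsto (fun x => (a x).1 k l) F (𝓝 (b.1 k l))) : Tendsto a F (𝓝 b) := by
  refine (Matrix.SpecialLinearGroup.isClosedEmbedding_val (n := Fin n)
    (R := ℝ)).isEmbedding.tendsto_nhds_iff.2 ?_
  exact tendsto_pi_nhds.2 fun k => tendsto_pi_nhds.2 fun l => h k l

theorem tau_mem_closure {p : Fin n → ℝ} {f : Polynomial ℤ} (hfm : f.Monic) (hfi : Irreducible f)
    (hf : ∀ j, Polynomial.aeval (p j) f = 0)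
    {g : G n} (hs : Stab p g) (v₀ ψ : Fin n → ℤ)
    (h : Perp p ((g⁻¹).1 *ᵥ zr ψ) (zr v₀ ᵥ* g.1)) (B : Finset (Fin n)) (i₀ : Fin n)
    (hB : ∀ j, j ∈ B ↔ p j = p i₀) (ω : ℝ → ℝ) (hω : ω (p i₀) = 0) :
    tau h ω ∈ (Lam B g).topologicalClosure := by
  classical
  have hder : ∀ j, Polynomial.aeval (p j) (Polynomial.derivative f) ≠ 0 := by
    intro j
    have hirr : Irreducible (f.map (algebraMap ℤ ℚ)) :=
      (hfm.irreducible_iff_irreducible_map_fraction_map (K := ℚ)).1 hfi
    have hsep : (f.map (algebraMap ℤ ℚ)).Separable := hirr.separable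
    have h1 : Polynomial.aeval (p j) (f.map (algebraMap ℤ ℚ)) = 0 := by
      rw [Polynomial.aeval_map_algebraMap]; exact hf j
    have h2 := hsep.aeval_derivative_ne_zero h1
    rwa [Polynomial.derivative_map, Polynomial.aeval_map_algebraMap] at h2
  have hA : ∀ m : ℕ, ∃ q : Polynomial ℤ, ∀ c ∈ (Finset.univ.image p).erase (p i₀),
      |Polynomial.aeval c q - ω c / Polynomial.aeval c (Polynomial.derivative f)| <
        1 / ((m : ℝ) + 1) := fun m =>
    exists_poly_approx hfm hfi _ (by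
      intro c hc
      obtain ⟨j, -, rfl⟩ := Finset.mem_image.1 (Finset.mem_of_mem_erase hc)
      exact hf j) (hf i₀) (Finset.notMem_erase _ _) _ (by positivity)
  choose q hq using hA
  refine mem_closure_of_tendsto (f := fun m : ℕ => tau h fun c => if c = p i₀ then 0 else
      Polynomial.aeval c (q m) * Polynomial.aeval c (Polynomial.derivative f)) (b := atTop) ?_
    (Eventually.of_forall fun m => tau_mem_Lam hf hs v₀ ψ h B i₀ hB (q m))
  refine tendsto_G fun k l => ?_
  simp only [coe_tau, Matrix.add_apply, Zm_apply]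
  refine Tendsto.add tendsto_const_nhds ?_
  by_cases h1 : p k = p l
  · simp only [if_pos h1]
    refine Tendsto.mul_const _ (Tendsto.mul_const _ ?_)
    by_cases h2 : p k = p i₀
    · simp only [if_pos h2]
      rw [h2, hω]
      exact tendsto_const_nhds
    · simp only [if_neg h2]
      have h3 : Tendsto (fun m : ℕ => Polynomial.aeval (p k) (q m)) atTop
          (𝓝 (ω (p k) / Polynomial.aeval (p k) (Polynomial.derivative f))) := by
        rw [tendsto_iff_norm_sub_tendsto_zero]
        refine squeeze_zero (fun m => norm_nonneg _) (fun m => ?_)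
          (tendsto_one_div_add_atTop_nhds_zero_nat (𝕜 := ℝ))
        exact (hq m (p k) (Finset.mem_erase.2
          ⟨h2, Finset.mem_image_of_mem p (Finset.mem_univ k)⟩)).le
      have h4 := h3.mul_const (Polynomial.aeval (p k) (Polynomial.derivative f))
      rwa [div_mul_cancel₀ _ (hder k)] at h4
  · simp only [if_neg h1]
    exact tendsto_const_nhds

/-! ### the real subspace -/

theorem Perp.zero (p v : Fin n → ℝ) : Perp p 0 v := fun c => by simp

theorem Perp.add {p y y' v : Fin n → ℝ} (h : Perp p y v) (h' : Perp p y' v) :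
    Perp p (y + y') v := by
  intro c
  have h1 : ∀ l, (if p l = c then v l * (y + y') l else 0) =
      (if p l = c then v l * y l else 0) + (if p l = c then v l * y' l else 0) := by
    intro l
    split_ifs
    · rw [Pi.add_apply]; ring
    · rw [add_zero]
  rw [Finset.sum_congr rfl fun l _ => h1 l, Finset.sum_add_distrib, h c, h' c, add_zero]

theorem Perp.smul {p y v : Fin n → ℝ} (h : Perp p y v) (a : ℝ) : Perp p (a • y) v := by
  intro c
  have h1 : ∀ l, (if p l = c then v l * (a • y) l else 0) =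
      a * (if p l = c then v l * y l else 0) := by
    intro l
    split_ifs
    · rw [Pi.smul_apply, smul_eq_mul]; ring
    · rw [mul_zero]
  rw [Finset.sum_congr rfl fun l _ => h1 l, ← Finset.mul_sum, h c, mul_zero]

theorem tau_congr {p y y' v v' : Fin n → ℝ} (h : Perp p y v) (h' : Perp p y' v') {ω ω' : ℝ → ℝ}
    (he : Zm p y v ω = Zm p y' v' ω') : (tau h ω : G n) = tau h' ω' := by
  apply Subtype.ext
  rw [coe_tau, coe_tau, he]

/-- the space of the `ψ` with all `1 + Z` in `D` -/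
noncomputable def Wv (p v : Fin n → ℝ) (g : G n) (i : Fin n) (D : Submonoid (G n)) :
    Submodule ℝ (Fin n → ℝ) where
  carrier := {ψ | ∃ h : Perp p ((g⁻¹).1 *ᵥ ψ) v,
    ∀ s : ℝ, tau h (fun c => if c = p i then s else 0) ∈ D}
  zero_mem' := by
    refine ⟨by rw [mulVec_zero]; exact Perp.zero p v, fun s => ?_⟩
    have h1 : ∀ h : Perp p ((g⁻¹).1 *ᵥ 0) v,
        (tau h (fun c => if c = p i then s else 0) : G n) = 1 := by
      intro h
      apply Subtype.ext
      rw [coe_tau, Matrix.SpecialLinearGroup.coe_one]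
      ext k l
      rw [Matrix.add_apply, Zm_apply, mulVec_zero, Pi.zero_apply, mul_zero, zero_mul]
      simp
    rw [h1]
    exact one_mem D
  add_mem' := by
    rintro ψ ψ' ⟨h, hs⟩ ⟨h', hs'⟩
    refine ⟨by rw [mulVec_add]; exact h.add h', fun s => ?_⟩
    have h1 : ∀ h'' : Perp p ((g⁻¹).1 *ᵥ (ψ + ψ')) v,
        (tau h'' (fun c => if c = p i then s else 0) : G n) =
          tau h (fun c => if c = p i then s else 0) * tau h' (fun c => if c = p i then s else 0) := by
      intro h''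
      apply Subtype.ext
      rw [coe_tau_mul, coe_tau]
      congr 1
      ext k l
      rw [Matrix.add_apply, Zm_apply, Zm_apply, Zm_apply, mulVec_add, Pi.add_apply]
      split_ifs <;> ring
    rw [h1]
    exact mul_mem (hs s) (hs' s)
  smul_mem' := by
    rintro a ψ ⟨h, hs⟩
    refine ⟨by rw [mulVec_smul]; exact h.smul a, fun s => ?_⟩
    have h1 : ∀ h'' : Perp p ((g⁻¹).1 *ᵥ (a • ψ)) v,
        (tau h'' (fun c => if c = p i then s else 0) : G n) =
          tau h (fun c => if c = p i then a * s else 0) := by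
      intro h''
      apply tau_congr
      ext k l
      rw [Zm_apply, Zm_apply, mulVec_smul, Pi.smul_apply, smul_eq_mul]
      split_ifs <;> ring
    rw [h1]
    exact hs (a * s)

theorem mem_Wv {p : Fin n → ℝ} {f : Polynomial ℤ} (hfm : f.Monic) (hfi : Irreducible f)
    (hf : ∀ j, Polynomial.aeval (p j) f = 0)
    {g : G n} (hs : Stab p g) (v₀ : Fin n → ℤ) (B : Finset (Fin n)) (i₀ : Fin n)
    (hB : ∀ j, j ∈ B ↔ p j = p i₀) {i : Fin n} (hiB : i ∉ B) {y : Fin n → ℝ}
    (hy : Perp p y (zr v₀ ᵥ* g.1)) :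
    g.1 *ᵥ y ∈ Wv p (zr v₀ ᵥ* g.1) g i (Lam B g).topologicalClosure := by
  obtain ⟨M, hM⟩ := hs
  have hpow : ∀ b : ℕ, g.1 * diagonal p ^ b = castM (M ^ b) * g.1 := by
    intro b
    induction b with
    | zero => rw [pow_zero, pow_zero, mul_one, castM_one, one_mul]
    | succ b ih => rw [pow_succ, ← mul_assoc, ih, mul_assoc, hM, ← mul_assoc, ← castM_mul, pow_succ]
  have key : ∀ (b : ℕ) (ψ : Fin n → ℝ), ∑ j, (((v₀ ᵥ* (M ^ b)) j : ℤ) : ℝ) * ψ j =
      ∑ l, (zr v₀ ᵥ* g.1) l * p l ^ b * ((g⁻¹).1 *ᵥ ψ) l := by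
    intro b ψ
    have h1 : ∀ j, (((v₀ ᵥ* (M ^ b)) j : ℤ) : ℝ) = (zr v₀ ᵥ* castM (M ^ b)) j := by
      intro j
      simp only [vecMul, dotProduct, castM, map_apply, zr]
      push_cast
      rfl
    have h2 : ∑ j, (zr v₀ ᵥ* castM (M ^ b)) j * ψ j = (zr v₀ ᵥ* castM (M ^ b)) ⬝ᵥ ψ := rfl
    have h3 : ∑ l, (zr v₀ ᵥ* g.1) l * p l ^ b * ((g⁻¹).1 *ᵥ ψ) l =
        ((zr v₀ ᵥ* g.1) ᵥ* diagonal p ^ b) ⬝ᵥ ((g⁻¹).1 *ᵥ ψ) := by
      rw [diagonal_pow, dotProduct]
      refine Finset.sum_congr rfl fun l _ => ?_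
      rw [vecMul_diagonal, Pi.pow_apply]
    rw [Finset.sum_congr rfl fun j _ => by rw [h1 j], h2, h3, vecMul_vecMul, hpow,
      ← vecMul_vecMul, dotProduct_mulVec, vecMul_vecMul, vecMul_vecMul, g_mul_inv, mul_one]
  have h1 := real_solution_mem_span (fun (b : Fin n) => v₀ ᵥ* (M ^ (b : ℕ))) (g.1 *ᵥ y) (by
    intro b
    rw [key, mulVec_mulVec, g_inv_mul, one_mulVec]
    exact pow_of_perp hy b)
  refine Submodule.span_le.2 ?_ h1
  rintro w ⟨z, hz, rfl⟩
  have hp : Perp p ((g⁻¹).1 *ᵥ zr z) (zr v₀ ᵥ* g.1) := by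
    refine perp_of_pow fun b hb => ?_
    rw [← key]
    have h2 := hz ⟨b, hb⟩
    simp only [zr]
    exact_mod_cast h2
  refine ⟨hp, fun s => ?_⟩
  refine tau_mem_closure hfm hfi hf ⟨M, hM⟩ v₀ z hp B i₀ hB _ ?_
  exact if_neg fun h => hiB ((hB i).2 h.symm)

/-! ### the root directions -/

/-- `v j e_i - v i e_j` -/
def yv (i j : Fin n) (v : Fin n → ℝ) : Fin n → ℝ :=
  fun k => (if k = i then v j else 0) - (if k = j then v i else 0)

theorem perp_yv {p : Fin n → ℝ} {i j : Fin n} (hpij : p i = p j) (v : Fin n → ℝ) :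
    Perp p (yv i j v) v := by
  intro c
  have h1 : ∀ l, (if p l = c then v l * yv i j v l else 0) =
      (if l = i then (if p i = c then v i * v j else 0) else 0) -
        (if l = j then (if p i = c then v i * v j else 0) else 0) := by
    intro l
    simp only [yv]
    by_cases hi : l = i
    · subst hi
      by_cases hj : l = j
      · subst hj
        simp
      · simp [hj]
    · by_cases hj : l = j
      · subst hj
        rw [if_neg hi, if_neg hi, if_pos rfl, if_pos rfl, hpij]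
        split_ifs <;> ring
      · simp [hi, hj]
  rw [Finset.sum_congr rfl fun l _ => h1 l, Finset.sum_sub_distrib]
  simp

theorem ug_mem_closure {p : Fin n → ℝ} (hp : IsMult p) {g : G n} (hs : Stab p g)
    (B : Finset (Fin n)) (i₀ : Fin n) (hB : ∀ j, j ∈ B ↔ p j = p i₀) {i j : Fin n} (hij : i ≠ j)
    (hpij : p i = p j) (hiB : i ∉ B) (s : ℝ) {V : Set (G n)} (hV : V ∈ 𝓝 (ug i j s : G n)) :
    ∃ q : HB B, ∃ γ ∈ V, (∀ k l, (k ∈ B ∨ l ∈ B) → γ.1 k l = if k = l then 1 else 0) ∧
      tr (io q * γ) (pt g) = pt g := by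
  obtain ⟨f, hfm, hfi, -, -, hf⟩ := hp
  set D : Submonoid (G n) := (Lam B g).topologicalClosure with hD
  set Ψ : ℝ → (Fin n → ℝ) → G n := fun s v =>
    tau (perp_yv hpij v) (fun c => if c = p i then s else 0) with hΨ
  have hcont : Continuous (Ψ s) := by
    rw [continuous_iff_continuousAt]
    intro v
    refine tendsto_G fun k l => ?_
    simp only [hΨ, coe_tau, Matrix.add_apply, Zm_apply, yv]
    have h1 : Continuous fun v : Fin n → ℝ => (1 : Matrix (Fin n) (Fin n) ℝ) k l +
        (if p k = p l then (if p k = p i then s else 0) *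
          ((if k = i then v j else 0) - (if k = j then v i else 0)) * v l else 0) := by
      split_ifs <;> fun_prop
    exact h1.tendsto v
  have hrat : ∀ (N : ℤ) (v₀ : Fin n → ℤ), N ≠ 0 →
      Ψ s ((N : ℝ)⁻¹ • ((fun i => (v₀ i : ℝ)) ᵥ* g.1)) ∈ D := by
    intro N v₀ hN
    change Ψ s ((N : ℝ)⁻¹ • (zr v₀ ᵥ* g.1)) ∈ D
    have h1 : Ψ s ((N : ℝ)⁻¹ • (zr v₀ ᵥ* g.1)) =
        Ψ (s * ((N : ℝ)⁻¹ * (N : ℝ)⁻¹)) (zr v₀ ᵥ* g.1) := by
      apply tau_congr
      ext k l
      rw [Zm_apply, Zm_apply]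
      simp only [yv, Pi.smul_apply, smul_eq_mul]
      split_ifs <;> ring
    rw [h1]
    obtain ⟨h2, h3⟩ := mem_Wv hfm hfi hf hs v₀ B i₀ hB hiB
      (perp_yv (p := p) hpij (zr v₀ ᵥ* g.1))
    have h4 := h3 (s * ((N : ℝ)⁻¹ * (N : ℝ)⁻¹))
    have h5 : Ψ (s * ((N : ℝ)⁻¹ * (N : ℝ)⁻¹)) (zr v₀ ᵥ* g.1) =
        tau h2 (fun c => if c = p i then s * ((N : ℝ)⁻¹ * (N : ℝ)⁻¹) else 0) := by
      apply tau_congr
      rw [mulVec_mulVec, g_inv_mul, one_mulVec]
    rw [h5]
    exact h4
  have hmem : Ψ s (Pi.single j 1) ∈ D := by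
    have hcl : IsClosed (Ψ s ⁻¹' (D : Set (G n))) :=
      (Submonoid.isClosed_topologicalClosure _).preimage hcont
    have h1 : (Pi.single j 1 : Fin n → ℝ) ∈ closure (Ψ s ⁻¹' (D : Set (G n))) := by
      rw [mem_closure_iff_nhds]
      intro U hU
      obtain ⟨N, v₀, hN, h2⟩ := exists_rat_close g (Pi.single j 1) hU
      exact ⟨_, h2, hrat N v₀ hN⟩
    rwa [hcl.closure_eq] at h1
  have hug : Ψ s (Pi.single j 1) = ug i j s := by
    apply Subtype.ext
    ext k l
    rw [ug_apply hij]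
    simp only [hΨ, coe_tau, Matrix.add_apply, Zm_apply, yv, one_apply, Pi.single_apply]
    by_cases hk : k = i
    · subst hk
      by_cases hl : l = j
      · subst hl
        simp [hpij, hij]
      · simp [hl]
    · by_cases hk' : k = j
      · subst hk'
        simp [hk, hij]
      · simp [hk, hk']
  rw [hug] at hmem
  obtain ⟨γ, hγV, hγ, q, hq⟩ := mem_closure_iff_nhds.1 hmem V hV
  exact ⟨q, γ, hγV, hγ, hq⟩

end Vale.Agent.P007.H11
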