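import Vale.Agent.P007.H11.Mix
import Vale.Agent.P007.H11.Arith2
import Vale.Agent.P007.H11.Gal
import Vale.Agent.P007.H11.Exhaust

/-! All weak limits in odd degree are algebraic. -/

set_option autoImplicit false

open MeasureTheory Matrix Filter Topology ProbabilityTheory
open scoped ENNReal

namespace Vale.Agent.P007.H11

open Vale.Agent.P007 Vale.Agent.P007.Koopman Vale.Agent.P007.Mautner Vale.Agent.P007.R
  Vale.Agent.P007.R.Blk

variable {n : ℕ}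

/-- the lattices with real multiplication by some `p` such that `B` is a level set of `p` -/
def RB (B : Finset (Fin n)) : Set (X n) :=
  {x | ∃ p : Fin n → ℝ, (IsMult p ∧ ∀ i ∈ B, ∀ j, j ∈ B ↔ p j = p i) ∧ x ∈ Yd p}

/-- An invariant measure with a proper block structure `B` charges some `Yd p` where `B` is a level
set of `p`. -/
theorem blocks_rm' (μ : Measure (X n)) [IsProbabilityMeasure μ] (hA : AInv μ)
    (B : Finset (Fin n)) (hB : 2 ≤ B.card) (hB' : B ≠ Finset.univ)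
    (h1 : ∀ i ∈ B, ∀ j ∈ B, i ≠ j → UInv μ i j)
    (h2 : ∀ i ∈ B, ∀ l ∉ B, Triv μ i l ∧ Triv μ l i) :
    ∃ p : Fin n → ℝ, IsMult p ∧ (∀ i ∈ B, ∀ j, j ∈ B ↔ p j = p i) ∧ μ (Yd p) ≠ 0 := by
  by_contra hcon0
  push Not at hcon0
  have hR0 : μ (RB B) = 0 := by
    have e : (RB B : Set (X n)) =
        ⋃ p ∈ {p : Fin n → ℝ | IsMult p ∧ ∀ i ∈ B, ∀ j, j ∈ B ↔ p j = p i}, Yd p := by
      ext x
      simp only [RB, Set.mem_ofPred_eq, Set.mem_iUnion, exists_prop]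
    rw [e, measure_biUnion_null_iff (countable_isMult.mono fun p hp => hp.1)]
    exact fun p hp => hcon0 p hp.1 hp.2
  obtain ⟨E, hEm, hE0, U, hU, hEU⟩ := drift μ hA B hB h1 h2
  have hBne : B.Nonempty := Finset.card_pos.1 (by omega)
  have htyp := ae_typical μ hA hBne
  have hr0 : ∀ i j : Fin n, ∀ᵐ x ∂μ, x ∈ E → ∀ V ∈ 𝓝 (1 : G n), ∃ᶠ m : ℕ in atTop,
      ∃ h ∈ V, tr (da (bij i j) ^ m) x = tr h x ∧ tr (da (bij i j) ^ m) x ∈ E := fun i j =>
    poincare μ _ (hA _) hEm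
  have hr1 : ∀ i j : Fin n, i ∈ B → j ∈ B → i ≠ j → ∀ᵐ x ∂μ, x ∈ E → ∀ V ∈ 𝓝 (1 : G n),
      ∃ᶠ m : ℕ in atTop, ∃ h ∈ V,
        tr ((ug i j 1 * da (bij i j) * (ug i j 1)⁻¹) ^ m) x = tr h x ∧
        tr ((ug i j 1 * da (bij i j) * (ug i j 1)⁻¹) ^ m) x ∈ E := fun i j hi hj hij =>
    poincare μ _ (mul_mem (mul_mem (ug_mem_invG (h1 i hi j hj hij) 1) (da_mem_invG hA _))
      (inv_mem (ug_mem_invG (h1 i hi j hj hij) 1)) : _ ∈ R.invG μ) hEm
  have hr0' : ∀ᵐ x ∂μ, ∀ i j : Fin n, x ∈ E → ∀ V ∈ 𝓝 (1 : G n), ∃ᶠ m : ℕ in atTop,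
      ∃ h ∈ V, tr (da (bij i j) ^ m) x = tr h x ∧ tr (da (bij i j) ^ m) x ∈ E :=
    ae_all_iff.2 fun i => ae_all_iff.2 fun j => hr0 i j
  have hr1' : ∀ᵐ x ∂μ, ∀ i j : Fin n, i ∈ B → j ∈ B → i ≠ j → x ∈ E → ∀ V ∈ 𝓝 (1 : G n),
      ∃ᶠ m : ℕ in atTop, ∃ h ∈ V,
        tr ((ug i j 1 * da (bij i j) * (ug i j 1)⁻¹) ^ m) x = tr h x ∧
        tr ((ug i j 1 * da (bij i j) * (ug i j 1)⁻¹) ^ m) x ∈ E := by
    refine ae_all_iff.2 fun i => ae_all_iff.2 fun j => ?_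
    by_cases hc : i ∈ B ∧ j ∈ B ∧ i ≠ j
    · filter_upwards [hr1 i j hc.1 hc.2.1 hc.2.2] with x hx _ _ _
      exact hx
    · exact Filter.Eventually.of_forall fun x hi hj hij => absurd ⟨hi, hj, hij⟩ hc
  have hnR : ∀ᵐ x ∂μ, x ∉ RB B := by
    rw [ae_iff]
    refine measure_mono_null (fun x hx => ?_) hR0
    exact not_not.1 hx
  obtain ⟨x, hxE, hx1, hx2, hx3, hx4⟩ : ∃ x ∈ E, (∀ g : G n, pt g = x → ∀ z : Fin n → ℤ,
      z ≠ 0 → (∃ i ∈ B, (zr z ᵥ* g.1) i ≠ 0) ∧ ∃ i ∈ B, ((g⁻¹).1 *ᵥ zr z) i ≠ 0) ∧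
      (∀ i j : Fin n, x ∈ E → ∀ V ∈ 𝓝 (1 : G n), ∃ᶠ m : ℕ in atTop,
      ∃ h ∈ V, tr (da (bij i j) ^ m) x = tr h x ∧ tr (da (bij i j) ^ m) x ∈ E) ∧
      (∀ i j : Fin n, i ∈ B → j ∈ B → i ≠ j → x ∈ E → ∀ V ∈ 𝓝 (1 : G n),
      ∃ᶠ m : ℕ in atTop, ∃ h ∈ V,
        tr ((ug i j 1 * da (bij i j) * (ug i j 1)⁻¹) ^ m) x = tr h x ∧
        tr ((ug i j 1 * da (bij i j) * (ug i j 1)⁻¹) ^ m) x ∈ E) ∧ x ∉ RB B := by
    by_contra hcon
    apply hE0
    refine measure_mono_null ?_ (htyp.and (hr0'.and (hr1'.and hnR)))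
    intro x hx hx'
    exact hcon ⟨x, hx, hx'.1, hx'.2.1, hx'.2.2.1, hx'.2.2.2⟩
  obtain ⟨g, rfl⟩ := pt_surjective x
  have hii : ∀ i j : Fin n, i ≠ j → Matrix.single i i (1 : ℝ) ∈ Submodule.span ℝ
      {M | ∃ s ∈ AA B g, M = (g⁻¹).1 * qm s * g.1} := fun i j hij =>
    limit_mem g hU hEU hxE (da (bij i j)) (BD_diagonal B _) _ (tendsto_H0 hij) (hx2 i j hxE)
  have hij' : ∀ i ∈ B, ∀ j ∈ B, i ≠ j → Matrix.single i j (1 : ℝ) ∈ Submodule.span ℝ
      {M | ∃ s ∈ AA B g, M = (g⁻¹).1 * qm s * g.1} := by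
    intro i hi j hj hij
    have h3 := limit_mem g hU hEU hxE (ug i j 1 * da (bij i j) * (ug i j 1)⁻¹)
      (((BD_ug hi hj hij 1).mul (BD_diagonal B _)).mul (BD_inv (BD_ug hi hj hij 1))) _
      (tendsto_H1 hij) (hx3 i j hi hj hij hxE)
    have h4 := Submodule.sub_mem _ (hii i j hij) h3
    rwa [sub_sub_cancel] at h4
  have hne : ∀ i : Fin n, ∃ j : Fin n, i ≠ j := by
    intro i
    obtain ⟨a, ha, b, hb, hab⟩ := Finset.one_lt_card.1 (show 1 < B.card by omega)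
    by_cases h : i = a
    · exact ⟨b, by rw [h]; exact hab⟩
    · exact ⟨a, h⟩
  obtain ⟨p, hp, hs, hlev⟩ := exists_mult' hB hB' g (fun z hz => (hx1 g rfl z hz).1)
    (fun z hz => (hx1 g rfl z hz).2) (fun i hi j hj => by
      by_cases hij : i = j
      · subst hij
        obtain ⟨j, hij⟩ := hne i
        exact hii i j hij
      · exact hij' i hi j hj hij) (fun i => by
      obtain ⟨j, hij⟩ := hne i
      exact hii i j hij)
  exact hx4 ⟨p, ⟨hp, hlev⟩, pt_mem_Yd.2 hs⟩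

/-- the block structure of a pure component -/
theorem pure_blocks (hn : Odd n) (hn1 : 1 < n) (μ : Measure (X n)) [IsProbabilityMeasure μ]
    (hA : AInv μ) (hS : Star μ) (hP : Pure μ) : ∃ B : Finset (Fin n), 2 ≤ B.card ∧
      (∀ i ∈ B, ∀ j ∈ B, i ≠ j → UInv μ i j) ∧ ∀ i ∈ B, ∀ l ∉ B, Triv μ i l ∧ Triv μ l i := by
  classical
  set F : Set (Fin n × Fin n) := {p | p.1 ≠ p.2 ∧ ¬ Triv μ p.1 p.2} with hF
  have hF1 : ∀ i j, i ≠ j → (i, j) ∉ F → Triv μ i j := by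
    intro i j hij h
    by_contra h1
    exact h ⟨hij, h1⟩
  have hhigh : ∀ i j k : Fin n, i ≠ k → (i, j) ∈ F → (j, k) ∈ F → UInv μ i k :=
    fun i j k hik h1 h2 => high μ hA hP h1.1 h2.1 hik h1.2 h2.2
  have hUF : ∀ i j : Fin n, i ≠ j → UInv μ i j → (i, j) ∈ F :=
    fun i j hij hU => ⟨hij, not_triv_of_uinv hij hU⟩
  have hF2 : ∀ i j k, i ≠ j → j ≠ k → i ≠ k → (i, j) ∈ F → (j, k) ∈ F → (i, k) ∈ F :=
    fun i j k _ _ hik h1 h2 => hUF i k hik (hhigh i j k hik h1 h2)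
  obtain ⟨i₀, j₀, hij₀, hF3, hF4⟩ := star_cycle_of_names (names n) hn1 μ hA hS F hF1 hF2
  let B : Finset (Fin n) := Finset.univ.filter fun k => k = i₀ ∨ ((i₀, k) ∈ F ∧ (k, i₀) ∈ F)
  have hB : ∀ k, k ∈ B ↔ k = i₀ ∨ ((i₀, k) ∈ F ∧ (k, i₀) ∈ F) := by
    intro k; simp only [Finset.mem_filter, Finset.mem_univ, true_and, B]
  have hi₀ : i₀ ∈ B := (hB _).2 (Or.inl rfl)
  have hj₀ : j₀ ∈ B := (hB _).2 (Or.inr ⟨hF3, hF4⟩)
  have hBF : ∀ k ∈ B, ∀ l ∈ B, k ≠ l → (k, l) ∈ F := by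
    intro k hk l hl hkl
    rcases (hB k).1 hk with rfl | ⟨h1, h2⟩
    · rcases (hB l).1 hl with rfl | ⟨h3, h4⟩
      · exact absurd rfl hkl
      · exact h3
    · rcases (hB l).1 hl with rfl | ⟨h3, h4⟩
      · exact h2
      · exact hF2 k i₀ l h2.1 h3.1 hkl h2 h3
  -- an index linked in both directions to a point of `B` is in `B`
  have hBc : ∀ k ∈ B, ∀ l, (k, l) ∈ F → (l, k) ∈ F → l ∈ B := by
    intro k hk l h1 h2
    by_cases hl : l = i₀
    · rw [hl]; exact hi₀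
    by_cases hk0 : k = i₀
    · rw [hk0] at h1 h2
      exact (hB l).2 (Or.inr ⟨h1, h2⟩)
    · have h3 := hBF k hk i₀ hi₀ hk0
      have h4 := hBF i₀ hi₀ k hk (Ne.symm hk0)
      exact (hB l).2 (Or.inr ⟨hF2 _ _ _ h4.1 h1.1 (Ne.symm hl) h4 h1,
        hF2 _ _ _ h2.1 h3.1 hl h2 h3⟩)
  have hother : ∀ k ∈ B, ∃ k' ∈ B, k' ≠ k := by
    intro k hk
    by_cases h : k = i₀
    · exact ⟨j₀, hj₀, by rw [h]; exact hij₀.symm⟩
    · exact ⟨i₀, hi₀, Ne.symm h⟩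
  have hout : ∀ k ∈ B, ∀ l ∉ B, Triv μ k l ∧ Triv μ l k := by
    intro k hk l hl
    have hkl : k ≠ l := fun h => hl (h ▸ hk)
    obtain ⟨k', hk', hkk'⟩ := hother k hk
    have hkl' : k' ≠ l := fun h => hl (h ▸ hk')
    constructor
    · refine hF1 k l hkl fun h => hl ?_
      have hU : UInv μ k' l := hhigh k' k l hkl' (hBF k' hk' k hk hkk') h
      have h1 := haar_symm_of_names (names n) μ hA F hF1 hF2 hkl' hU
      exact hBc k' hk' l (hUF _ _ hkl' hU) h1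
    · refine hF1 l k hkl.symm fun h => hl ?_
      have hU : UInv μ l k' := hhigh l k k' hkl'.symm h (hBF k hk k' hk' hkk'.symm)
      have h1 := haar_symm_of_names (names n) μ hA F hF1 hF2 hkl'.symm hU
      exact hBc k' hk' l h1 (hUF _ _ hkl'.symm hU)
  have hU : ∀ i ∈ B, ∀ j ∈ B, i ≠ j → UInv μ i j := by
    intro i hi j hj hij
    by_cases h3 : ∃ k ∈ B, k ≠ i ∧ k ≠ j
    · obtain ⟨k, hk, hki, hkj⟩ := h3
      exact hhigh i k j hij (hBF i hi k hk hki.symm) (hBF k hk j hj hkj)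
    · push Not at h3
      refine low hn μ hA hP hij (hBF i hi j hj hij).2 fun l hli hlj => ?_
      have hl : l ∉ B := fun h => hlj (h3 l h hli)
      exact ⟨(hout i hi l hl).1, (hout j hj l hl).2⟩
  have hB2 : 2 ≤ B.card := Finset.one_lt_card.2 ⟨i₀, hi₀, j₀, hj₀, hij₀⟩
  exact ⟨B, hB2, hU, hout⟩


/-- `κ` is homogeneous of type `p`: it is carried by the lattices stable under `diag(p)` and
invariant under `A` and all the root groups `u_ij` with `p_i = p_j`. -/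
def Homog (p : Fin n → ℝ) (κ : Measure (X n)) : Prop :=
  AInv κ ∧ κ (Yd p)ᶜ = 0 ∧ ∀ i j, i ≠ j → p i = p j → UInv κ i j

/-- **Invariance under one block implies invariance under all blocks.** -/
theorem homog_of_block {p : Fin n → ℝ} (hp : IsMult p) (μ : Measure (X n))
    [IsProbabilityMeasure μ] (hA : AInv μ) (hY : μ (Yd p)ᶜ = 0) {B : Finset (Fin n)}
    (hB : 2 ≤ B.card) (hlev : ∀ i ∈ B, ∀ j, j ∈ B ↔ p j = p i)
    (hU : ∀ i ∈ B, ∀ j ∈ B, i ≠ j → UInv μ i j) : Homog p μ := by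
  obtain ⟨i₀, hi₀⟩ : B.Nonempty := Finset.card_pos.1 (by omega)
  refine ⟨hA, hY, fun i j hij hpij => ?_⟩
  by_cases hi : i ∈ B
  · exact hU i hi j ((hlev i hi j).2 hpij.symm) hij
  · intro s
    refine inv_of_recurrence μ hA hB hU (ug i j s) ?_
    have hY' : ∀ᵐ x ∂μ, x ∈ Yd p := by
      rw [ae_iff]
      exact hY
    filter_upwards [hY'] with x hx V hV
    obtain ⟨g, rfl⟩ := pt_surjective x
    exact ug_mem_closure hp (pt_mem_Yd.1 hx) B i₀ (hlev i₀ hi₀) hij hpij hi s hV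

theorem Homog.of_smul {p : Fin n → ℝ} {κ : Measure (X n)} {c : ℝ≥0∞} (hc : c ≠ 0) (hc' : c ≠ ∞)
    (h : Homog p (c • κ)) : Homog p κ := by
  obtain ⟨h1, h2, h3⟩ := h
  refine ⟨fun β => ?_, ?_, fun i j hij hpij => (h3 i j hij hpij).of_smul hc hc'⟩
  · have h4 := congrArg (fun ν : Measure (X n) => c⁻¹ • ν) (h1 β)
    simp only [Measure.map_smul, smul_smul, ENNReal.inv_mul_cancel hc hc', one_smul] at h4
    exact h4
  · rw [Measure.smul_apply, smul_eq_mul, mul_eq_zero] at h2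
    exact h2.resolve_left hc

theorem Homog.sum {ι : Type*} {p : Fin n → ℝ} {κ : ι → Measure (X n)}
    (h : ∀ k, Homog p (κ k)) : Homog p (Measure.sum κ) := by
  refine ⟨fun β => ?_, ?_, fun i j hij hpij s => ?_⟩
  · rw [Measure.map_sum (measurable_tr _).aemeasurable]
    congr 1
    funext k
    exact (h k).1 β
  · rw [Measure.sum_apply_eq_zero' (isClosed_Yd p).measurableSet.compl]
    exact fun k => (h k).2.1
  · rw [Measure.map_sum (measurable_tr _).aemeasurable]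
    congr 1
    funext k
    exact (h k).2.2 i j hij hpij s

theorem Homog.zero (p : Fin n → ℝ) : Homog p (0 : Measure (X n)) :=
  ⟨fun β => Measure.map_zero _, by simp, fun i j _ _ s => Measure.map_zero _⟩

theorem Yd_aeInv (μ : Measure (X n)) (p : Fin n → ℝ) : AEInv μ (Yd p) := by
  refine ⟨(isClosed_Yd p).measurableSet, fun β => ?_⟩
  have h : (tr (da β) : X n → X n) ⁻¹' (Yd p) = Yd p := by
    ext x
    constructor
    · intro hx
      have h1 := Yd_da hx (-β)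
      rw [da_neg, tr_tr, mul_inv_cancel, Vale.Agent.P007.tr_one] at h1
      exact h1
    · exact fun hx => Yd_da hx β
  rw [h]
  exact Filter.EventuallyEq.rfl

theorem aeInv_inter {μ : Measure (X n)} {Ω Ω' : Set (X n)} (h : AEInv μ Ω) (h' : AEInv μ Ω') :
    AEInv μ (Ω ∩ Ω') :=
  ⟨h.1.inter h'.1, fun β => by
    rw [Set.preimage_inter]
    exact (h.2 β).inter (h'.2 β)⟩

/-- a homogeneous component inside every set of lattices with real multiplication which is charged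
by the measure -/
theorem component (hn : Odd n) (hn1 : 1 < n) (ν : Measure (X n)) [IsProbabilityMeasure ν]
    (hA : AInv ν) (hS : Star ν) {Ω₀ : Set (X n)}
    (hsub : Ω₀ ⊆ RMs n) (h0 : AEInv ν Ω₀) (h0' : ν Ω₀ ≠ 0) : ∃ Ω ⊆ Ω₀, AEInv ν Ω ∧ ν Ω ≠ 0 ∧
      ∃ p : {p : Fin n → ℝ // IsMult p}, Homog p.1 (ν.restrict Ω) := by
  classical
  obtain ⟨Ω₁, hΩ₁, hAE₁, h1, hP⟩ := exists_pure ν hA h0 h0'
  have hprob := nrm_prob ν h1
  obtain ⟨B, hB, hU, hout⟩ := pure_blocks hn hn1 (nrm ν Ω₁) (hA.nrm hAE₁) (hS.nrm h1) hP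
  have hBu : B ≠ Finset.univ := by
    intro hBu
    have hinv : IsInvProb (nrm ν Ω₁) := isInvProb_of_uinv (nrm ν Ω₁) hn1 fun i j hij =>
      hU i (by rw [hBu]; exact Finset.mem_univ _) j (by rw [hBu]; exact Finset.mem_univ _) hij
    have h2 := inv_RMs hinv
    rw [nrm, Measure.smul_apply, Measure.restrict_apply measurableSet_RMs,
      Set.inter_eq_self_of_subset_right (hΩ₁.trans hsub), smul_eq_mul,
      ENNReal.inv_mul_cancel h1 (measure_ne_top _ _)] at h2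
    exact one_ne_zero h2
  obtain ⟨p, hp, hlev, hY⟩ := blocks_rm' (nrm ν Ω₁) (hA.nrm hAE₁) B hB hBu hU hout
  have hAE : AEInv ν (Yd p ∩ Ω₁) := aeInv_inter (Yd_aeInv ν p) hAE₁
  have h2 : ν (Yd p ∩ Ω₁) ≠ 0 := by
    intro h3
    apply hY
    rw [nrm, Measure.smul_apply, Measure.restrict_apply (isClosed_Yd p).measurableSet, h3,
      smul_zero]
  refine ⟨Yd p ∩ Ω₁, Set.inter_subset_right.trans hΩ₁, hAE, h2, ⟨p, hp⟩, ?_⟩
  have hinv0 : (ν (Yd p ∩ Ω₁))⁻¹ ≠ 0 := ENNReal.inv_ne_zero.2 (measure_ne_top _ _)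
  have hinvt : (ν (Yd p ∩ Ω₁))⁻¹ ≠ ∞ := ENNReal.inv_ne_top.2 h2
  refine Homog.of_smul hinv0 hinvt ?_
  have hprob2 := nrm_prob ν h2
  refine homog_of_block hp (nrm ν (Yd p ∩ Ω₁)) (hA.nrm hAE) ?_ hB hlev ?_
  · have h3 : (Yd p)ᶜ ∩ (Yd p ∩ Ω₁) = ∅ := by
      ext x
      simp only [Set.mem_inter_iff, Set.mem_compl_iff, Set.mem_empty_iff_false, iff_false, not_and]
      exact fun hx hx' => absurd hx' hx
    rw [nrm, Measure.smul_apply, Measure.restrict_apply (isClosed_Yd p).measurableSet.compl, h3,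
      measure_empty, smul_zero]
  · intro i hi j hj hij
    have h3 := uinv_restrict (hA.nrm hAE₁) hij (hU i hi j hj hij) (Yd_aeInv (nrm ν Ω₁) p)
    rw [nrm_restrict ν Ω₁ (Yd p) (isClosed_Yd p).measurableSet] at h3
    exact (h3.of_smul (ENNReal.inv_ne_zero.2 (measure_ne_top _ _))
      (ENNReal.inv_ne_top.2 h1)).smul _

/-- **The structure of the limit measures in odd degree.** -/
theorem decomposition (hn : Odd n) (hn1 : 1 < n) (ν : Measure (X n)) [IsProbabilityMeasure ν]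
    (hA : AInv ν) (hS : Star ν) {m : Measure (X n)} (hm : IsInvProb m) :
    ∃ κ : {p : Fin n → ℝ // IsMult p} → Measure (X n), (∀ p, Homog p.1 (κ p)) ∧
      ν = ν (RMs n)ᶜ • m + Measure.sum κ := by
  have : Countable {p : Fin n → ℝ // IsMult p} := countable_isMult.to_subtype
  obtain ⟨S, hS1, hS2⟩ := exhaustion (ν := ν) (ι := {p : Fin n → ℝ // IsMult p}) (AEInv ν)
    (fun s hs => hs.1) ⟨MeasurableSet.empty, fun β => Filter.EventuallyEq.rfl⟩
    (fun s t hs ht => ⟨hs.1.diff ht.1, fun β => by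
      rw [Set.preimage_sdiff]
      exact (hs.2 β).diff (ht.2 β)⟩)
    (fun s hs => ⟨MeasurableSet.iUnion fun k => (hs k).1, fun β => by
      rw [Set.preimage_iUnion]
      exact Filter.EventuallyEq.countable_iUnion fun k => (hs k).2 β⟩)
    (R := RMs n) (aeInv_RMs ν) (fun p Ω => Homog p.1 (ν.restrict Ω))
    (fun s hs hP h0 => component hn hn1 ν hA hS hs hP h0)
  refine ⟨fun k => Measure.sum fun m => ν.restrict (S k m), fun k => Homog.sum fun m => ?_, ?_⟩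
  · rcases (hS1 k m).2.2 with h | h
    · exact h
    · rw [h, Measure.restrict_empty]
      exact Homog.zero _
  · rw [← hS2, ← structure_odd hn hn1 ν hA hS hm, add_comm]
    exact (Measure.restrict_add_restrict_compl measurableSet_RMs).symm

end Vale.Agent.P007.H11
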