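import Vale.Agent.P007.Bdl.B19

/-! Block structure of a typical point: real multiplication. -/

set_option autoImplicit false

open MeasureTheory Matrix Filter Topology ProbabilityTheory
open scoped ENNReal

namespace Vale.Agent.P007.H11

open Vale.Agent.P007 Vale.Agent.P007.Koopman Vale.Agent.P007.Mautner Vale.Agent.P007.R
  Vale.Agent.P007.R.Blk

variable {n : ℕ}

/-- `p_1, …, p_n` are roots of one irreducible monic integral polynomial of degree `d`,
`1 < d < n`. -/
def IsMult (p : Fin n → ℝ) : Prop :=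
  ∃ f : Polynomial ℤ, f.Monic ∧ Irreducible f ∧ 1 < f.natDegree ∧ f.natDegree < n ∧
    ∀ j, Polynomial.aeval (p j) f = 0

theorem aeval_conj (A D T : Matrix (Fin n) (Fin n) ℝ) (h : A * D = T * A) (f : Polynomial ℤ) :
    A * Polynomial.aeval D f = Polynomial.aeval T f * A := by
  have hp : ∀ k : ℕ, A * D ^ k = T ^ k * A := by
    intro k
    exact SemiconjBy.pow_right (a := A) (x := D) (y := T) h k
  rw [Polynomial.aeval_eq_sum_range, Polynomial.aeval_eq_sum_range, Finset.mul_sum,
    Finset.sum_mul]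
  refine Finset.sum_congr rfl fun k _ => ?_
  rw [mul_smul_comm, hp, smul_mul_assoc]

theorem aeval_diag (p : Fin n → ℝ) (f : Polynomial ℤ) :
    Polynomial.aeval (diagonal p) f = diagonal fun j => Polynomial.aeval (p j) f := by
  rw [Polynomial.aeval_eq_sum_range]
  ext i j
  rw [Matrix.sum_apply, diagonal_apply]
  by_cases hij : i = j
  · subst hij
    rw [if_pos rfl, Polynomial.aeval_eq_sum_range]
    refine Finset.sum_congr rfl fun k _ => ?_
    rw [diagonal_pow, Matrix.smul_apply, diagonal_apply_eq, Pi.pow_apply]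
  · rw [if_neg hij]
    refine Finset.sum_eq_zero fun k _ => ?_
    rw [diagonal_pow, Matrix.smul_apply, diagonal_apply_ne _ hij, smul_zero]

theorem qm_aeval (t : Matrix (Fin n) (Fin n) ℚ) (f : Polynomial ℤ) :
    qm (Polynomial.aeval t f) = Polynomial.aeval (qm t) f := by
  have h1 : ∀ k : ℕ, qm (t ^ k) = (qm t) ^ k := by
    intro k
    induction k with
    | zero =>
      rw [pow_zero, pow_zero]
      exact Matrix.map_one _ Rat.cast_zero Rat.cast_one
    | succ k ih => rw [pow_succ, pow_succ, qm_mul, ih]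
  rw [Polynomial.aeval_eq_sum_range, Polynomial.aeval_eq_sum_range]
  ext i j
  rw [Matrix.sum_apply]
  simp only [qm, Matrix.map_apply, Matrix.sum_apply, Rat.cast_sum]
  refine Finset.sum_congr rfl fun k _ => ?_
  have h2 := congrFun (congrFun (h1 k) i) j
  simp only [qm, Matrix.map_apply] at h2
  rw [Matrix.smul_apply, Matrix.smul_apply, zsmul_eq_mul, zsmul_eq_mul, Rat.cast_mul,
    Rat.cast_intCast, h2]

/-- the characteristic polynomial of an integral matrix conjugate to `diag(p)` -/
theorem charpoly_eq {g : G n} {p : Fin n → ℝ} {M : Matrix (Fin n) (Fin n) ℤ}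
    (hM : (g : Matrix (Fin n) (Fin n) ℝ) * diagonal p = castM M * (g : Matrix (Fin n) (Fin n) ℝ)) :
    (M.charpoly).map (Int.castRingHom ℝ) = ∏ i, (Polynomial.X - Polynomial.C (p i)) := by
  rw [← charpoly_diagonal, ← Matrix.charpoly_map]
  have h1 : castM M = (g : Matrix (Fin n) (Fin n) ℝ) * diagonal p *
      ((g⁻¹ : G n) : Matrix (Fin n) (Fin n) ℝ) := by
    rw [hM, mul_assoc, coe_mul_inv, mul_one]
  change (castM M).charpoly = _
  rw [h1, mul_assoc, Matrix.charpoly_mul_comm, mul_assoc, coe_inv_mul, mul_one]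

theorem charpoly_roots {g : G n} {p : Fin n → ℝ} {M : Matrix (Fin n) (Fin n) ℤ}
    (hM : (g : Matrix (Fin n) (Fin n) ℝ) * diagonal p = castM M * (g : Matrix (Fin n) (Fin n) ℝ)) :
    ((M.charpoly).map (Int.castRingHom ℝ)).roots = Multiset.map p Finset.univ.val := by
  have hprod : (∏ i, (Polynomial.X - Polynomial.C (p i))) =
      ((Multiset.map p Finset.univ.val).map fun a => Polynomial.X - Polynomial.C a).prod := by
    rw [Multiset.map_map]
    rfl
  rw [charpoly_eq hM, hprod, Polynomial.roots_multiset_prod_X_sub_C]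

theorem aeval_charpoly {g : G n} {p : Fin n → ℝ} {M : Matrix (Fin n) (Fin n) ℤ}
    (hM : (g : Matrix (Fin n) (Fin n) ℝ) * diagonal p = castM M * (g : Matrix (Fin n) (Fin n) ℝ))
    (j : Fin n) : Polynomial.aeval (p j) M.charpoly = 0 := by
  rw [Polynomial.aeval_def, ← Polynomial.eval_map]
  change Polynomial.eval (p j) ((M.charpoly).map (Int.castRingHom ℝ)) = 0
  rw [charpoly_eq hM, Polynomial.eval_prod]
  refine Finset.prod_eq_zero (Finset.mem_univ j) ?_
  rw [Polynomial.eval_sub, Polynomial.eval_X, Polynomial.eval_C, sub_self]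

/-- The block structure at a typical point gives a real multiplication by a field of degree
strictly between `1` and `n`. -/
theorem exists_mult {B : Finset (Fin n)} (hB : 2 ≤ B.card)
    (hB' : B ≠ Finset.univ) (g : G n)
    (hrow : ∀ z : Fin n → ℤ, z ≠ 0 → ∃ i ∈ B, (zr z ᵥ* g.1) i ≠ 0)
    (hcol : ∀ z : Fin n → ℤ, z ≠ 0 → ∃ i ∈ B, ((g⁻¹).1 *ᵥ zr z) i ≠ 0)
    (hD : ∀ i ∈ B, ∀ j ∈ B, Matrix.single i j (1 : ℝ) ∈ Submodule.span ℝ
      {M | ∃ s ∈ AA B g, M = (g⁻¹).1 * qm s * g.1})
    (hD' : ∀ i, Matrix.single i i (1 : ℝ) ∈ Submodule.span ℝ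
      {M | ∃ s ∈ AA B g, M = (g⁻¹).1 * qm s * g.1}) :
    ∃ p : Fin n → ℝ, IsMult p ∧ Stab p g := by
  classical
  obtain ⟨i₀, hi₀, j₀, hj₀, hij₀⟩ := Finset.one_lt_card.1 (show 1 < B.card by omega)
  -- the real commutant
  set π : Matrix (Fin n) (Fin n) ℝ := diagonal (bI B) with hπ
  have hπcomm : ∀ M : Matrix (Fin n) (Fin n) ℝ, BD B M → π * M = M * π :=
    fun M hM => (BD_iff B M).1 hM
  obtain ⟨c, hc, hcns⟩ := exists_rational_comm (A := AA B g) (g.1 * π * (g⁻¹).1) (by
    intro s hs
    have h1 := hπcomm _ hs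
    have e1 : g.1 * π * (g⁻¹).1 * qm s = g.1 * (π * ((g⁻¹).1 * qm s * g.1)) * (g⁻¹).1 := by
      simp only [Matrix.mul_assoc]
      rw [g_mul_inv, Matrix.mul_one]
    have e2 : qm s * (g.1 * π * (g⁻¹).1) = g.1 * (((g⁻¹).1 * qm s * g.1) * π) * (g⁻¹).1 := by
      simp only [← Matrix.mul_assoc]
      rw [g_mul_inv, Matrix.one_mul]
    rw [e1, e2, h1]) (by
    intro c hc
    have e1 : π = c • (1 : Matrix (Fin n) (Fin n) ℝ) := by
      have e2 : (g⁻¹).1 * (g.1 * π * (g⁻¹).1) * g.1 = π := by
        simp only [Matrix.mul_assoc]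
        rw [g_inv_mul, Matrix.mul_one, ← Matrix.mul_assoc, g_inv_mul, Matrix.one_mul]
      rw [← e2, hc, Matrix.mul_smul, Matrix.mul_one, Matrix.smul_mul, g_inv_mul]
    obtain ⟨j, hj⟩ : ∃ j, j ∉ B := by
      by_contra hcon
      push Not at hcon
      exact hB' (Finset.eq_univ_iff_forall.2 hcon)
    have h1 := congrFun (congrFun e1 i₀) i₀
    have h2 := congrFun (congrFun e1 j) j
    rw [hπ, diagonal_apply_eq, Matrix.smul_apply, one_apply_eq, smul_eq_mul, mul_one] at h1 h2
    simp only [bI, if_pos hi₀, if_neg hj] at h1 h2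
    linarith only [h1, h2]) i₀.pos
  -- clear the denominators
  obtain ⟨b, hb⟩ := IsLocalization.exist_integer_multiples_of_finite (nonZeroDivisors ℤ)
    (fun q : Fin n × Fin n => c q.1 q.2)
  choose z hz using hb
  have hb0 : (b : ℤ) ≠ 0 := nonZeroDivisors.coe_ne_zero b
  set T : Matrix (Fin n) (Fin n) ℤ := fun i j => z (i, j) with hT
  set t : Matrix (Fin n) (Fin n) ℚ := T.map fun q : ℤ => (q : ℚ) with ht
  have htc : t = ((b : ℤ) : ℚ) • c := by
    ext i j
    have h1 := hz (i, j)
    rw [zsmul_eq_mul] at h1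
    rw [ht, map_apply, Matrix.smul_apply, smul_eq_mul]
    exact h1
  have htns : ∀ q : ℚ, t ≠ q • 1 := by
    intro q hq
    apply hcns ((((b : ℤ) : ℚ))⁻¹ * q)
    have hb0' : ((b : ℤ) : ℚ) ≠ 0 := by exact_mod_cast hb0
    rw [mul_smul, ← hq, htc, smul_smul, inv_mul_cancel₀ hb0', one_smul]
  have htcomm : ∀ s ∈ AA B g, t * s = s * t := by
    intro s hs
    rw [htc, Matrix.smul_mul, Matrix.mul_smul, hc s hs]
  have hqt : qm t = castM T := by
    ext i j
    rw [qm, ht, castM, map_apply, map_apply, map_apply]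
    exact Rat.cast_intCast _
  -- the conjugate
  set P : Matrix (Fin n) (Fin n) ℝ := (g⁻¹).1 * qm t * g.1 with hP
  have hPcomm : ∀ M ∈ Submodule.span ℝ {M | ∃ s ∈ AA B g, M = (g⁻¹).1 * qm s * g.1},
      P * M = M * P := by
    intro M hM
    induction hM using Submodule.span_induction with
    | mem M hM =>
      obtain ⟨s, hs, rfl⟩ := hM
      have e1 : ∀ s t : Matrix (Fin n) (Fin n) ℚ, (g⁻¹).1 * qm s * g.1 *
          ((g⁻¹).1 * qm t * g.1) = (g⁻¹).1 * qm (s * t) * g.1 := by
        intro s t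
        rw [qm_mul]
        simp only [Matrix.mul_assoc]
        congr 2
        rw [← Matrix.mul_assoc, g_mul_inv, Matrix.one_mul]
      rw [hP, e1, e1, htcomm s hs]
    | zero => rw [Matrix.mul_zero, Matrix.zero_mul]
    | add M M' _ _ h1 h2 => rw [Matrix.mul_add, Matrix.add_mul, h1, h2]
    | smul c M _ h1 => rw [Matrix.mul_smul, Matrix.smul_mul, h1]
  set p : Fin n → ℝ := fun j => P j j with hp
  have hPd : P = diagonal p := by
    ext i j
    by_cases hij : i = j
    · subst hij
      rw [diagonal_apply_eq]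
    · rw [diagonal_apply_ne _ hij]
      have h1 := congrFun (congrFun (hPcomm _ (hD' j)) i) j
      rw [Matrix.mul_apply, Matrix.mul_apply, Finset.sum_eq_single j, Finset.sum_eq_single j] at h1
      · rw [single_apply_same, mul_one, single_apply, if_neg (fun h => hij h.1.symm),
          zero_mul] at h1
        exact h1
      · intro k _ hk
        rw [single_apply, if_neg (fun h => hij h.1.symm), zero_mul]
      · intro h
        exact absurd (Finset.mem_univ j) h
      · intro k _ hk
        rw [single_apply, if_neg (fun h => hk h.1.symm), mul_zero]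
      · intro h
        exact absurd (Finset.mem_univ j) h
  have hpeq : p i₀ = p j₀ := by
    have h1 := congrFun (congrFun (hPcomm _ (hD i₀ hi₀ j₀ hj₀)) i₀) j₀
    rw [hPd, diagonal_mul, mul_diagonal, single_apply_same, mul_one, one_mul] at h1
    exact h1
  have hgp : (g : Matrix (Fin n) (Fin n) ℝ) * diagonal p =
      castM T * (g : Matrix (Fin n) (Fin n) ℝ) := by
    rw [← hPd, hP, ← Matrix.mul_assoc, ← Matrix.mul_assoc, g_mul_inv, Matrix.one_mul, hqt]
  -- the minimal polynomial
  have hint : ∀ j, IsIntegral ℤ (p j) := fun j => ⟨T.charpoly, T.charpoly_monic, by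
    have := aeval_charpoly hgp j
    rwa [Polynomial.aeval_def] at this⟩
  set f : Polynomial ℤ := minpoly ℤ (p i₀) with hf
  have hfm : f.Monic := minpoly.monic (hint i₀)
  have hfi : Irreducible f := minpoly.irreducible (hint i₀)
  have hf0 : Polynomial.aeval (p i₀) f = 0 := minpoly.aeval ℤ (p i₀)
  -- `f(T) = 0`
  set Ft : Matrix (Fin n) (Fin n) ℚ := Polynomial.aeval t f with hFt
  have hgF : (g : Matrix (Fin n) (Fin n) ℝ) * diagonal (fun j => Polynomial.aeval (p j) f) =
      qm Ft * (g : Matrix (Fin n) (Fin n) ℝ) := by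
    rw [hFt, qm_aeval, ← aeval_diag]
    exact aeval_conj _ _ _ (by rw [hgp, hqt]) f
  have hdetR : (qm Ft).det = 0 := by
    have h1 := congrArg Matrix.det hgF
    rw [Matrix.det_mul, Matrix.det_mul, det_G, one_mul, mul_one, det_diagonal] at h1
    rw [← h1]
    exact Finset.prod_eq_zero (Finset.mem_univ i₀) hf0
  have hdet : Ft.det = 0 := by
    have h1 : (qm Ft).det = ((Ft.det : ℚ) : ℝ) := by
      have := (Rat.castHom ℝ).map_det Ft
      exact this.symm
    rw [h1] at hdetR
    exact_mod_cast hdetR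
  have hFcomm : ∀ s ∈ AA B g, Ft * s = s * Ft := by
    intro s hs
    have h1 : Commute t s := htcomm s hs
    rw [hFt, Polynomial.aeval_eq_sum_range, Finset.mul_sum, Finset.sum_mul]
    refine Finset.sum_congr rfl fun k _ => ?_
    rw [mul_smul_comm, smul_mul_assoc, (h1.pow_left k).eq]
  have hFt0 : Ft = 0 := by
    obtain ⟨w, hw0, hw⟩ := Matrix.exists_vecMul_eq_zero_iff.2 hdet
    rcases irr g hrow hcol hD (LinearMap.ker (vecMulLinear Ft)) (by
      intro s hs w hw
      rw [LinearMap.mem_ker] at hw ⊢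
      change w ᵥ* Ft = 0 at hw
      change (w ᵥ* s) ᵥ* Ft = 0
      rw [vecMul_vecMul, ← hFcomm s hs, ← vecMul_vecMul, hw, zero_vecMul]) with h | h
    · exfalso
      apply hw0
      have h1 : w ∈ LinearMap.ker (vecMulLinear Ft) := by
        rw [LinearMap.mem_ker]
        exact hw
      rw [h] at h1
      exact (Submodule.mem_bot ℚ).1 h1
    · ext i j
      have h1 : (Pi.single i (1 : ℚ) : Fin n → ℚ) ∈ LinearMap.ker (vecMulLinear Ft) := by
        rw [h]; exact Submodule.mem_top
      rw [LinearMap.mem_ker] at h1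
      change (Pi.single i (1 : ℚ) : Fin n → ℚ) ᵥ* Ft = 0 at h1
      rw [single_one_vecMul] at h1
      exact congrFun h1 j
  have hall : ∀ j, Polynomial.aeval (p j) f = 0 := by
    intro j
    have h1 : diagonal (fun j => Polynomial.aeval (p j) f) = 0 := by
      have h2 : (g⁻¹).1 * ((g : Matrix (Fin n) (Fin n) ℝ) *
          diagonal (fun j => Polynomial.aeval (p j) f)) = 0 := by
        rw [hgF, hFt0]
        have h3 : qm (0 : Matrix (Fin n) (Fin n) ℚ) = 0 := by
          ext i j
          simp [qm]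
        rw [h3, Matrix.zero_mul, Matrix.mul_zero]
      rwa [← Matrix.mul_assoc, g_inv_mul, Matrix.one_mul] at h2
    have h2 := congrFun (congrFun h1 j) j
    rwa [diagonal_apply_eq] at h2
  refine ⟨p, ⟨f, hfm, hfi, ?_, ?_, hall⟩, ⟨T, hgp⟩⟩
  · -- the degree is not one
    by_contra hle
    push Not at hle
    have hpos : 0 < f.natDegree := minpoly.natDegree_pos (hint i₀)
    have h1 : f.natDegree = 1 := by omega
    have h2 : Ft = t + (f.coeff 0 : ℚ) • 1 := by
      rw [hFt, Polynomial.aeval_eq_sum_range, h1, Finset.sum_range_succ, Finset.sum_range_one,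
        pow_zero, pow_one]
      have h3 : f.coeff 1 = 1 := by
        have := hfm.coeff_natDegree
        rwa [h1] at this
      rw [h3, one_smul, add_comm]
      congr 1
    rw [hFt0] at h2
    apply htns (-(f.coeff 0 : ℚ))
    rw [neg_smul]
    exact eq_neg_of_add_eq_zero_left h2.symm
  · have hdvd : f ∣ T.charpoly :=
      minpoly.isIntegrallyClosed_dvd (hint i₀) (aeval_charpoly hgp i₀)
    have hdeg : T.charpoly.natDegree = n := by
      rw [T.charpoly_natDegree_eq_dim, Fintype.card_fin]
    have hle : f.natDegree ≤ n := by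
      rw [← hdeg]
      exact Polynomial.natDegree_le_of_dvd hdvd T.charpoly_monic.ne_zero
    rcases lt_or_eq_of_le hle with h | h
    · exact h
    · exfalso
      have heq : T.charpoly = f := by
        refine Polynomial.eq_of_monic_of_dvd_of_natDegree_le hfm T.charpoly_monic hdvd ?_
        rw [hdeg, h]
      have hsep : (f.map (Int.castRingHom ℝ)).Separable := by
        have h3 : (minpoly ℚ (p i₀)).Separable :=
          (minpoly.irreducible ((hint i₀).tower_top)).separable
        rw [minpoly.isIntegrallyClosed_eq_field_fractions' ℚ (hint i₀)] at h3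
        have h4 := h3.map (f := algebraMap ℚ ℝ)
        rw [Polynomial.map_map] at h4
        have h5 : (algebraMap ℚ ℝ).comp (algebraMap ℤ ℚ) = Int.castRingHom ℝ := RingHom.ext_int _ _
        rw [h5] at h4
        exact h4
      have hnd := Polynomial.nodup_roots hsep
      rw [← heq, charpoly_roots hgp] at hnd
      have hinj := Multiset.inj_on_of_nodup_map hnd
      exact hij₀ (hinj _ (Finset.mem_univ_val i₀) _ (Finset.mem_univ_val j₀) hpeq)

end Vale.Agent.P007.H11
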