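import Vale.Agent.P007.Bdl.B19

/-!
The arithmetic input of the low entropy case, for every `n ≥ 3`: a direction `β` with `β_i = β_j`
such that no small `h` in the centraliser of the root group `u_ij` acts on a point as a power of
`exp β`.
-/

set_option autoImplicit false

open MeasureTheory Matrix Filter Topology ProbabilityTheory
open scoped ENNReal

namespace Vale.Agent.P007.H11

open Vale.Agent.P007 Vale.Agent.P007.Koopman Vale.Agent.P007.Mautner Vale.Agent.P007.R
  Vale.Agent.P007.R.LowAux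

/-- uniqueness of digits -/
theorem digits_zero (N : ℤ) : ∀ (n : ℕ) (a : Fin n → ℤ), (∀ l, |a l| < N) →
    ∑ l, a l * N ^ (l : ℕ) = 0 → ∀ l, a l = 0
  | 0, _, _, _ => fun l => l.elim0
  | n + 1, a, ha, hs => by
    rw [Fin.sum_univ_succ] at hs
    have h1 : ∑ l : Fin n, a l.succ * N ^ ((l.succ : Fin (n + 1)) : ℕ) =
        N * ∑ l : Fin n, a l.succ * N ^ (l : ℕ) := by
      rw [Finset.mul_sum]
      refine Finset.sum_congr rfl fun l _ => ?_
      rw [Fin.val_succ, pow_succ]
      ring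
    rw [h1, Fin.val_zero, pow_zero, mul_one] at hs
    have h0 : a 0 = 0 := by
      refine Int.eq_zero_of_abs_lt_dvd (m := N) ?_ (ha 0)
      exact ⟨-∑ l : Fin n, a l.succ * N ^ (l : ℕ), by linarith⟩
    have hN : N ≠ 0 := by
      have := (abs_nonneg _).trans_lt (ha 0)
      exact this.ne'
    rw [h0, zero_add] at hs
    have h2 := (mul_eq_zero.mp hs).resolve_left hN
    have h3 := digits_zero N n (fun l => a l.succ) (fun l => ha l.succ) h2
    intro l
    refine Fin.cases h0 (fun k => h3 k) l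

variable {n : ℕ}

/-- a matrix which stabilises `e_i` on one side and `e_j` on the other side, with the same
eigenvalue, has a double eigenvalue -/
theorem sq_dvd_charpoly {R : Type*} [CommRing R] (M : Matrix (Fin n) (Fin n) R) {i j : Fin n}
    (hij : i ≠ j) (c : R) (hii : M i i = c) (hjj : M j j = c) (hi : ∀ k, k ≠ i → M k i = 0)
    (hj : ∀ l, l ≠ j → M j l = 0) :
    (Polynomial.X - Polynomial.C c) ^ 2 ∣ M.charpoly := by
  set A : Matrix (Fin n) (Fin n) (Polynomial R) := M.charmatrix with hA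
  have hAi : A = A.updateCol i ((Polynomial.X - Polynomial.C c) • (Pi.single i 1)) := by
    ext1 k l
    rw [updateCol_apply]
    split_ifs with h
    · subst h
      by_cases hk : k = l
      · subst hk
        rw [hA, charmatrix_apply_eq, hii]
        simp
      · rw [hA, charmatrix_apply_ne _ _ _ hk, hi k hk]
        simp [hk]
    · rfl
  have h1 : A.det = (Polynomial.X - Polynomial.C c) * (A.updateCol i (Pi.single i 1)).det := by
    conv_lhs => rw [hAi]
    rw [det_updateCol_smul]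
  set B : Matrix (Fin n) (Fin n) (Polynomial R) := A.updateCol i (Pi.single i 1) with hB
  have hBj : B = B.updateRow j ((Polynomial.X - Polynomial.C c) • (Pi.single j 1)) := by
    ext1 k l
    rw [updateRow_apply]
    split_ifs with h
    · subst h
      rw [hB, updateCol_apply]
      by_cases hl : l = i
      · subst hl
        rw [if_pos rfl]
        simp [hij, hij.symm]
      · rw [if_neg hl]
        by_cases hk : l = k
        · subst hk
          rw [hA, charmatrix_apply_eq, hjj]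
          simp
        · rw [hA, charmatrix_apply_ne _ _ _ (Ne.symm hk), hj l hk]
          simp [hk]
    · rfl
  have h2 : B.det = (Polynomial.X - Polynomial.C c) * (B.updateRow j (Pi.single j 1)).det := by
    conv_lhs => rw [hBj]
    rw [det_updateRow_smul]
  rw [Matrix.charpoly, ← hA, h1, h2, sq, ← mul_assoc]
  exact Dvd.intro _ rfl

theorem arith_poly_gen (P : Polynomial ℤ) (hP : P.Monic) (hdeg : P.natDegree = n)
    (hP0 : IsUnit (P.coeff 0)) (lam : ℂ)
    (hlam : (Polynomial.X - Polynomial.C lam) ^ 2 ∣ P.map (Int.castRingHom ℂ)) :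
    ∃ R : Finset ℂ, 0 < R.card ∧ R.card < n ∧
      (∀ z ∈ R, (P.map (Int.castRingHom ℂ)).IsRoot z) ∧ ∑ z ∈ R, Real.log ‖z‖ = 0 := by
  classical
  have hroot0 : (P.map (Int.castRingHom ℂ)).IsRoot lam := by
    rw [← Polynomial.dvd_iff_isRoot]
    exact (dvd_pow_self _ two_ne_zero).trans hlam
  have haev : Polynomial.aeval lam P = 0 := by
    rw [Polynomial.aeval_def, ← Polynomial.eval_map]
    exact hroot0
  have hint : IsIntegral ℤ lam := ⟨P, hP, haev⟩
  set q : Polynomial ℤ := minpoly ℤ lam with hq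
  have hqm : q.Monic := minpoly.monic hint
  have hqP : q ∣ P := minpoly.isIntegrallyClosed_dvd hint haev
  set qC : Polynomial ℂ := q.map (Int.castRingHom ℂ) with hqC
  have hqCm : qC.Monic := hqm.map _
  have hsplit : qC.Splits := IsAlgClosed.splits qC
  have hsep : qC.Separable := by
    have h3 : (minpoly ℚ lam).Separable := (minpoly.irreducible (hint.tower_top)).separable
    rw [minpoly.isIntegrallyClosed_eq_field_fractions' ℚ hint] at h3
    have h4 := h3.map (f := algebraMap ℚ ℂ)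
    rw [Polynomial.map_map] at h4
    have h5 : (algebraMap ℚ ℂ).comp (algebraMap ℤ ℚ) = Int.castRingHom ℂ := RingHom.ext_int _ _
    rw [h5] at h4
    exact h4
  have hnd : qC.roots.Nodup := Polynomial.nodup_roots hsep
  -- constant coefficient
  have hq0 : ‖qC.coeff 0‖ = 1 := by
    have h3 : IsUnit (q.coeff 0) := by
      obtain ⟨r, hr⟩ := hqP
      have h4 : P.coeff 0 = q.coeff 0 * r.coeff 0 := by rw [hr, Polynomial.mul_coeff_zero]
      rw [h4] at hP0
      exact isUnit_of_mul_isUnit_left hP0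
    rw [hqC, Polynomial.coeff_map]
    rcases Int.isUnit_iff.mp h3 with h | h <;> rw [h] <;> simp only [Int.reduceNeg, eq_intCast,
                                                            Int.cast_neg, Int.cast_one, norm_neg,
                                                            norm_one]
  have hprod : ‖qC.roots.prod‖ = 1 := by
    rw [hsplit.coeff_zero_eq_prod_roots_of_monic hqCm, norm_mul, norm_pow, norm_neg, norm_one,
      one_pow, one_mul] at hq0
    exact hq0
  set R : Finset ℂ := qC.roots.toFinset with hR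
  have hRval : R.val = qC.roots := by rw [hR, Multiset.toFinset_val, hnd.dedup]
  have hprod2 : ∏ z ∈ R, ‖z‖ = 1 := by
    rw [← norm_prod, Finset.prod, Multiset.map_id', hRval]
    exact hprod
  have hne : ∀ z ∈ R, ‖z‖ ≠ 0 := by
    intro z hz h0
    rw [Finset.prod_eq_zero hz h0] at hprod2
    exact zero_ne_one hprod2
  have hsum : ∑ z ∈ R, Real.log ‖z‖ = 0 := by
    rw [← Real.log_prod hne, hprod2, Real.log_one]
  have hlamR : lam ∈ R := by
    rw [hR, Multiset.mem_toFinset, Polynomial.mem_roots hqCm.ne_zero, Polynomial.IsRoot, hqC,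
      Polynomial.eval_map]
    exact minpoly.aeval ℤ lam
  have hroot : ∀ z ∈ R, (P.map (Int.castRingHom ℂ)).IsRoot z := by
    intro z hz
    rw [hR, Multiset.mem_toFinset, Polynomial.mem_roots hqCm.ne_zero] at hz
    exact hz.dvd (Polynomial.map_dvd _ hqP)
  have hcard : R.card ≤ q.natDegree := by
    calc R.card ≤ Multiset.card qC.roots := Multiset.toFinset_card_le _
      _ ≤ qC.natDegree := Polynomial.card_roots' _
      _ ≤ q.natDegree := Polynomial.natDegree_map_le
  have hlt : q.natDegree < n := by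
    by_contra hcon
    push Not at hcon
    have h1 : q = P := by
      refine Polynomial.eq_of_dvd_of_natDegree_le_of_leadingCoeff hqP (by rw [hdeg]; exact hcon) ?_
      rw [hqm.leadingCoeff, hP.leadingCoeff]
    rw [← h1, ← hqC, sq] at hlam
    have h2 := hsep.squarefree _ hlam
    exact Polynomial.not_isUnit_X_sub_C lam h2
  exact ⟨R, Finset.card_pos.mpr ⟨lam, hlamR⟩, hcard.trans_lt hlt, hroot, hsum⟩

theorem ent_mul_da_inv_pow_gen (h : G n) (β : Fin n → ℝ) (m : ℕ) (k l : Fin n) :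
    ((h * (da β ^ m)⁻¹ : G n) : Matrix (Fin n) (Fin n) ℝ) k l =
      h.1 k l * Real.exp (-(m * (β l - mean β))) := by
  rw [← da_nsmul, ← da_neg, coe_mul_G, coe_da, mul_diagonal]
  congr 2
  rw [mean_neg, mean_smul]
  simp only [Pi.neg_apply, Pi.smul_apply, smul_eq_mul]
  ring

/-- Column Gershgorin. -/
theorem gersh (h : Matrix (Fin n) (Fin n) ℝ) (e : Fin n → ℝ) {δ : ℝ}
    (hh : ∀ k l, |h k l - (1 : Matrix (Fin n) (Fin n) ℝ) k l| ≤ δ)
    {z : ℂ} {w : Fin n → ℂ} (hw : w ≠ 0)
    (hev : w ᵥ* ((h * diagonal fun l => Real.exp (e l)).map (algebraMap ℝ ℂ)) = z • w) :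
    ∃ l, ‖z / (Real.exp (e l) : ℝ) - 1‖ ≤ n * δ := by
  have hne : ∃ k, w k ≠ 0 := by
    by_contra hcon
    push Not at hcon
    exact hw (funext hcon)
  obtain ⟨k0, hk0⟩ := hne
  obtain ⟨l, -, hl⟩ := (Finset.univ : Finset (Fin n)).exists_max_image (fun k => ‖w k‖)
    ⟨k0, Finset.mem_univ _⟩
  have hl' : ∀ k, ‖w k‖ ≤ ‖w l‖ := fun k => hl k (Finset.mem_univ k)
  have hwl : 0 < ‖w l‖ := (norm_pos_iff.mpr hk0).trans_le (hl' k0)
  refine ⟨l, ?_⟩
  have hc : ((Real.exp (e l) : ℝ) : ℂ) ≠ 0 := by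
    exact_mod_cast (Real.exp_pos (e l)).ne'
  have h1 := congrFun hev l
  simp only [vecMul, dotProduct, map_apply, Pi.smul_apply, smul_eq_mul, mul_diagonal] at h1
  have h1' : ∑ k, w k * ((h k l : ℝ) : ℂ) * ((Real.exp (e l) : ℝ) : ℂ) = z * w l := by
    rw [← h1]
    refine Finset.sum_congr rfl fun k _ => ?_
    rw [mul_assoc]
    congr 1
    rw [← Complex.ofReal_mul]
    rfl
  have h2 : (z / ((Real.exp (e l) : ℝ) : ℂ) - 1) * w l =
      ∑ k, w k * ((h k l - (1 : Matrix (Fin n) (Fin n) ℝ) k l : ℝ) : ℂ) := by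
    have h3 : ∑ k, w k * (((1 : Matrix (Fin n) (Fin n) ℝ) k l : ℝ) : ℂ) = w l := by
      rw [Finset.sum_eq_single l]
      · simp
      · intro k _ hk
        rw [Matrix.one_apply_ne hk]
        simp
      · intro h
        exact absurd (Finset.mem_univ l) h
    have h4 : ∑ k, w k * ((h k l : ℝ) : ℂ) = z / ((Real.exp (e l) : ℝ) : ℂ) * w l := by
      rw [← Finset.sum_mul] at h1'
      rw [div_mul_eq_mul_div, ← h1', mul_div_cancel_right₀ _ hc]
    have h5 : ∀ k, w k * ((h k l - (1 : Matrix (Fin n) (Fin n) ℝ) k l : ℝ) : ℂ) =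
        w k * ((h k l : ℝ) : ℂ) - w k * (((1 : Matrix (Fin n) (Fin n) ℝ) k l : ℝ) : ℂ) := by
      intro k
      push_cast
      ring
    rw [Finset.sum_congr rfl fun k _ => h5 k, Finset.sum_sub_distrib, h3, h4]
    ring
  have h5 : ‖z / ((Real.exp (e l) : ℝ) : ℂ) - 1‖ * ‖w l‖ ≤ n * δ * ‖w l‖ := by
    rw [← norm_mul, h2]
    refine (norm_sum_le _ _).trans ?_
    have h6 : ∀ k ∈ (Finset.univ : Finset (Fin n)),
        ‖w k * ((h k l - (1 : Matrix (Fin n) (Fin n) ℝ) k l : ℝ) : ℂ)‖ ≤ δ * ‖w l‖ := by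
      intro k _
      rw [norm_mul, Complex.norm_real, Real.norm_eq_abs, mul_comm]
      exact mul_le_mul (hh k l) (hl' k) (norm_nonneg _) ((abs_nonneg _).trans (hh k l))
    refine (Finset.sum_le_sum h6).trans ?_
    rw [Finset.sum_const, nsmul_eq_mul, Finset.card_univ, Fintype.card_fin, ← mul_assoc]
  exact le_of_mul_le_mul_right h5 hwl

/-- the exponents: distinct powers of `N` off `{i, j}` and `0` on `{i, j}` -/
def bz (N : ℕ) (i j : Fin n) : Fin n → ℤ :=
  fun l => if l = i ∨ l = j then 0 else (N : ℤ) ^ (l : ℕ)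

/-- the combinatorial heart -/
theorem comb_gen (hn3 : 3 ≤ n) {i j : Fin n} {N : ℕ} (hN : n ^ 2 < N) (R : Finset ℂ)
    (hR0 : 0 < R.card) (hRn : R.card < n) (f : ℂ → Fin n)
    (hI : ∑ z ∈ R, ((n : ℤ) * bz N i j (f z) - ∑ k, bz N i j k) = 0) : False := by
  classical
  set c : Fin n → ℕ := fun l => (R.filter fun z => f z = l).card with hc
  have h1 : ∑ z ∈ R, bz N i j (f z) = ∑ l, (c l : ℤ) * bz N i j l := by
    rw [← Finset.sum_fiberwise_of_maps_to (s := R) (t := (Finset.univ : Finset (Fin n)))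
      (g := f) (fun _ _ => Finset.mem_univ _)]
    refine Finset.sum_congr rfl fun l _ => ?_
    rw [Finset.sum_congr rfl (g := fun _ => bz N i j l)
      (fun z hz => by rw [(Finset.mem_filter.mp hz).2]), Finset.sum_const, nsmul_eq_mul]
  have h2 : ∑ l, ((n : ℤ) * c l - R.card) * bz N i j l = 0 := by
    have h3 : ∑ l, ((n : ℤ) * c l - R.card) * bz N i j l =
        (n : ℤ) * ∑ l, (c l : ℤ) * bz N i j l - R.card * ∑ k, bz N i j k := by
      rw [Finset.mul_sum, Finset.mul_sum, ← Finset.sum_sub_distrib]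
      refine Finset.sum_congr rfl fun l _ => ?_
      ring
    rw [h3, ← h1]
    rw [Finset.sum_sub_distrib, ← Finset.mul_sum, Finset.sum_const, nsmul_eq_mul] at hI
    exact hI
  set a : Fin n → ℤ := fun l => if l = i ∨ l = j then 0 else (n : ℤ) * c l - R.card with ha
  have h4 : ∑ l, a l * (N : ℤ) ^ (l : ℕ) = 0 := by
    rw [← h2]
    refine Finset.sum_congr rfl fun l _ => ?_
    simp only [ha, bz]
    split_ifs <;> ring
  have hcR : ∀ l, c l ≤ R.card := fun l => Finset.card_filter_le _ _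
  have h5 : ∀ l, |a l| < (N : ℤ) := by
    intro l
    have hN' : ((n : ℤ)) ^ 2 < N := by exact_mod_cast hN
    have hc1 : (c l : ℤ) ≤ R.card := by exact_mod_cast hcR l
    have hc0 : (0 : ℤ) ≤ c l := Int.natCast_nonneg _
    have hr0 : (0 : ℤ) < R.card := by exact_mod_cast hR0
    have hr1 : (R.card : ℤ) < n := by exact_mod_cast hRn
    have hn0 : (3 : ℤ) ≤ n := by exact_mod_cast hn3
    simp only [ha]
    split_ifs with h
    · rw [abs_zero]
      nlinarith
    · rw [abs_lt]
      constructor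
      · nlinarith
      · nlinarith
  have h6 := digits_zero (N : ℤ) n a h5 h4
  obtain ⟨l, hl⟩ : ∃ l : Fin n, l ∉ ({i, j} : Finset (Fin n)) := by
    by_contra hcon
    push Not at hcon
    have h7 : (Finset.univ : Finset (Fin n)) ⊆ {i, j} := fun l _ => hcon l
    have h8 := Finset.card_le_card h7
    rw [Finset.card_univ, Fintype.card_fin] at h8
    have h9 : ({i, j} : Finset (Fin n)).card ≤ 2 := Finset.card_le_two
    omega
  have h7 := h6 l
  rw [Finset.mem_insert, Finset.mem_singleton] at hl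
  simp only [ha, if_neg hl] at h7
  have h8 : n * c l = R.card := by
    have : (n : ℤ) * c l = R.card := by linarith
    exact_mod_cast this
  rcases Nat.eq_zero_or_pos (c l) with h9 | h9
  · rw [h9, mul_zero] at h8
    omega
  · have : n * 1 ≤ n * c l := Nat.mul_le_mul_left n h9
    omega

/-- **The arithmetic input for every `n ≥ 3`.** -/
theorem arith_gen (hn3 : 3 ≤ n) {i j : Fin n} (hij : i ≠ j) : ∃ β : Fin n → ℝ, β i = β j ∧
    ∃ δ > 0, ∀ h : G n, (∀ k l, |h.1 k l - (1 : Matrix (Fin n) (Fin n) ℝ) k l| ≤ δ) →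
      ∀ m : ℕ, 1 ≤ m → ∀ x : X n, tr (da β ^ m) x = tr h x → ¬ LowAux.Cent i j h := by
  classical
  set N : ℕ := n ^ 2 + 1 with hN
  set b : Fin n → ℤ := bz N i j with hb
  set β : Fin n → ℝ := fun l => (b l : ℝ) with hβ
  have hn0 : (3 : ℝ) ≤ n := by exact_mod_cast hn3
  have hbi : β i = 0 := by simp [hβ, hb, bz]
  have hbj : β j = 0 := by simp [hβ, hb, bz]
  refine ⟨β, by rw [hbi, hbj], 1 / (4 * n ^ 3), by positivity,
    fun h hh m hm x hx hC => ?_⟩
  obtain ⟨hC1, hC2, hC3⟩ := hC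
  obtain ⟨g, rfl⟩ := pt_surjective x
  rw [tr_pt, tr_pt, pt_eq_pt] at hx
  obtain ⟨γ, hγ⟩ := hx
  set M : G n := h * (da β ^ m)⁻¹ with hM
  have hconj : g * M * g⁻¹ = Matrix.SpecialLinearGroup.map (Int.castRingHom ℝ) γ := by
    rw [hγ, hM]
    group
  -- characteristic polynomials
  have hchar : (M : Matrix (Fin n) (Fin n) ℝ).charpoly =
      (γ : Matrix (Fin n) (Fin n) ℤ).charpoly.map (Int.castRingHom ℝ) := by
    rw [← Matrix.charpoly_map]
    have h3 : ((γ : Matrix (Fin n) (Fin n) ℤ).map (Int.castRingHom ℝ)) =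
        (g : Matrix (Fin n) (Fin n) ℝ) * (M : Matrix (Fin n) (Fin n) ℝ) * (g⁻¹ : G n) := by
      rw [← coe_mul_G, ← coe_mul_G, hconj]
      rfl
    rw [h3, Matrix.charpoly_mul_comm, ← mul_assoc, ← coe_mul_G, inv_mul_cancel]
    simp only [Matrix.SpecialLinearGroup.coe_one, one_mul]
  set P : Polynomial ℤ := (γ : Matrix (Fin n) (Fin n) ℤ).charpoly with hP
  have hcharC : ((M : Matrix (Fin n) (Fin n) ℝ).map (algebraMap ℝ ℂ)).charpoly =
      P.map (Int.castRingHom ℂ) := by
    rw [Matrix.charpoly_map, hchar, Polynomial.map_map]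
    congr 1
  have hroot : ∀ z : ℂ, (P.map (Int.castRingHom ℂ)).IsRoot z → ∃ v : Fin n → ℂ, v ≠ 0 ∧
      v ᵥ* ((M : Matrix (Fin n) (Fin n) ℝ).map (algebraMap ℝ ℂ)) = z • v := by
    intro z hz
    rw [← hcharC, Polynomial.IsRoot, Matrix.eval_charpoly, ← Matrix.exists_vecMul_eq_zero_iff] at hz
    obtain ⟨v, hv, hv2⟩ := hz
    refine ⟨v, hv, ?_⟩
    rw [Matrix.vecMul_sub, sub_eq_zero] at hv2
    rw [← hv2]
    ext k
    simp [Matrix.scalar_apply, Matrix.vecMul_diagonal, mul_comm]
  have hM' : ∀ k l, (M : Matrix (Fin n) (Fin n) ℝ) k l =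
      h.1 k l * Real.exp (-(m * (β l - mean β))) := ent_mul_da_inv_pow_gen h β m
  have hM'' : (M : Matrix (Fin n) (Fin n) ℝ) =
      h.1 * diagonal fun l => Real.exp (-(m * (β l - mean β))) := by
    ext k l
    rw [hM', mul_diagonal]
  set lam : ℝ := h.1 i i * Real.exp (-(m * (β i - mean β))) with hlam
  have hMi : ∀ k, k ≠ i → (M : Matrix (Fin n) (Fin n) ℝ) k i = 0 := by
    intro k hk
    rw [hM', hC2 k hk, zero_mul]
  have hMj : ∀ l, l ≠ j → (M : Matrix (Fin n) (Fin n) ℝ) j l = 0 := by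
    intro l hl
    rw [hM', hC3 l hl, zero_mul]
  have hMii : (M : Matrix (Fin n) (Fin n) ℝ) i i = lam := by rw [hM']
  have hMjj : (M : Matrix (Fin n) (Fin n) ℝ) j j = lam := by
    rw [hM', ← hC1, hlam, hbi, hbj]
  have hsq : (Polynomial.X - Polynomial.C (lam : ℂ)) ^ 2 ∣ P.map (Int.castRingHom ℂ) := by
    rw [← hcharC]
    refine sq_dvd_charpoly _ hij (lam : ℂ) ?_ ?_ ?_ ?_
    · rw [map_apply, hMii]; rfl
    · rw [map_apply, hMjj]; rfl
    · intro k hk
      rw [map_apply, hMi k hk, map_zero]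
    · intro l hl
      rw [map_apply, hMj l hl, map_zero]
  obtain ⟨R, hR0, hRn, hRroot, hRsum⟩ := arith_poly_gen P (Matrix.charpoly_monic _)
    (by rw [hP, Matrix.charpoly_natDegree_eq_dim, Fintype.card_fin])
    (by
      have h3 := Matrix.det_eq_sign_charpoly_coeff (γ : Matrix (Fin n) (Fin n) ℤ)
      rw [γ.2, ← hP] at h3
      exact IsUnit.of_mul_eq_one _ (by rw [mul_comm]; exact h3.symm)) (lam : ℂ) hsq
  set ε : ℝ := 1 / (4 * n ^ 2) with hε
  have hnδ : (n : ℝ) * (1 / (4 * n ^ 3)) = ε := by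
    rw [hε]; field_simp
  have hε2 : ε ≤ 1 / 2 := by
    rw [hε, div_le_div_iff₀ (by positivity) (by positivity)]
    nlinarith
  -- every root is near a diagonal entry
  have hloc : ∀ z ∈ R, ∃ l : Fin n, |Real.log ‖z‖ + m * (β l - mean β)| ≤ 2 * ε := by
    intro z hz
    obtain ⟨v, hv, hev⟩ := hroot z (hRroot z hz)
    rw [hM''] at hev
    obtain ⟨l, hl⟩ := gersh h.1 (fun l => -(m * (β l - mean β))) hh hv hev
    rw [hnδ] at hl
    have h5 := log_norm_le hl hε2
    have hz0 : z ≠ 0 := by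
      intro h0
      rw [h0] at hl
      simp only [zero_div, zero_sub, norm_neg, norm_one] at hl
      linarith
    have h6 : Real.log ‖z / (Real.exp (-(m * (β l - mean β))) : ℝ)‖ =
        Real.log ‖z‖ + m * (β l - mean β) := by
      rw [norm_div, Real.log_div (by simpa using hz0) (by simp), Complex.norm_real,
        Real.norm_eq_abs, Real.abs_exp, Real.log_exp]
      ring
    rw [h6] at h5
    exact ⟨l, h5⟩
  have : Nonempty (Fin n) := ⟨i⟩
  choose! f hf using hloc
  -- the integer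
  set I : ℤ := ∑ z ∈ R, ((n : ℤ) * b (f z) - ∑ k, b k) with hI
  have hnI : (n : ℝ) * ∑ z ∈ R, (β (f z) - mean β) = I := by
    rw [hI, Finset.mul_sum]
    push_cast
    refine Finset.sum_congr rfl fun z _ => ?_
    have h7 : (n : ℝ) * mean β = ∑ k, (b k : ℝ) := by
      rw [mean, mul_div_cancel₀ _ (by positivity : (n : ℝ) ≠ 0)]
    rw [mul_sub, h7]
  have hsm : |(m : ℝ) * ∑ z ∈ R, (β (f z) - mean β)| ≤ R.card * (2 * ε) := by
    have h8 : (m : ℝ) * ∑ z ∈ R, (β (f z) - mean β) =
        ∑ z ∈ R, (Real.log ‖z‖ + m * (β (f z) - mean β)) := by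
      rw [Finset.sum_add_distrib, hRsum, zero_add, Finset.mul_sum]
    rw [h8]
    refine (Finset.abs_sum_le_sum_abs _ _).trans ?_
    refine (Finset.sum_le_sum fun z hz => hf z hz).trans ?_
    rw [Finset.sum_const, nsmul_eq_mul]
  have hIlt : |(m : ℝ) * I| < 1 := by
    rw [← hnI]
    have h9 : (m : ℝ) * (n * ∑ z ∈ R, (β (f z) - mean β)) =
        n * (m * ∑ z ∈ R, (β (f z) - mean β)) := by ring
    rw [h9, abs_mul, Nat.abs_cast]
    have h10 : (R.card : ℝ) ≤ n := by exact_mod_cast hRn.le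
    have hε0 : 0 < ε := by rw [hε]; positivity
    calc (n : ℝ) * |(m : ℝ) * ∑ z ∈ R, (β (f z) - mean β)| ≤ n * (R.card * (2 * ε)) := by
          gcongr
      _ ≤ n * (n * (2 * ε)) := by gcongr
      _ = 1 / 2 := by rw [hε]; field_simp; norm_num
      _ < 1 := by norm_num
  have hI0 : I = 0 := by
    have h11 : (m : ℝ) * I = (((m : ℤ) * I : ℤ) : ℝ) := by push_cast; ring
    rw [h11, ← Int.cast_abs] at hIlt
    have h12 : |(m : ℤ) * I| < 1 := by exact_mod_cast hIlt
    rw [Int.abs_lt_one_iff, mul_eq_zero] at h12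
    rcases h12 with h | h
    · omega
    · exact h
  exact comb_gen hn3 (N := N) (by rw [hN]; omega) R hR0 hRn f hI0

end Vale.Agent.P007.H11
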