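import Vale.Agent.P007.H11.Rel

/-! Averages over the sign matrices of determinant one. -/

set_option autoImplicit false

open MeasureTheory Matrix Filter Topology ProbabilityTheory
open scoped ENNReal

namespace Vale.Agent.P007.H11

open Vale.Agent.P007 Vale.Agent.P007.Koopman Vale.Agent.P007.Mautner Vale.Agent.P007.R
  Vale.Agent.P007.R.Blk

variable {n : ℕ}

/-- `g = diag(±1, …, ±1)` -/
def IsSg (g : G n) : Prop := ∃ w : Fin n → ℤˣ, g.1 = diagonal fun j => ((w j : ℤ) : ℝ)

/-- the group of the sign matrices of determinant one -/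
def W (n : ℕ) : Subgroup (G n) where
  carrier := {g | IsSg g}
  one_mem' := ⟨1, by
    change (1 : Matrix (Fin n) (Fin n) ℝ) = _
    rw [← diagonal_one]
    congr 1
    funext j
    simp⟩
  mul_mem' := by
    rintro g h ⟨w, hw⟩ ⟨v, hv⟩
    refine ⟨w * v, ?_⟩
    change g.1 * h.1 = _
    rw [hw, hv, diagonal_mul_diagonal]
    congr 1
    funext j
    simp
  inv_mem' := by
    rintro g ⟨w, hw⟩
    refine ⟨w, ?_⟩
    have h1 : g * g = 1 := by
      apply Subtype.ext
      change g.1 * g.1 = 1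
      rw [hw, diagonal_mul_diagonal, ← diagonal_one]
      congr 1
      funext j
      rcases Int.units_eq_one_or (w j) with h | h <;> simp [h]
    rw [inv_eq_of_mul_eq_one_right h1]
    exact hw

instance : Finite (W n) := by
  have h : (Set.range fun w : Fin n → ℤˣ =>
      (diagonal fun j => ((w j : ℤ) : ℝ) : Matrix (Fin n) (Fin n) ℝ)).Finite := Set.finite_range _
  have h2 : ((W n : Set (G n))).Finite := by
    refine Set.Finite.of_injOn (f := fun g : G n => g.1) (t := Set.range fun w : Fin n → ℤˣ =>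
      (diagonal fun j => ((w j : ℤ) : ℝ) : Matrix (Fin n) (Fin n) ℝ)) ?_ ?_ h
    · rintro g ⟨w, hw⟩
      exact ⟨w, hw.symm⟩
    · intro g _ h _ he
      exact Subtype.ext he
  exact h2.to_subtype

noncomputable instance : Fintype (W n) := Fintype.ofFinite _

/-- `κ` is invariant under the sign matrices of determinant one. -/
def SInv (κ : Measure (X n)) : Prop := ∀ g ∈ W n, κ.map (tr g) = κ

/-- the average -/
noncomputable def avg (κ : Measure (X n)) : Measure (X n) :=
  (Fintype.card (W n) : ℝ≥0∞)⁻¹ • ∑ g : W n, κ.map (tr (g : G n))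

theorem map_map_tr (κ : Measure (X n)) (g h : G n) :
    (κ.map (tr g)).map (tr h) = κ.map (tr (g * h)) := by
  rw [Measure.map_map (measurable_tr h) (measurable_tr g)]
  congr 1
  funext x
  exact tr_tr g h x

theorem map_finset_sum {ι : Type*} (s : Finset ι) (κ : ι → Measure (X n)) (g : G n) :
    (∑ k ∈ s, κ k).map (tr g) = ∑ k ∈ s, (κ k).map (tr g) := by
  classical
  induction s using Finset.induction_on with
  | empty => simp
  | insert a s ha ih =>
    rw [Finset.sum_insert ha, Finset.sum_insert ha, Measure.map_add _ _ (measurable_tr g), ih]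

theorem sInv_avg (κ : Measure (X n)) : SInv (avg κ) := by
  intro h hh
  rw [avg, Measure.map_smul, map_finset_sum]
  congr 1
  simp only [map_map_tr]
  exact Fintype.sum_equiv (Equiv.mulRight (⟨h, hh⟩ : W n)) _ _ fun g => rfl

theorem avg_of_sInv {κ : Measure (X n)} (h : SInv κ) : avg κ = κ := by
  rw [avg]
  have h1 : ∀ g : W n, κ.map (tr (g : G n)) = κ := fun g => h g g.2
  simp only [h1, Finset.sum_const, Finset.card_univ]
  rw [← Nat.cast_smul_eq_nsmul ℝ≥0∞, smul_smul, ENNReal.inv_mul_cancel, one_smul]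
  · exact_mod_cast Fintype.card_ne_zero
  · exact ENNReal.natCast_ne_top _

theorem avg_add (κ κ' : Measure (X n)) : avg (κ + κ') = avg κ + avg κ' := by
  simp only [avg, Measure.map_add _ _ (measurable_tr _), Finset.sum_add_distrib, smul_add]

theorem avg_smul (c : ℝ≥0∞) (κ : Measure (X n)) : avg (c • κ) = c • avg κ := by
  simp only [avg, Measure.map_smul, ← Finset.smul_sum]
  rw [smul_comm]

theorem avg_apply (κ : Measure (X n)) (s : Set (X n)) :
    avg κ s = (Fintype.card (W n) : ℝ≥0∞)⁻¹ * ∑ g : W n, κ.map (tr (g : G n)) s := by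
  rw [avg, Measure.smul_apply, Measure.coe_finsetSum, Finset.sum_apply, smul_eq_mul]

theorem avg_sum {ι : Type*} (κ : ι → Measure (X n)) :
    avg (Measure.sum κ) = Measure.sum fun k => avg (κ k) := by
  ext s hs
  rw [Measure.sum_apply _ hs, avg_apply]
  simp only [avg_apply]
  rw [ENNReal.tsum_mul_left]
  congr 1
  rw [Summable.tsum_finsetSum fun _ _ => ENNReal.summable]
  refine Finset.sum_congr rfl fun g _ => ?_
  rw [Measure.map_sum (measurable_tr _).aemeasurable, Measure.sum_apply _ hs]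

theorem isSg_comm {g : G n} (hg : g ∈ W n) (β : Fin n → ℝ) : g * da β = da β * g := by
  obtain ⟨w, hw⟩ := hg
  apply Subtype.ext
  change g.1 * (da β).1 = (da β).1 * g.1
  rw [hw, coe_da, diagonal_mul_diagonal, diagonal_mul_diagonal]
  congr 1
  funext j
  exact mul_comm _ _

theorem isSg_ug {g : G n} (hg : g ∈ W n) (i j : Fin n) (s : ℝ) :
    ∃ s' : ℝ, g * ug i j s = ug i j s' * g := by
  by_cases hij : i = j
  · subst hij
    refine ⟨0, ?_⟩
    simp [ug]
  obtain ⟨w, hw⟩ := hg
  refine ⟨((w i : ℤ) : ℝ) * s * ((w j : ℤ) : ℝ), ?_⟩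
  apply Subtype.ext
  change g.1 * (ug i j s).1 = (ug i j _).1 * g.1
  rw [ug_of_ne hij, ug_of_ne hij, coe_tv, coe_tv, hw, transvection, transvection]
  ext k l
  rw [diagonal_mul, mul_diagonal, Matrix.add_apply, Matrix.add_apply, one_apply, single_apply,
    single_apply]
  by_cases hkl : k = l
  · subst hkl
    have h2 : ¬ (i = k ∧ j = k) := fun h => hij (h.1.trans h.2.symm)
    rw [if_neg h2, if_neg h2, if_pos rfl]
    ring
  · by_cases h2 : i = k ∧ j = l
    · obtain ⟨rfl, rfl⟩ := h2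
      rw [if_neg hkl, if_pos ⟨rfl, rfl⟩, if_pos ⟨rfl, rfl⟩]
      have h3 : (((w j : ℤ) : ℝ)) * ((w j : ℤ) : ℝ) = 1 := by
        rcases Int.units_eq_one_or (w j) with h | h <;> simp [h]
      linear_combination (-((w i : ℤ) : ℝ) * s) * h3
    · rw [if_neg hkl, if_neg h2, if_neg h2]
      ring

theorem Yd_sg {g : G n} (hg : g ∈ W n) (p : Fin n → ℝ) {x : X n} (hx : x ∈ Yd p) :
    tr g x ∈ Yd p := by
  obtain ⟨w, hw⟩ := hg
  obtain ⟨h, rfl⟩ := pt_surjective x
  obtain ⟨M, hM⟩ := pt_mem_Yd.1 hx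
  rw [tr_pt]
  refine pt_mem_Yd.2 ⟨M, ?_⟩
  have h1 : g.1 * diagonal p = diagonal p * g.1 := by
    rw [hw, diagonal_mul_diagonal, diagonal_mul_diagonal]
    congr 1
    funext j
    exact mul_comm _ _
  rw [coe_mul_G, mul_assoc, h1, ← mul_assoc, hM, mul_assoc]

theorem Homog.map_sg {p : Fin n → ℝ} {κ : Measure (X n)} (h : Homog p κ) {g : G n}
    (hg : g ∈ W n) : Homog p (κ.map (tr g)) := by
  obtain ⟨h1, h2, h3⟩ := h
  refine ⟨fun β => ?_, ?_, fun i j hij hpij s => ?_⟩
  · rw [map_map_tr, isSg_comm hg, ← map_map_tr, h1 β]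
  · rw [Measure.map_apply (measurable_tr g) (isClosed_Yd p).measurableSet.compl]
    refine measure_mono_null ?_ h2
    intro x hx hx'
    exact hx (Yd_sg hg p hx')
  · obtain ⟨s', hs'⟩ := isSg_ug hg i j s
    rw [map_map_tr, hs', ← map_map_tr, h3 i j hij hpij s']

theorem Homog.add {p : Fin n → ℝ} {κ κ' : Measure (X n)} (h : Homog p κ) (h' : Homog p κ') :
    Homog p (κ + κ') := by
  refine ⟨fun β => ?_, ?_, fun i j hij hpij s => ?_⟩
  · rw [Measure.map_add _ _ (measurable_tr _), h.1 β, h'.1 β]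
  · rw [Measure.add_apply, h.2.1, h'.2.1, add_zero]
  · rw [Measure.map_add _ _ (measurable_tr _), h.2.2 i j hij hpij s, h'.2.2 i j hij hpij s]

theorem Homog.smul {p : Fin n → ℝ} {κ : Measure (X n)} (h : Homog p κ) (c : ℝ≥0∞) :
    Homog p (c • κ) := by
  refine ⟨fun β => ?_, ?_, fun i j hij hpij s => ?_⟩
  · rw [Measure.map_smul, h.1 β]
  · rw [Measure.smul_apply, h.2.1, smul_zero]
  · rw [Measure.map_smul, h.2.2 i j hij hpij s]

theorem Homog.avg {p : Fin n → ℝ} {κ : Measure (X n)} (h : Homog p κ) : Homog p (avg κ) := by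
  classical
  rw [H11.avg]
  refine Homog.smul ?_ _
  have h1 : ∀ s : Finset (W n), Homog p (∑ g ∈ s, κ.map (tr (g : G n))) := by
    intro s
    induction s using Finset.induction_on with
    | empty =>
      rw [Finset.sum_empty]
      exact Homog.zero p
    | insert a s ha ih =>
      rw [Finset.sum_insert ha]
      exact (h.map_sg a.2).add ih
  exact h1 _

theorem sInv_of_inv {m : Measure (X n)} (hm : IsInvProb m) : SInv m := fun g _ => hm.2 g

/-- the components can be chosen invariant under the sign matrices -/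
theorem decomposition_sg (hn : Odd n) (hn1 : 1 < n) (ν : Measure (X n)) [IsProbabilityMeasure ν]
    (hA : AInv ν) (hS : Star ν) (hW : SInv ν) {m : Measure (X n)} (hm : IsInvProb m) :
    ∃ κ : {p : Fin n → ℝ // IsMult p} → Measure (X n), (∀ p, Homog p.1 (κ p) ∧ SInv (κ p)) ∧
      ν = ν (RMs n)ᶜ • m + Measure.sum κ := by
  obtain ⟨κ, hκ, hν⟩ := decomposition hn hn1 ν hA hS hm
  refine ⟨fun p => avg (κ p), fun p => ⟨(hκ p).avg, sInv_avg _⟩, ?_⟩
  have h1 := congrArg avg hν
  rwa [avg_of_sInv hW, avg_add, avg_smul, avg_of_sInv (sInv_of_inv hm), avg_sum] at h1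

end Vale.Agent.P007.H11
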