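import Vale.Agent.P007.H11.Arith

/-! The centralizer of `diag(p)` in `SL_n(ℝ)` is generated by the diagonal matrices and the root
groups of the blocks. -/

set_option autoImplicit false

open MeasureTheory Matrix Filter Topology ProbabilityTheory
open scoped ENNReal

namespace Vale.Agent.P007.H11

open Vale.Agent.P007 Vale.Agent.P007.Koopman Vale.Agent.P007.Mautner Vale.Agent.P007.R
  Vale.Agent.P007.R.Blk

variable {n : ℕ}

/-- the block matrix `diag(M, R)` -/
def bm2 {B : Finset (Fin n)} (M : Matrix B B ℝ) (R : Matrix {j // ¬ j ∈ B} {j // ¬ j ∈ B} ℝ) :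
    Matrix (Fin n) (Fin n) ℝ :=
  (fromBlocks M 0 0 R).submatrix (Equiv.sumCompl (· ∈ B)).symm (Equiv.sumCompl (· ∈ B)).symm

section bm2

variable {B : Finset (Fin n)} (M : Matrix B B ℝ) (R : Matrix {j // ¬ j ∈ B} {j // ¬ j ∈ B} ℝ)

theorem bm_eq_bm2 : bm M = bm2 M 1 := rfl

theorem bm2_mul (M' : Matrix B B ℝ) (R' : Matrix {j // ¬ j ∈ B} {j // ¬ j ∈ B} ℝ) :
    bm2 M R * bm2 M' R' = bm2 (M * M') (R * R') := by
  unfold bm2
  rw [submatrix_mul_equiv, fromBlocks_multiply]
  simp only [Matrix.mul_zero, add_zero, Matrix.zero_mul, zero_add]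

theorem bm2_mem_mem {i j : Fin n} (hi : i ∈ B) (hj : j ∈ B) :
    bm2 M R i j = M ⟨i, hi⟩ ⟨j, hj⟩ := by
  unfold bm2
  rw [submatrix_apply, Equiv.sumCompl_symm_apply_of_pos hi, Equiv.sumCompl_symm_apply_of_pos hj]
  rfl

theorem bm2_mem_not {i j : Fin n} (hi : i ∈ B) (hj : j ∉ B) : bm2 M R i j = 0 := by
  unfold bm2
  rw [submatrix_apply, Equiv.sumCompl_symm_apply_of_pos hi, Equiv.sumCompl_symm_apply_of_neg hj]
  rfl

theorem bm2_not_mem {i j : Fin n} (hi : i ∉ B) (hj : j ∈ B) : bm2 M R i j = 0 := by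
  unfold bm2
  rw [submatrix_apply, Equiv.sumCompl_symm_apply_of_neg hi, Equiv.sumCompl_symm_apply_of_pos hj]
  rfl

theorem bm2_not_not {i j : Fin n} (hi : i ∉ B) (hj : j ∉ B) :
    bm2 M R i j = R ⟨i, hi⟩ ⟨j, hj⟩ := by
  unfold bm2
  rw [submatrix_apply, Equiv.sumCompl_symm_apply_of_neg hi, Equiv.sumCompl_symm_apply_of_neg hj]
  rfl

end bm2

/-- a matrix which is block diagonal for `B`, `Bᶜ` -/
theorem eq_bm2 {B : Finset (Fin n)} {h : Matrix (Fin n) (Fin n) ℝ}
    (hb : ∀ i j, (i ∈ B ∧ j ∉ B ∨ i ∉ B ∧ j ∈ B) → h i j = 0) :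
    h = bm2 (h.submatrix (Subtype.val : B → Fin n) (Subtype.val : B → Fin n))
      (h.submatrix (Subtype.val : {j // ¬ j ∈ B} → Fin n) (Subtype.val : {j // ¬ j ∈ B} → Fin n)) := by
  ext i j
  by_cases hi : i ∈ B
  · by_cases hj : j ∈ B
    · rw [bm2_mem_mem _ _ hi hj]; rfl
    · rw [bm2_mem_not _ _ hi hj]; exact hb i j (Or.inl ⟨hi, hj⟩)
  · by_cases hj : j ∈ B
    · rw [bm2_not_mem _ _ hi hj]; exact hb i j (Or.inr ⟨hi, hj⟩)
    · rw [bm2_not_not _ _ hi hj]; rfl

/-- products of transvections of a block -/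
theorem exists_list {p : Fin n → ℝ} {S : Subgroup (G n)}
    (hU : ∀ i j, i ≠ j → p i = p j → ∀ s : ℝ, ug i j s ∈ S) {B : Finset (Fin n)}
    (hB : ∀ i ∈ B, ∀ j ∈ B, p i = p j) (L : List (TransvectionStruct B ℝ)) :
    ∃ q : HB B, q.1 = (L.map TransvectionStruct.toMatrix).prod ∧ (io q : G n) ∈ S := by
  induction L with
  | nil => exact ⟨1, by simp, by rw [map_one]; exact one_mem S⟩
  | cons t L ih =>
    obtain ⟨q, hq, hqS⟩ := ih
    refine ⟨Matrix.SpecialLinearGroup.transvection t.hij t.c * q, ?_, ?_⟩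
    · rw [List.map_cons, List.prod_cons, ← hq]
      rfl
    · rw [map_mul, io_transvection]
      refine mul_mem ?_ hqS
      have hne : (t.i : Fin n) ≠ t.j := fun h => t.hij (Subtype.ext h)
      rw [← ug_of_ne hne]
      exact hU _ _ hne (hB _ t.i.2 _ t.j.2) _

/-- the diagonal matrices -/
theorem diagonal_mem {S : Subgroup (G n)} (hA : ∀ β : Fin n → ℝ, da β ∈ S)
    (hW : ∀ (w : Fin n → ℤˣ) (g : G n), g.1 = diagonal (fun j => ((w j : ℤ) : ℝ)) → g ∈ S)
    {h : G n} {d : Fin n → ℝ} (hd : h.1 = diagonal d) : h ∈ S := by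
  have hprod : ∏ j, d j = 1 := by
    rw [← det_diagonal, ← hd]
    exact h.2
  have hne : ∀ j, d j ≠ 0 := by
    intro j hj
    rw [Finset.prod_eq_zero (Finset.mem_univ j) hj] at hprod
    exact zero_ne_one hprod
  set w : Fin n → ℤˣ := fun j => if 0 < d j then 1 else -1 with hw
  set β : Fin n → ℝ := fun j => Real.log (d j) with hβ
  have hmean : mean β = 0 := by
    rw [mean, hβ, ← Real.log_prod (fun j _ => hne j), hprod, Real.log_one, zero_div]
  have habs : ∀ j, Real.exp (β j - mean β) = |d j| := by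
    intro j
    rw [hmean, sub_zero, hβ]
    exact Real.exp_log_eq_abs (hne j)
  have hwd : ∀ j, ((w j : ℤ) : ℝ) * |d j| = d j := by
    intro j
    rw [hw]
    by_cases hj : 0 < d j
    · simp only [if_pos hj]
      rw [abs_of_pos hj]; simp
    · simp only [if_neg hj]
      rw [abs_of_nonpos (not_lt.1 hj)]; simp
  have hmul : (h * (da β)⁻¹ : G n).1 = diagonal (fun j => ((w j : ℤ) : ℝ)) := by
    have h1 : (diagonal (fun j => ((w j : ℤ) : ℝ)) : Matrix (Fin n) (Fin n) ℝ) * (da β : G n).1 =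
        h.1 := by
      rw [hd, coe_da, diagonal_mul_diagonal]
      congr 1
      funext j
      rw [habs, hwd]
    rw [coe_mul_G, ← h1, mul_assoc, g_mul_inv, mul_one]
  have h2 := mul_mem (hW w _ hmul) (hA β)
  rwa [inv_mul_cancel_right] at h2

theorem centralizer_mem {p : Fin n → ℝ} (S : Subgroup (G n)) (hA : ∀ β : Fin n → ℝ, da β ∈ S)
    (hW : ∀ (w : Fin n → ℤˣ) (g : G n), g.1 = diagonal (fun j => ((w j : ℤ) : ℝ)) → g ∈ S)
    (hU : ∀ i j, i ≠ j → p i = p j → ∀ s : ℝ, ug i j s ∈ S) {h : G n}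
    (hh : h.1 * diagonal p = diagonal p * h.1) : h ∈ S := by
  classical
  -- `h i j = 0` for `p i ≠ p j`
  have h0 : ∀ i j, p i ≠ p j → h.1 i j = 0 := by
    intro i j hij
    have h1 := congrFun (congrFun hh i) j
    rw [mul_diagonal, diagonal_mul] at h1
    have h2 : (p i - p j) * h.1 i j = 0 := by linear_combination -h1
    exact (mul_eq_zero.1 h2).resolve_left (sub_ne_zero.2 hij)
  suffices key : ∀ (T : Finset ℝ) (h : G n), (∀ i j, p i ≠ p j → h.1 i j = 0) →
      (∀ i j, p i ∉ T → i ≠ j → h.1 i j = 0) → h ∈ S from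
    key (Finset.univ.image p) h h0 fun i j hi _ =>
      absurd (Finset.mem_image_of_mem p (Finset.mem_univ i)) hi
  intro T
  induction T using Finset.induction_on with
  | empty =>
    intro h _ hd
    refine diagonal_mem hA hW (d := fun i => h.1 i i) ?_
    ext i j
    by_cases hij : i = j
    · subst hij
      rw [diagonal_apply_eq]
    · rw [diagonal_apply_ne _ hij]
      exact hd i j (Finset.notMem_empty _) hij
  | insert c T hcT ih =>
    intro h h0 hd
    set B : Finset (Fin n) := Finset.univ.filter fun j => p j = c with hB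
    have hmem : ∀ j, j ∈ B ↔ p j = c := by
      intro j
      rw [hB, Finset.mem_filter]
      exact ⟨fun h => h.2, fun h => ⟨Finset.mem_univ _, h⟩⟩
    set M := h.1.submatrix (Subtype.val : B → Fin n) (Subtype.val : B → Fin n) with hM
    set R := h.1.submatrix (Subtype.val : {j // ¬ j ∈ B} → Fin n)
      (Subtype.val : {j // ¬ j ∈ B} → Fin n) with hR
    have hhb : h.1 = bm2 M R := by
      refine eq_bm2 fun i j hij => h0 i j ?_
      rcases hij with ⟨hi, hj⟩ | ⟨hi, hj⟩
      · intro hp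
        exact hj ((hmem j).2 (hp.symm.trans ((hmem i).1 hi)))
      · intro hp
        exact hi ((hmem i).2 (hp.trans ((hmem j).1 hj)))
    obtain ⟨L, L', D, hLD⟩ := Pivot.exists_list_transvec_mul_diagonal_mul_list_transvec M
    have hBp : ∀ i ∈ B, ∀ j ∈ B, p i = p j := fun i hi j hj =>
      ((hmem i).1 hi).trans ((hmem j).1 hj).symm
    obtain ⟨q, hq, hqS⟩ := exists_list hU hBp L
    obtain ⟨q', hq', hqS'⟩ := exists_list hU hBp L'
    have hfac : h.1 = bm q.1 * bm2 (diagonal D) R * bm q'.1 := by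
      rw [hhb, bm_eq_bm2, bm_eq_bm2, bm2_mul, bm2_mul, one_mul, mul_one, hq, hq', ← hLD]
    have hdet : (bm2 (diagonal D) R).det = 1 := by
      have h1 := congrArg Matrix.det hfac
      rw [Matrix.det_mul, Matrix.det_mul, det_bm, det_bm] at h1
      have h2 : h.1.det = 1 := h.2
      have h3 : q.1.det = 1 := q.2
      have h4 : q'.1.det = 1 := q'.2
      rw [h2, h3, h4, one_mul, mul_one] at h1
      exact h1.symm
    have hih := ih ⟨bm2 (diagonal D) R, hdet⟩ (by
      intro i j hij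
      change bm2 (diagonal D) R i j = 0
      by_cases hi : i ∈ B
      · by_cases hj : j ∈ B
        · exact absurd (hBp i hi j hj) hij
        · rw [bm2_mem_not _ _ hi hj]
      · by_cases hj : j ∈ B
        · rw [bm2_not_mem _ _ hi hj]
        · rw [bm2_not_not _ _ hi hj]
          exact h0 i j hij) (by
      intro i j hi hij
      change bm2 (diagonal D) R i j = 0
      by_cases hiB : i ∈ B
      · by_cases hj : j ∈ B
        · rw [bm2_mem_mem _ _ hiB hj]
          exact diagonal_apply_ne _ fun h => hij (congrArg Subtype.val h)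
        · rw [bm2_mem_not _ _ hiB hj]
      · by_cases hj : j ∈ B
        · rw [bm2_not_mem _ _ hiB hj]
        · rw [bm2_not_not _ _ hiB hj]
          refine hd i j ?_ hij
          rw [Finset.mem_insert, not_or]
          exact ⟨fun h => hiB ((hmem i).2 h), hi⟩)
    have hprod : h = io q * ⟨bm2 (diagonal D) R, hdet⟩ * io q' := Subtype.ext hfac
    rw [hprod]
    exact mul_mem (mul_mem hqS hih) hqS'

end Vale.Agent.P007.H11
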