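import Vale.Agent.P007.StmtF

/-!
Real multiplication: the definitions used in the statement about the odd degrees.
-/

open Matrix

namespace Vale.Agent.P007.F

/-- `p_1, …, p_n` are roots of one irreducible monic polynomial with integer coefficients whose
degree `d` satisfies `1 < d < n`. -/
def IsMult {n : ℕ} (p : Fin n → ℝ) : Prop :=
  ∃ f : Polynomial ℤ, f.Monic ∧ Irreducible f ∧ 1 < f.natDegree ∧ f.natDegree < n ∧
    ∀ j, Polynomial.aeval (p j) f = 0

/-- The points of `X_n` whose lattice `Λ` satisfies `Λ diag(p_1, …, p_n) ⊆ Λ`. -/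
def Stab {n : ℕ} (p : Fin n → ℝ) : Set (X n) :=
  {x | ∀ g, pt g = x → ∀ v ∈ lat g, (fun j => v j * p j) ∈ lat g}

/-- The lattices with real multiplication: those stable under some `diag(p_1, …, p_n)` with
`IsMult p`. -/
def RM (n : ℕ) : Set (X n) := {x | ∃ p : Fin n → ℝ, IsMult p ∧ x ∈ Stab p}

end Vale.Agent.P007.F
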