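import Vale.Agent.P007.H11.Defs

/-!
Homogeneous measures: the definitions used in the statement about the weak limits.
-/

open MeasureTheory Matrix

namespace Vale.Agent.P007.F

/-- The elements of `SL_n(ℝ)` which commute with `diag(p_1, …, p_n)`. -/
def Cen {n : ℕ} (p : Fin n → ℝ) : Set (Matrix.SpecialLinearGroup (Fin n) ℝ) :=
  {h | h.1 * diagonal p = diagonal p * h.1}

/-- The orbit `x Cen(p)`. -/
def orbC {n : ℕ} (p : Fin n → ℝ) (x : X n) : Set (X n) := {y | ∃ h ∈ Cen p, y = tr h x}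

/-- `κ` is a `Cen(p)`-invariant probability measure carried by a closed orbit `x Cen(p)` of a
lattice `x` with `x diag(p) ⊆ x`. -/
def Homog {n : ℕ} (p : Fin n → ℝ) (κ : Measure (X n)) : Prop :=
  IsProbabilityMeasure κ ∧ (∀ h ∈ Cen p, κ.map (tr h) = κ) ∧
    ∃ x ∈ Stab p, IsClosed (orbC p x) ∧ κ (orbC p x) = 1

/-- `κ` is a countable combination `∑ c_k κ_k` of measures `κ_k` each of which is homogeneous for
some `p` with `P p`. -/
def Comb {n : ℕ} (P : (Fin n → ℝ) → Prop) (κ : Measure (X n)) : Prop :=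
  ∃ (J : Type) (_ : Countable J) (c : J → ENNReal) (κ' : J → Measure (X n)),
    (∀ k, ∃ p, P p ∧ Homog p (κ' k)) ∧ κ = Measure.sum fun k => c k • κ' k

end Vale.Agent.P007.F
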