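import Vale.Agent.P007.Bdl.B19

/-!
For a fixed number field `F`, `Δ_{F,1}(η) ≥ -log η - O_F(1)`.
-/

set_option autoImplicit false

open NumberField Filter Topology

namespace Vale.Agent.P007.H11

open Vale.Agent.P007 Vale.Agent.P007.N

section

variable (F : Type) [Field F] [NumberField F]

theorem PS_nonneg (s : ℝ) : 0 ≤ Z.PS F chi0 s := by
  rw [PS_chi0]
  exact tsum_nonneg fun p => by positivity

theorem PS_anti {s t : ℝ} (hs : 1 < s) (hst : s ≤ t) : Z.PS F chi0 t ≤ Z.PS F chi0 s := by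
  rw [PS_chi0, PS_chi0]
  refine (summable_aN_prime F (hs.trans_le hst)).tsum_le_tsum (fun p => ?_)
    (summable_aN_prime F hs)
  have h1 : (1 : ℝ) ≤ (p : ℕ) := by exact_mod_cast p.2.one_lt.le
  exact mul_le_mul_of_nonneg_left (Real.rpow_le_rpow_of_exponent_le h1 (by linarith))
    (Nat.cast_nonneg _)

theorem abs_log_zeta_sub_PS {s : ℝ} (hs : 1 < s) :
    |Real.log ‖dedekindZeta F (s : ℂ)‖ - Z.PS F chi0 s| ≤ 4 * Module.finrank ℚ F := by
  have h5 := Z.abs_log_Lf_sub_PS_le (E := F) norm_chi0_le hs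
  rwa [Lf_chi0] at h5

/-- `∑_p a_F(p) p^{-s} = -log (s - 1) + O_F(1)` on `(1, 2]` -/
theorem PS_fixed : ∃ C : ℝ, 0 ≤ C ∧ ∀ s : ℝ, 1 < s → s ≤ 2 →
    |Z.PS F chi0 s + Real.log (s - 1)| ≤ C := by
  set ρ : ℝ := dedekindZeta_residue F with hρ
  have hρ0 : 0 < ρ := dedekindZeta_residue_pos F
  have h1 := (tendsto_sub_one_mul_dedekindZeta_nhdsGT F).norm
  have h2 : ‖((dedekindZeta_residue F : ℝ) : ℂ)‖ = ρ := by
    rw [Complex.norm_real, Real.norm_eq_abs, abs_of_pos (dedekindZeta_residue_pos F)]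
  rw [h2] at h1
  have h3 : Set.Icc (ρ / 2) (2 * ρ) ∈ 𝓝 ρ := Icc_mem_nhds (by linarith) (by linarith)
  have h4 := h1 h3
  rw [mem_map, mem_nhdsGT_iff_exists_Ioo_subset] at h4
  obtain ⟨u, hu, hu2⟩ := h4
  have hu' : (1 : ℝ) < u := hu
  set d : ℝ := min ((u - 1) / 2) 1 with hd
  have hd0 : 0 < d := lt_min (by linarith) one_pos
  have hd1 : d ≤ 1 := min_le_right _ _
  have hd2 : d ≤ (u - 1) / 2 := min_le_left _ _
  set N : ℝ := 4 * Module.finrank ℚ F with hN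
  have hN0 : 0 ≤ N := by positivity
  set P : ℝ := Z.PS F chi0 (1 + d) with hP
  have hP0 : 0 ≤ P := PS_nonneg F _
  refine ⟨|Real.log (ρ / 2)| + |Real.log (2 * ρ)| + N + P + |Real.log d|, by positivity,
    fun s hs1 hs2 => ?_⟩
  have ha1 := abs_nonneg (Real.log (ρ / 2))
  have ha2 := abs_nonneg (Real.log (2 * ρ))
  have ha3 := abs_nonneg (Real.log d)
  have ha4 := neg_abs_le (Real.log (ρ / 2))
  have ha5 := le_abs_self (Real.log (2 * ρ))
  have ha6 := neg_abs_le (Real.log d)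
  have hs0 : 0 < s - 1 := by linarith
  rcases le_or_gt (1 + d) s with h | h
  · have hb1 : Real.log d ≤ Real.log (s - 1) := Real.log_le_log hd0 (by linarith)
    have hb2 : Real.log (s - 1) ≤ 0 := Real.log_nonpos hs0.le (by linarith)
    have hb3 : Z.PS F chi0 s ≤ P := PS_anti F (by linarith) h
    have hb4 : 0 ≤ Z.PS F chi0 s := PS_nonneg F s
    rw [abs_le]
    constructor <;> linarith
  · have hb0 : s ∈ Set.Ioo (1 : ℝ) u := ⟨hs1, by linarith⟩
    have hb1 := hu2 hb0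
    rw [Set.mem_preimage, Set.mem_Icc] at hb1
    have h10 : ‖((s : ℂ) - 1) * dedekindZeta F (s : ℂ)‖ = (s - 1) * ‖dedekindZeta F (s : ℂ)‖ := by
      rw [norm_mul]
      congr 1
      rw [← Complex.ofReal_one, ← Complex.ofReal_sub, Complex.norm_real, Real.norm_eq_abs,
        abs_of_pos hs0]
    rw [h10] at hb1
    have h7 : 0 < ‖dedekindZeta F (s : ℂ)‖ := by
      have : 0 < (s - 1) * ‖dedekindZeta F (s : ℂ)‖ := by linarith [hb1.1]
      exact (mul_pos_iff_of_pos_left hs0).mp this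
    have hb2 := Real.log_le_log (by positivity) hb1.1
    have hb3 := Real.log_le_log (by positivity) hb1.2
    rw [Real.log_mul hs0.ne' h7.ne'] at hb2 hb3
    have hb4 := abs_log_zeta_sub_PS F hs1
    rw [abs_le] at hb4 ⊢
    constructor <;> linarith [hb4.1, hb4.2]

/-- **For a fixed number field `Δ_{F,1}(η) ≥ -log η - O_F(1)`.** -/
theorem Del_fixed : ∃ C : ℝ, ∀ ℓ : ℝ, 1 ≤ ℓ → ∀ η : ℝ, 0 < η → η ≤ 1 →
    -Real.log η - C ≤ Z.Del F (1 : DirichletCharacter ℂ 1) ℓ η := by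
  obtain ⟨C, hC0, hC⟩ := PS_fixed F
  refine ⟨2 * C, fun ℓ hℓ η hη0 hη1 => ?_⟩
  have hℓ0 : 0 < ℓ := by linarith
  rw [Del_one F hℓ0 hη0]
  have e1 : 0 < η / ℓ := by positivity
  have e2 : η / ℓ ≤ 1 := by
    rw [div_le_one hℓ0]; linarith
  have e3 : 0 < 1 / ℓ := by positivity
  have e4 : 1 / ℓ ≤ 1 := by
    rw [div_le_one hℓ0]; exact hℓ
  have h1 := hC (1 + η / ℓ) (by linarith) (by linarith)
  have h2 := hC (1 + 1 / ℓ) (by linarith) (by linarith)
  rw [add_sub_cancel_left] at h1 h2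
  rw [Real.log_div hη0.ne' hℓ0.ne'] at h1
  rw [Real.log_div one_ne_zero hℓ0.ne', Real.log_one] at h2
  rw [abs_le] at h1 h2
  linarith [h1.1, h2.2]

/-- **Two-sided form.** -/
theorem abs_Del_fixed : ∃ C : ℝ, ∀ ℓ : ℝ, 1 ≤ ℓ → ∀ η : ℝ, 0 < η → η ≤ 1 →
    |Z.Del F (1 : DirichletCharacter ℂ 1) ℓ η + Real.log η| ≤ C := by
  obtain ⟨C, hC0, hC⟩ := PS_fixed F
  refine ⟨2 * C, fun ℓ hℓ η hη0 hη1 => ?_⟩
  have hℓ0 : 0 < ℓ := by linarith
  rw [Del_one F hℓ0 hη0]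
  have e1 : 0 < η / ℓ := by positivity
  have e2 : η / ℓ ≤ 1 := by
    rw [div_le_one hℓ0]; linarith
  have e3 : 0 < 1 / ℓ := by positivity
  have e4 : 1 / ℓ ≤ 1 := by
    rw [div_le_one hℓ0]; exact hℓ
  have h1 := hC (1 + η / ℓ) (by linarith) (by linarith)
  have h2 := hC (1 + 1 / ℓ) (by linarith) (by linarith)
  rw [add_sub_cancel_left] at h1 h2
  rw [Real.log_div hη0.ne' hℓ0.ne'] at h1
  rw [Real.log_div one_ne_zero hℓ0.ne', Real.log_one] at h2
  rw [abs_le] at h1 h2 ⊢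
  constructor <;> linarith [h1.1, h1.2, h2.1, h2.2]

end

end Vale.Agent.P007.H11
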