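import Vale.Agent.P007.Bdl.B19

/-! Lower bound for the volumes of packets and non-concentration in the cusp and near the values of
the norm form, for families of fields without exceptional zeros. -/

set_option autoImplicit false

open MeasureTheory Matrix NumberField Filter Topology IsDedekindDomain
open scoped ENNReal nonZeroDivisors

namespace Vale.Agent.P007.H11

open Vale.Agent.P007 Vale.Agent.P007.R Vale.Agent.P007.N

variable {n : ℕ}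

/-- the field has no exceptional zero, with constants `C` and `ℓ₀` -/
def NE (C ℓ₀ : ℝ) (K : Type) [Field K] [NumberField K] : Prop :=
  ∀ ℓ : ℝ, ℓ₀ ≤ ℓ → Real.log |(discr K : ℝ)| ≤ ℓ → ∀ η : ℝ, 0 < η → η ≤ 1 →
    -Real.log η - C ≤ Z.Del K (1 : DirichletCharacter ℂ 1) ℓ η

/-- The residue bound: `ρ ≥ c H(X)`. -/
theorem residue_ge_fam (n : ℕ) (hn : 2 ≤ n) (C₀ ℓ₀ : ℝ) :
    ∃ c : ℝ, 0 < c ∧ ∀ D : Datum n, NE C₀ ℓ₀ D.K → ∀ X : ℝ, √((mx D).disc : ℝ) ≤ X →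
      c * HO (mx D) X ≤ dedekindZeta_residue D.K := by
  obtain ⟨C₁, hC₁⟩ := sum_neg_log_up n
  set A : ℝ := C₀ + 4 * n + n * (1 / 2 + Real.log 8) + C₁ with hA
  have hl3 : 0 < Real.log √3 := by
    apply Real.log_pos
    rw [Real.lt_sqrt (by norm_num)]
    norm_num
  set B : ℝ := max ℓ₀ 1 / Real.log √3 + 2 with hB
  have hm : 0 < max ℓ₀ 1 := lt_max_of_lt_right one_pos
  have hB0 : 0 < B := by positivity
  refine ⟨(B * Real.exp A)⁻¹, by positivity, fun D hNE X hX => ?_⟩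
  have hd3 := three_le_disc D hn
  have hs3 : √3 ≤ X := by
    refine le_trans (Real.sqrt_le_sqrt ?_) hX
    exact_mod_cast hd3
  have hs1 : (1 : ℝ) < √3 := by
    rw [Real.lt_sqrt (by norm_num)]
    norm_num
  have hX1 : 1 ≤ X := by linarith only [hs3, hs1]
  have hX0 : 0 < X := by linarith only [hs3, hs1]
  have hlX : Real.log √3 ≤ Real.log X := Real.log_le_log (by positivity) hs3
  have hlX0 : 0 < Real.log X := by linarith only [hl3, hlX]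
  set ℓ : ℝ := max (max ℓ₀ 1) (2 * Real.log X) with hℓ
  have hℓ1 : 1 ≤ ℓ := (le_max_right _ _).trans (le_max_left _ _)
  have hℓ0 : ℓ₀ ≤ ℓ := (le_max_left _ _).trans (le_max_left _ _)
  have hℓX : 2 * Real.log X ≤ ℓ := le_max_right _ _
  have hℓB : ℓ ≤ B * Real.log X := by
    refine max_le ?_ ?_
    · have h1 : max ℓ₀ 1 = max ℓ₀ 1 / Real.log √3 * Real.log √3 := by field_simp
      have h2 : max ℓ₀ 1 / Real.log √3 * Real.log √3 ≤ B * Real.log X := by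
        have : max ℓ₀ 1 / Real.log √3 ≤ B := by rw [hB]; linarith only []
        (clear * - hl3 hlX this; gcongr)
      linarith only [h1, h2]
    · have : 2 ≤ B := by
        rw [hB]
        have : 0 ≤ max ℓ₀ 1 / Real.log √3 := by positivity
        linarith only [this]
      (clear * - hlX0 this; gcongr)
  have hdisc : Real.log |(discr D.K : ℝ)| ≤ ℓ := by
    have h1 : |(discr D.K : ℝ)| = ((mx D).disc : ℝ) := by
      rw [disc_mx, Nat.cast_natAbs, Int.cast_abs]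
    rw [h1]
    have h2 : ((mx D).disc : ℝ) ≤ X ^ 2 := by
      rw [← Real.sqrt_le_left hX0.le]
      exact hX
    have h3 : (0 : ℝ) < ((mx D).disc : ℝ) := by
      have : 0 < (mx D).disc := by omega
      exact_mod_cast this
    have h4 := Real.log_le_log h3 h2
    rw [Real.log_pow] at h4
    refine h4.trans ?_
    exact_mod_cast hℓX
  have h1 := residue_ge_of_Del D.K (by linarith only [hl3, hlX, hℓX] : 0 < ℓ) (hNE ℓ hℓ0 hdisc)
  rw [D.deg] at h1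
  have h2 : HO (mx D) X ≤ (Real.log X)⁻¹ *
      Real.exp (Z.PS D.K chi0 (1 + 1 / ℓ) + n * (1 / 2 + Real.log 8) + C₁) := by
    unfold HO
    refine mul_le_mul_of_nonneg_left ?_ (by positivity)
    have h3 : ∏ p ∈ P2 X, (up (mx D) p)⁻¹ = Real.exp (∑ p ∈ P2 X, -Real.log (up (mx D) p)) := by
      rw [Real.exp_sum]
      refine Finset.prod_congr rfl fun p hp => ?_
      rw [Real.exp_neg, Real.exp_log (up_mx_pos D (mem_P2.mp hp).2)]
    rw [h3]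
    refine Real.exp_le_exp.mpr ?_
    refine (hC₁ D X).trans ?_
    have := sum_aN_div_le D hX1 hℓ1 hℓX
    linarith only [this]
  have h3 : (B * Real.exp A)⁻¹ * HO (mx D) X ≤ (B * Real.exp A)⁻¹ * ((Real.log X)⁻¹ *
      Real.exp (Z.PS D.K chi0 (1 + 1 / ℓ) + n * (1 / 2 + Real.log 8) + C₁)) := by
    gcongr
  refine h3.trans (le_trans ?_ h1)
  have h4 : Real.exp (Z.PS D.K chi0 (1 + 1 / ℓ) + n * (1 / 2 + Real.log 8) + C₁) =
      Real.exp (Z.PS D.K chi0 (1 + 1 / ℓ) - C₀ - 4 * n) * Real.exp A := by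
    rw [← Real.exp_add, hA]
    congr 1
    ring
  rw [h4]
  have h5 : (B * Real.exp A)⁻¹ * ((Real.log X)⁻¹ *
      (Real.exp (Z.PS D.K chi0 (1 + 1 / ℓ) - C₀ - 4 * n) * Real.exp A)) =
      (B * Real.log X)⁻¹ * Real.exp (Z.PS D.K chi0 (1 + 1 / ℓ) - C₀ - 4 * n) := by
    field_simp
  rw [h5]
  refine mul_le_mul_of_nonneg_right ?_ (Real.exp_pos _).le
  exact inv_anti₀ (by linarith only [hl3, hlX, hℓX]) hℓB

theorem residue_lower_fam (n : ℕ) (hn : 2 ≤ n) (C₀ ℓ₀ : ℝ) (hS : SAsymp n) : ∃ c : ℝ, 0 < c ∧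
    ∀ D : Datum n, NE C₀ ℓ₀ D.K → ∀ X : ℝ, √((mx D).disc : ℝ) ≤ X →
      c * √((mx D).disc : ℝ) * HO (mx D) X ≤ (vol (mx D)).toReal := by
  obtain ⟨c₁, hc₁, h1⟩ := residue_ge_fam n hn C₀ ℓ₀
  obtain ⟨c₂, hc₂, h2⟩ := residue_le_vol n hn hS
  refine ⟨c₂ * c₁, by positivity, fun D hNE X hX => ?_⟩
  calc c₂ * c₁ * √((mx D).disc : ℝ) * HO (mx D) X =
      c₂ * √((mx D).disc : ℝ) * (c₁ * HO (mx D) X) := by ring
    _ ≤ c₂ * √((mx D).disc : ℝ) * dedekindZeta_residue D.K := by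
        have := h1 D hNE X hX
        (clear * - hc₂ this; gcongr)
    _ ≤ _ := h2 D

theorem vol_lower_ge_fam (n : ℕ) (hn : 2 ≤ n) (C₀ ℓ₀ : ℝ) (hS : SAsymp n)
    (hcmp : ∀ D : Datum n, (vol D).toReal / √(D.disc : ℝ) =
      (vol (mx D)).toReal / √((mx D).disc : ℝ) *
        ∏ p ∈ D.ind.primeFactors, (up (mx D) p / up D p))
    (hup : ∀ (D : Datum n) (p : ℕ), p.Prime → ¬ p ∣ D.ind → up D p = up (mx D) p)
    (hpos : ∀ (D : Datum n) (p : ℕ), p.Prime → 0 < up D p) :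
    ∃ c : ℝ, 0 < c ∧ ∀ D : Datum n, NE C₀ ℓ₀ D.K → ∀ X : ℝ, √(D.disc : ℝ) ≤ X →
      c * √(D.disc : ℝ) * HO D X ≤ (vol D).toReal := by
  obtain ⟨c, hc, h⟩ := residue_lower_fam n hn C₀ ℓ₀ hS
  refine ⟨c, hc, fun D hNE X hX => ?_⟩
  have hle : √((mx D).disc : ℝ) ≤ X := by
    refine le_trans (Real.sqrt_le_sqrt ?_) hX
    exact_mod_cast disc_mx_le D
  have h1 := h D hNE X hle
  have hd3 := three_le_disc D hn
  have hs0 : 0 < √((mx D).disc : ℝ) := by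
    apply Real.sqrt_pos.mpr
    have : 0 < (mx D).disc := by omega
    exact_mod_cast this
  have hs1 : 0 < √(D.disc : ℝ) := by
    refine lt_of_lt_of_le hs0 (Real.sqrt_le_sqrt ?_)
    exact_mod_cast disc_mx_le D
  have h2 : c * HO (mx D) X ≤ (vol (mx D)).toReal / √((mx D).disc : ℝ) := by
    rw [le_div_iff₀ hs0]
    linarith only [h1]
  have h3 : (0 : ℝ) ≤ ∏ p ∈ D.ind.primeFactors, (up (mx D) p / up D p) := by
    refine Finset.prod_nonneg fun p hp => ?_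
    have hp' := (Nat.mem_primeFactors.mp hp).1
    exact div_nonneg (up_mx_pos D hp').le (hpos D p hp').le
  have h4 : (vol D).toReal = √(D.disc : ℝ) * ((vol D).toReal / √(D.disc : ℝ)) := by
    (clear * - hs1; field_simp)
  rw [h4, hcmp D, HO_eq D hX (hup D)]
  calc c * √(D.disc : ℝ) * (HO (mx D) X * ∏ p ∈ D.ind.primeFactors, (up (mx D) p / up D p)) =
      √(D.disc : ℝ) * (c * HO (mx D) X * ∏ p ∈ D.ind.primeFactors, (up (mx D) p / up D p)) := by ring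
    _ ≤ _ := by (clear * - hs1 h2 h3; gcongr)

/-- property (*) for packet measures, from the unfolding formula, Hall–Tenenbaum bounds and the
lower bound for the volume -/
theorem star_packet_fam (n : ℕ) (hn3 : 3 ≤ n) (Q : Datum n → Prop)
    (hunf : ∀ (D : Datum n) (φ : (Fin n → ℝ) → ℝ≥0∞), Measurable φ →
      ∑' S : D.packet, ∫⁻ x, (∑' v : {v : Fin n → ℝ // v ∈ latx x ∧ v ≠ 0}, φ v.1) ∂(orbMeas S.1) =
      ∑' m : ℕ, (rO D m : ℝ≥0∞) * ∑ w : Fin n → ℤˣ, ∫⁻ u : Fin (n - 1) → ℝ,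
        φ (fun j => ((m : ℝ) / √(D.disc : ℝ)) ^ ((n : ℝ)⁻¹) * ((w j : ℤ) : ℝ) *
          Real.exp (expo u j)))
    (hrHT : ∃ B : ℝ, ∀ D : Datum n, HT n B (fun m => (rO D m : ℝ)) (fun p => (up D p)⁻¹))
    (hr0 : ∀ D : Datum n, rO D 0 = 0)
    (hcrude : ∀ B : ℝ, ∃ C : ℝ, 0 < C ∧ ∀ g U : ℕ → ℝ, HT n B g U →
      ∀ X : ℝ, 2 ≤ X → ∑ m ∈ Finset.Icc 1 ⌊X⌋₊, g m ≤ C * X / Real.log X * ∏ p ∈ P2 X, U p)
    (hshort : ∀ B : ℝ, ∃ C : ℝ, 0 < C ∧ ∀ δ : ℝ, 0 < δ → δ ≤ 1 →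
      ∃ X₀ : ℝ, ∀ g U : ℕ → ℝ, HT n B g U → ∀ X : ℝ, X₀ ≤ X →
        ∑ m ∈ Finset.Icc ⌈X⌉₊ ⌊(1 + δ) * X⌋₊, g m ≤ C * δ * X / Real.log X * ∏ p ∈ P2 X, U p)
    (hvol : ∃ c : ℝ, 0 < c ∧ ∀ D : Datum n, Q D → ∀ X : ℝ, √(D.disc : ℝ) ≤ X →
      c * √(D.disc : ℝ) * HO D X ≤ (vol D).toReal) :
    ∃ C : ℝ, ∀ ε : ℝ, 0 < ε → ε < 1 →
      ∃ D₀ : ℕ, ∀ D : Datum n, Q D → D₀ ≤ D.disc → ∀ N0 : ℝ,
      D.packetMeas {x | ∃ v ∈ latx x, v ≠ 0 ∧ (∀ i, |v i| < 3) ∧ |∏ i, v i - N0| < ε} ≤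
        ENNReal.ofReal (C * √ε) := by
  obtain ⟨B, hHT⟩ := hrHT
  obtain ⟨C1, hC1, hcr⟩ := hcrude B
  obtain ⟨C2, hC2, hsh⟩ := hshort B
  obtain ⟨c, hc, hvl⟩ := hvol
  refine ⟨2 ^ n * (16 * n : ℝ) ^ (n - 1) * (400 * C1 + 25 * C2) * 3 ^ n / c, ?_⟩
  intro ε hε hε1
  obtain ⟨X₁, hwin⟩ := window hC1 hC2 hcr hsh hε hε1
  obtain ⟨D₀, hD₀⟩ := exists_nat_ge ((max 2 X₁) ^ 2)
  refine ⟨D₀, fun D hQ hD N0 => ?_⟩
  have hdisc : (max 2 X₁) ≤ √(D.disc : ℝ) := by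
    refine Real.le_sqrt_of_sq_le (hD₀.trans ?_)
    exact_mod_cast hD
  have hsd2 : 2 ≤ √(D.disc : ℝ) := (le_max_left _ _).trans hdisc
  have hsd : 0 < √(D.disc : ℝ) := by linarith only [hε, hε1, hsd2]
  set sd := √(D.disc : ℝ) with hsddef
  set X : ℝ := 3 ^ n * sd with hX
  have h3n : (27 : ℝ) ≤ 3 ^ n := by
    calc (27 : ℝ) = 3 ^ 3 := by norm_num
      _ ≤ 3 ^ n := pow_le_pow_right₀ (by norm_num) hn3
  have hXsd : sd ≤ X := by nlinarith only [hε, hε1, hsd2, h3n]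
  have hX1 : X₁ ≤ X := ((le_max_right _ _).trans hdisc).trans hXsd
  have hXpos : 0 < X := by linarith only [hε, hε1, hsd2, hXsd]
  classical
  set W : Finset ℕ := (Finset.Icc 1 ⌊X⌋₊).filter (fun m : ℕ => |(m : ℝ) - |N0| * sd| < ε * X / 27)
    with hWdef
  set V : Set (Fin n → ℝ) := {v | (∀ i, |v i| < 3) ∧ |∏ i, v i - N0| < ε} with hVdef
  have hVopen : IsOpen V := by
    have h1 : V = (⋂ i : Fin n, {v : Fin n → ℝ | |v i| < 3}) ∩
        {v : Fin n → ℝ | |∏ i, v i - N0| < ε} := by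
      ext v; simp only [hVdef, Set.mem_ofPred_eq, Set.mem_inter_iff, Set.mem_iInter]
    rw [h1]
    refine IsOpen.inter (isOpen_iInter_of_finite fun i => ?_) ?_
    · exact isOpen_lt ((continuous_apply i).abs) continuous_const
    · exact isOpen_lt (((continuous_finsetProd _ fun i _ => continuous_apply i).sub
        continuous_const).abs) continuous_const
  have hb := packet_sum_bound D (by omega) (hunf D) (hr0 D) hsd hVopen (R := 3) (by norm_num)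
    le_rfl (fun v hv => hv.1) W (by
      rintro m hm hlt ⟨w, u, hwu⟩
      have hm0 : (0 : ℝ) < m := by exact_mod_cast hm
      have ht : 0 < (m : ℝ) / sd := by (clear * - hsd2 hm; positivity)
      rw [hWdef, Finset.mem_filter, Finset.mem_Icc]
      refine ⟨⟨hm, Nat.le_floor ?_⟩, ?_⟩
      · rw [div_lt_iff₀ hsd] at hlt
        exact hlt.le
      · have h1 : |∏ j : Fin n, ((↑m / sd) ^ ((n : ℝ)⁻¹) * ((w j : ℤ) : ℝ) *
            Real.exp (expo u j)) - N0| < ε := hwu.2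
        rw [prod_vec (by omega) ht] at h1
        have h2 := abs_abs_sub_abs_le ((m : ℝ) / sd * ∏ j, ((w j : ℤ) : ℝ)) N0
        rw [abs_mul, abs_prod_sign, mul_one, abs_of_pos ht] at h2
        have h3 : abs ((m : ℝ) / sd - |N0|) < ε := h2.trans_lt h1
        have h4 : (m : ℝ) - |N0| * sd = ((m : ℝ) / sd - |N0|) * sd := by (clear * - hsd2; field_simp)
        rw [h4, abs_mul, abs_of_pos hsd]
        have h5 : abs ((m : ℝ) / sd - |N0|) * sd < ε * sd := mul_lt_mul_of_pos_right h3 hsd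
        refine h5.trans_le ?_
        rw [hX, le_div_iff₀ (by norm_num)]
        have : 0 < ε * sd := by (clear * - hε hsd2; positivity)
        nlinarith only [hε, hε1, h3n, this])
  refine hb.trans ?_
  have hU := (hHT D).U1
  have hw := hwin _ _ (hHT D) X hX1 (|N0| * sd) W (Finset.filter_subset _ _) (by
    intro m hm
    rw [hWdef, Finset.mem_filter] at hm
    exact hm.2)
  have hh : 0 < hx (fun p => (up D p)⁻¹) X := hx_pos hU (by linarith only [hε, hε1, hsd2, hXsd])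
  have hv := hvl D hQ X hXsd
  rw [HO_eq_hx] at hv
  refine final_ineq hc hsd hh hv ?_
  calc 2 ^ n * (16 * n : ℝ) ^ (n - 1) *
        ∑ m ∈ W, (rO D m : ℝ) * (3 ^ n * sd / m) ^ (1 / 16 : ℝ)
      ≤ 2 ^ n * (16 * n : ℝ) ^ (n - 1) *
        ((400 * C1 + 25 * C2) * √ε * X * hx (fun p => (up D p)⁻¹) X) := by
        (clear * - hn3 hw; gcongr)
    _ = _ := by rw [hX]; ring

/-- tightness for packet measures, uniform in the discriminant -/
theorem tight_packet_fam (n : ℕ) (hn3 : 3 ≤ n) (Q : Datum n → Prop)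
    (hunf : ∀ (D : Datum n) (φ : (Fin n → ℝ) → ℝ≥0∞), Measurable φ →
      ∑' S : D.packet, ∫⁻ x, (∑' v : {v : Fin n → ℝ // v ∈ latx x ∧ v ≠ 0}, φ v.1) ∂(orbMeas S.1) =
      ∑' m : ℕ, (rO D m : ℝ≥0∞) * ∑ w : Fin n → ℤˣ, ∫⁻ u : Fin (n - 1) → ℝ,
        φ (fun j => ((m : ℝ) / √(D.disc : ℝ)) ^ ((n : ℝ)⁻¹) * ((w j : ℤ) : ℝ) *
          Real.exp (expo u j)))
    (hrHT : ∃ B : ℝ, ∀ D : Datum n, HT n B (fun m => (rO D m : ℝ)) (fun p => (up D p)⁻¹))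
    (hr0 : ∀ D : Datum n, rO D 0 = 0)
    (hcrude : ∀ B : ℝ, ∃ C : ℝ, 0 < C ∧ ∀ g U : ℕ → ℝ, HT n B g U →
      ∀ X : ℝ, 2 ≤ X → ∑ m ∈ Finset.Icc 1 ⌊X⌋₊, g m ≤ C * X / Real.log X * ∏ p ∈ P2 X, U p)
    (hvol : ∃ c : ℝ, 0 < c ∧ ∀ D : Datum n, Q D → ∀ X : ℝ, √(D.disc : ℝ) ≤ X →
      c * √(D.disc : ℝ) * HO D X ≤ (vol D).toReal) :
    ∃ C : ℝ, ∀ ε : ℝ, 0 < ε → ε < 1 → ∃ D₀ : ℕ, ∀ D : Datum n, Q D → D₀ ≤ D.disc →
      D.packetMeas {x | ∃ v ∈ latx x, v ≠ 0 ∧ ∀ i, |v i| < ε} ≤ ENNReal.ofReal (C * √ε) := by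
  obtain ⟨B, hHT⟩ := hrHT
  obtain ⟨C1, hC1, hcr⟩ := hcrude B
  obtain ⟨c, hc, hvl⟩ := hvol
  refine ⟨2 ^ n * (16 * n : ℝ) ^ (n - 1) * (400 * C1) * 3 ^ n / c, ?_⟩
  intro ε hε hε1
  refine ⟨4, fun D hQ hD => ?_⟩
  have hsd2 : 2 ≤ √(D.disc : ℝ) := by
    refine Real.le_sqrt_of_sq_le ?_
    have : (4 : ℝ) ≤ D.disc := by exact_mod_cast hD
    linarith only [this]
  have hsd : 0 < √(D.disc : ℝ) := by linarith only [hε, hε1, hsd2]
  set sd := √(D.disc : ℝ) with hsddef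
  set X : ℝ := 3 ^ n * sd with hX
  have h3n : (27 : ℝ) ≤ 3 ^ n := by
    calc (27 : ℝ) = 3 ^ 3 := by norm_num
      _ ≤ 3 ^ n := pow_le_pow_right₀ (by norm_num) hn3
  have hXsd : sd ≤ X := by nlinarith only [hε, hε1, hsd2, h3n]
  have hXpos : 0 < X := by linarith only [hε, hε1, hsd2, hXsd]
  have hen : 0 < ε ^ n := by positivity
  have hen1 : ε ^ n ≤ 1 := pow_le_one₀ hε.le hε1.le
  set V : Set (Fin n → ℝ) := {v | ∀ i, |v i| < ε} with hVdef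
  have hVopen : IsOpen V := by
    have h1 : V = ⋂ i : Fin n, {v : Fin n → ℝ | |v i| < ε} := by
      ext v; simp only [hVdef, Set.mem_ofPred_eq, Set.mem_iInter]
    rw [h1]
    exact isOpen_iInter_of_finite fun i => isOpen_lt ((continuous_apply i).abs) continuous_const
  have hb := packet_sum_bound D (by omega) (hunf D) (hr0 D) hsd hVopen (R := ε) hε
    (by linarith only [hε, hε1]) (fun v hv => hv) (Finset.Icc 1 ⌊ε ^ n * sd⌋₊) (by
      rintro m hm hlt ⟨w, u, hwu⟩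
      rw [Finset.mem_Icc]
      refine ⟨hm, Nat.le_floor ?_⟩
      rw [div_lt_iff₀ hsd] at hlt
      exact hlt.le)
  refine hb.trans ?_
  have hU := (hHT D).U1
  have hh : 0 < hx (fun p => (up D p)⁻¹) X := hx_pos hU (by linarith only [hε, hε1, hsd2, hXsd])
  have hv := hvl D hQ X hXsd
  rw [HO_eq_hx] at hv
  refine final_ineq hc hsd hh hv ?_
  have hw := crude_weighted (g := fun m => (rO D m : ℝ)) (Z := ε ^ n * sd) (X := X)
    (hHT D).nonneg hU hC1 (hcr _ _ (hHT D)) (by positivity) (by nlinarith only [hε, hε1, hsd2,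
                                                                  h3n, hen1]) (by linarith only [hsd2,
                                                                                 hXsd])
  have h1 : (ε ^ n * sd / X) ^ (7 / 8 : ℝ) ≤ √ε := by
    have h2 : ε ^ n * sd / X ≤ ε := by
      rw [div_le_iff₀ hXpos]
      have h3 : ε ^ n ≤ ε := by
        calc ε ^ n ≤ ε ^ 1 := pow_le_pow_of_le_one hε.le hε1.le (by omega)
          _ = ε := pow_one ε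
      calc ε ^ n * sd ≤ ε * sd := by (clear * - hD h3; gcongr)
        _ ≤ ε * X := by (clear * - hε hXsd; gcongr)
    calc (ε ^ n * sd / X) ^ (7 / 8 : ℝ) ≤ ε ^ (7 / 8 : ℝ) :=
          Real.rpow_le_rpow (by positivity) h2 (by norm_num)
      _ ≤ ε ^ (1 / 2 : ℝ) := Real.rpow_le_rpow_of_exponent_ge hε hε1.le (by norm_num)
      _ = √ε := (Real.sqrt_eq_rpow ε).symm
  calc 2 ^ n * (16 * n : ℝ) ^ (n - 1) *
        ∑ m ∈ Finset.Icc 1 ⌊ε ^ n * sd⌋₊, (rO D m : ℝ) * (3 ^ n * sd / m) ^ (1 / 16 : ℝ)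
      ≤ 2 ^ n * (16 * n : ℝ) ^ (n - 1) *
        (400 * C1 * X * (ε ^ n * sd / X) ^ (7 / 8 : ℝ) * hx (fun p => (up D p)⁻¹) X) := by
        (clear * - hn3 hw; gcongr)
    _ ≤ 2 ^ n * (16 * n : ℝ) ^ (n - 1) *
        (400 * C1 * X * √ε * hx (fun p => (up D p)⁻¹) X) := by (clear * - hn3 hC1 hD hh h1; gcongr)
    _ = _ := by rw [hX]; ring


/-- The lower bound for the packet volumes. -/
theorem vol_lower_fam (n : ℕ) (hn3 : 3 ≤ n) (C₀ ℓ₀ : ℝ) : ∃ c : ℝ, 0 < c ∧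
    ∀ D : Datum n, NE C₀ ℓ₀ D.K → ∀ X : ℝ, √(D.disc : ℝ) ≤ X →
      c * √(D.disc : ℝ) * HO D X ≤ (vol D).toReal :=
  vol_lower_ge_fam n (by omega) C₀ ℓ₀ (S_asymp n (by omega))
    (fun D => vol_compare D) (fun D => up_eq_of_not_dvd D) (fun D p hp => (up_pos D p hp).1)

theorem star_fam (n : ℕ) (hn3 : 3 ≤ n) (C₀ ℓ₀ : ℝ) : ∃ C : ℝ, ∀ ε : ℝ, 0 < ε → ε < 1 →
    ∃ D₀ : ℕ, ∀ D : Datum n, NE C₀ ℓ₀ D.K → D₀ ≤ D.disc → ∀ N0 : ℝ,
      D.packetMeas {x | ∃ v ∈ latx x, v ≠ 0 ∧ (∀ i, |v i| < 3) ∧ |∏ i, v i - N0| < ε} ≤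
        ENNReal.ofReal (C * √ε) :=
  star_packet_fam n hn3 (fun D => NE C₀ ℓ₀ D.K) (fun D φ hφ => unfold D φ hφ)
    (rO_HT n (by omega)) (fun D => rO_zero D)
    (fun B => ht_crude n (by omega) B) (fun B => ht_short n (by omega) B)
    (vol_lower_fam n hn3 C₀ ℓ₀)

theorem tight_fam (n : ℕ) (hn3 : 3 ≤ n) (C₀ ℓ₀ : ℝ) : ∃ C : ℝ, ∀ ε : ℝ, 0 < ε → ε < 1 →
    ∃ D₀ : ℕ, ∀ D : Datum n, NE C₀ ℓ₀ D.K → D₀ ≤ D.disc →
      D.packetMeas {x | ∃ v ∈ latx x, v ≠ 0 ∧ ∀ i, |v i| < ε} ≤ ENNReal.ofReal (C * √ε) :=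
  tight_packet_fam n hn3 (fun D => NE C₀ ℓ₀ D.K) (fun D φ hφ => unfold D φ hφ)
    (rO_HT n (by omega)) (fun D => rO_zero D)
    (fun B => ht_crude n (by omega) B) (vol_lower_fam n hn3 C₀ ℓ₀)

end Vale.Agent.P007.H11
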