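import Vale.Agent.P007.H11.Fam

/-! Lower bound for the volumes of packets and non-concentration in the cusp and near the values of
the norm form, for orders without exceptional zeros on the scale of the logarithm of the
discriminant of the order. -/

set_option autoImplicit false

open MeasureTheory Matrix NumberField Filter Topology IsDedekindDomain
open scoped ENNReal nonZeroDivisors

namespace Vale.Agent.P007.H11

open Vale.Agent.P007 Vale.Agent.P007.R Vale.Agent.P007.N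

variable {n : ℕ}

/-- the order has no exceptional zero on the scale of the logarithm of its discriminant, with
constants `C` and `ℓ₀` -/
def NEQ (C ℓ₀ : ℝ) (D : Datum n) : Prop :=
  ∀ ℓ : ℝ, ℓ₀ ≤ ℓ → Real.log (D.disc : ℝ) ≤ ℓ → ∀ η : ℝ, 0 < η → η ≤ 1 →
    -Real.log η - C ≤ Z.Del D.K (1 : DirichletCharacter ℂ 1) ℓ η

/-- The residue bound: `ρ ≥ c H(X)`. -/
theorem residue_ge_fam2 (n : ℕ) (hn : 2 ≤ n) (C₀ ℓ₀ : ℝ) :
    ∃ c : ℝ, 0 < c ∧ ∀ D : Datum n, NEQ C₀ ℓ₀ D → ∀ X : ℝ, √(D.disc : ℝ) ≤ X →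
      c * HO (mx D) X ≤ dedekindZeta_residue D.K := by
  obtain ⟨C₁, hC₁⟩ := sum_neg_log_up n
  set A : ℝ := C₀ + 4 * n + n * (1 / 2 + Real.log 8) + C₁ with hA
  have hl3 : 0 < Real.log √3 := by
    apply Real.log_pos
    rw [Real.lt_sqrt (by norm_num)]
    norm_num
  set B : ℝ := max ℓ₀ 1 / Real.log √3 + 2 with hB
  have hm : 0 < max ℓ₀ 1 := lt_max_of_lt_right one_pos
  have hB0 : 0 < B := by positivity
  refine ⟨(B * Real.exp A)⁻¹, by positivity, fun D hNE X hXD => ?_⟩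
  have hX : √((mx D).disc : ℝ) ≤ X := by
    refine le_trans (Real.sqrt_le_sqrt ?_) hXD
    exact_mod_cast disc_mx_le D
  have hd3 := three_le_disc D hn
  have hs3 : √3 ≤ X := by
    refine le_trans (Real.sqrt_le_sqrt ?_) hX
    exact_mod_cast hd3
  have hs1 : (1 : ℝ) < √3 := by
    rw [Real.lt_sqrt (by norm_num)]
    norm_num
  have hX1 : 1 ≤ X := by linarith only [hs3, hs1]
  have hX0 : 0 < X := by linarith only [hs3, hs1]
  have hlX : Real.log √3 ≤ Real.log X := Real.log_le_log (by positivity) hs3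
  have hlX0 : 0 < Real.log X := by linarith only [hl3, hlX]
  set ℓ : ℝ := max (max ℓ₀ 1) (2 * Real.log X) with hℓ
  have hℓ1 : 1 ≤ ℓ := (le_max_right _ _).trans (le_max_left _ _)
  have hℓ0 : ℓ₀ ≤ ℓ := (le_max_left _ _).trans (le_max_left _ _)
  have hℓX : 2 * Real.log X ≤ ℓ := le_max_right _ _
  have hℓB : ℓ ≤ B * Real.log X := by
    refine max_le ?_ ?_
    · have h1 : max ℓ₀ 1 = max ℓ₀ 1 / Real.log √3 * Real.log √3 := by field_simp
      have h2 : max ℓ₀ 1 / Real.log √3 * Real.log √3 ≤ B * Real.log X := by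
        have : max ℓ₀ 1 / Real.log √3 ≤ B := by rw [hB]; linarith only []
        (clear * - hl3 hlX this; gcongr)
      linarith only [h1, h2]
    · have : 2 ≤ B := by
        rw [hB]
        have : 0 ≤ max ℓ₀ 1 / Real.log √3 := by positivity
        linarith only [this]
      (clear * - hlX0 this; gcongr)
  have hdisc : Real.log (D.disc : ℝ) ≤ ℓ := by
    have h2 : (D.disc : ℝ) ≤ X ^ 2 := by
      rw [← Real.sqrt_le_left hX0.le]
      exact hXD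
    have h3 : (0 : ℝ) < (D.disc : ℝ) := by
      have h4 := disc_mx_le D
      have : 0 < D.disc := by omega
      exact_mod_cast this
    have h4 := Real.log_le_log h3 h2
    rw [Real.log_pow] at h4
    refine h4.trans ?_
    exact_mod_cast hℓX
  have h1 := residue_ge_of_Del D.K (by linarith only [hl3, hlX, hℓX] : 0 < ℓ) (hNE ℓ hℓ0 hdisc)
  rw [D.deg] at h1
  have h2 : HO (mx D) X ≤ (Real.log X)⁻¹ *
      Real.exp (Z.PS D.K chi0 (1 + 1 / ℓ) + n * (1 / 2 + Real.log 8) + C₁) := by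
    unfold HO
    refine mul_le_mul_of_nonneg_left ?_ (by positivity)
    have h3 : ∏ p ∈ P2 X, (up (mx D) p)⁻¹ = Real.exp (∑ p ∈ P2 X, -Real.log (up (mx D) p)) := by
      rw [Real.exp_sum]
      refine Finset.prod_congr rfl fun p hp => ?_
      rw [Real.exp_neg, Real.exp_log (up_mx_pos D (mem_P2.mp hp).2)]
    rw [h3]
    refine Real.exp_le_exp.mpr ?_
    refine (hC₁ D X).trans ?_
    have := sum_aN_div_le D hX1 hℓ1 hℓX
    linarith only [this]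
  have h3 : (B * Real.exp A)⁻¹ * HO (mx D) X ≤ (B * Real.exp A)⁻¹ * ((Real.log X)⁻¹ *
      Real.exp (Z.PS D.K chi0 (1 + 1 / ℓ) + n * (1 / 2 + Real.log 8) + C₁)) := by
    gcongr
  refine h3.trans (le_trans ?_ h1)
  have h4 : Real.exp (Z.PS D.K chi0 (1 + 1 / ℓ) + n * (1 / 2 + Real.log 8) + C₁) =
      Real.exp (Z.PS D.K chi0 (1 + 1 / ℓ) - C₀ - 4 * n) * Real.exp A := by
    rw [← Real.exp_add, hA]
    congr 1
    ring
  rw [h4]
  have h5 : (B * Real.exp A)⁻¹ * ((Real.log X)⁻¹ *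
      (Real.exp (Z.PS D.K chi0 (1 + 1 / ℓ) - C₀ - 4 * n) * Real.exp A)) =
      (B * Real.log X)⁻¹ * Real.exp (Z.PS D.K chi0 (1 + 1 / ℓ) - C₀ - 4 * n) := by
    field_simp
  rw [h5]
  refine mul_le_mul_of_nonneg_right ?_ (Real.exp_pos _).le
  exact inv_anti₀ (by linarith only [hl3, hlX, hℓX]) hℓB

theorem residue_lower_fam2 (n : ℕ) (hn : 2 ≤ n) (C₀ ℓ₀ : ℝ) (hS : SAsymp n) : ∃ c : ℝ, 0 < c ∧
    ∀ D : Datum n, NEQ C₀ ℓ₀ D → ∀ X : ℝ, √(D.disc : ℝ) ≤ X →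
      c * √((mx D).disc : ℝ) * HO (mx D) X ≤ (vol (mx D)).toReal := by
  obtain ⟨c₁, hc₁, h1⟩ := residue_ge_fam2 n hn C₀ ℓ₀
  obtain ⟨c₂, hc₂, h2⟩ := residue_le_vol n hn hS
  refine ⟨c₂ * c₁, by positivity, fun D hNE X hX => ?_⟩
  calc c₂ * c₁ * √((mx D).disc : ℝ) * HO (mx D) X =
      c₂ * √((mx D).disc : ℝ) * (c₁ * HO (mx D) X) := by ring
    _ ≤ c₂ * √((mx D).disc : ℝ) * dedekindZeta_residue D.K := by
        have := h1 D hNE X hX
        (clear * - hc₂ this; gcongr)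
    _ ≤ _ := h2 D

theorem vol_lower_ge_fam2 (n : ℕ) (hn : 2 ≤ n) (C₀ ℓ₀ : ℝ) (hS : SAsymp n)
    (hcmp : ∀ D : Datum n, (vol D).toReal / √(D.disc : ℝ) =
      (vol (mx D)).toReal / √((mx D).disc : ℝ) *
        ∏ p ∈ D.ind.primeFactors, (up (mx D) p / up D p))
    (hup : ∀ (D : Datum n) (p : ℕ), p.Prime → ¬ p ∣ D.ind → up D p = up (mx D) p)
    (hpos : ∀ (D : Datum n) (p : ℕ), p.Prime → 0 < up D p) :
    ∃ c : ℝ, 0 < c ∧ ∀ D : Datum n, NEQ C₀ ℓ₀ D → ∀ X : ℝ, √(D.disc : ℝ) ≤ X →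
      c * √(D.disc : ℝ) * HO D X ≤ (vol D).toReal := by
  obtain ⟨c, hc, h⟩ := residue_lower_fam2 n hn C₀ ℓ₀ hS
  refine ⟨c, hc, fun D hNE X hX => ?_⟩
  have hle : √((mx D).disc : ℝ) ≤ X := by
    refine le_trans (Real.sqrt_le_sqrt ?_) hX
    exact_mod_cast disc_mx_le D
  have h1 := h D hNE X hX
  have hd3 := three_le_disc D hn
  have hs0 : 0 < √((mx D).disc : ℝ) := by
    apply Real.sqrt_pos.mpr
    have : 0 < (mx D).disc := by omega
    exact_mod_cast this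
  have hs1 : 0 < √(D.disc : ℝ) := by
    refine lt_of_lt_of_le hs0 (Real.sqrt_le_sqrt ?_)
    exact_mod_cast disc_mx_le D
  have h2 : c * HO (mx D) X ≤ (vol (mx D)).toReal / √((mx D).disc : ℝ) := by
    rw [le_div_iff₀ hs0]
    linarith only [h1]
  have h3 : (0 : ℝ) ≤ ∏ p ∈ D.ind.primeFactors, (up (mx D) p / up D p) := by
    refine Finset.prod_nonneg fun p hp => ?_
    have hp' := (Nat.mem_primeFactors.mp hp).1
    exact div_nonneg (up_mx_pos D hp').le (hpos D p hp').le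
  have h4 : (vol D).toReal = √(D.disc : ℝ) * ((vol D).toReal / √(D.disc : ℝ)) := by
    (clear * - hs1; field_simp)
  rw [h4, hcmp D, HO_eq D hX (hup D)]
  calc c * √(D.disc : ℝ) * (HO (mx D) X * ∏ p ∈ D.ind.primeFactors, (up (mx D) p / up D p)) =
      √(D.disc : ℝ) * (c * HO (mx D) X * ∏ p ∈ D.ind.primeFactors, (up (mx D) p / up D p)) := by ring
    _ ≤ _ := by (clear * - hs1 h2 h3; gcongr)

/-- The lower bound for the packet volumes. -/
theorem vol_lower_fam2 (n : ℕ) (hn3 : 3 ≤ n) (C₀ ℓ₀ : ℝ) : ∃ c : ℝ, 0 < c ∧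
    ∀ D : Datum n, NEQ C₀ ℓ₀ D → ∀ X : ℝ, √(D.disc : ℝ) ≤ X →
      c * √(D.disc : ℝ) * HO D X ≤ (vol D).toReal :=
  vol_lower_ge_fam2 n (by omega) C₀ ℓ₀ (S_asymp n (by omega))
    (fun D => vol_compare D) (fun D => up_eq_of_not_dvd D) (fun D p hp => (up_pos D p hp).1)

theorem star_fam2 (n : ℕ) (hn3 : 3 ≤ n) (C₀ ℓ₀ : ℝ) : ∃ C : ℝ, ∀ ε : ℝ, 0 < ε → ε < 1 →
    ∃ D₀ : ℕ, ∀ D : Datum n, NEQ C₀ ℓ₀ D → D₀ ≤ D.disc → ∀ N0 : ℝ,
      D.packetMeas {x | ∃ v ∈ latx x, v ≠ 0 ∧ (∀ i, |v i| < 3) ∧ |∏ i, v i - N0| < ε} ≤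
        ENNReal.ofReal (C * √ε) :=
  star_packet_fam n hn3 (fun D => NEQ C₀ ℓ₀ D) (fun D φ hφ => unfold D φ hφ)
    (rO_HT n (by omega)) (fun D => rO_zero D)
    (fun B => ht_crude n (by omega) B) (fun B => ht_short n (by omega) B)
    (vol_lower_fam2 n hn3 C₀ ℓ₀)

theorem tight_fam2 (n : ℕ) (hn3 : 3 ≤ n) (C₀ ℓ₀ : ℝ) : ∃ C : ℝ, ∀ ε : ℝ, 0 < ε → ε < 1 →
    ∃ D₀ : ℕ, ∀ D : Datum n, NEQ C₀ ℓ₀ D → D₀ ≤ D.disc →
      D.packetMeas {x | ∃ v ∈ latx x, v ≠ 0 ∧ ∀ i, |v i| < ε} ≤ ENNReal.ofReal (C * √ε) :=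
  tight_packet_fam n hn3 (fun D => NEQ C₀ ℓ₀ D) (fun D φ hφ => unfold D φ hφ)
    (rO_HT n (by omega)) (fun D => rO_zero D)
    (fun B => ht_crude n (by omega) B) (vol_lower_fam2 n hn3 C₀ ℓ₀)

end Vale.Agent.P007.H11
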