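import Mathlib.NumberTheory.NumberField.Basic
import Mathlib.RingTheory.AdjoinRoot
import Mathlib.RingTheory.Polynomial.GaussLemma

/-!
The number field of an irreducible monic integral polynomial.
-/

set_option autoImplicit false

namespace Vale.Agent.P007.H11

open Polynomial

/-- An irreducible monic integral polynomial `f` defines a number field of degree `deg f`, which
embeds in every number field with a root of `f`. -/
theorem exists_field (f : Polynomial ℤ) (hf : f.Monic) (hfi : Irreducible f) :
    ∃ (F : Type) (_ : Field F) (_ : NumberField F), Module.finrank ℚ F = f.natDegree ∧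
      ∀ (K : Type) [Field K] [NumberField K] (a : K), Polynomial.aeval a f = 0 →
        Nonempty (F →+* K) := by
  set g : Polynomial ℚ := f.map (Int.castRingHom ℚ) with hg
  have hgm : g.Monic := hf.map _
  have hgi : Irreducible g := by
    have h := (Polynomial.Monic.irreducible_iff_irreducible_map_fraction_map (K := ℚ) hf).mp hfi
    have h2 : algebraMap ℤ ℚ = Int.castRingHom ℚ := RingHom.ext_int _ _
    rwa [h2] at h
  have hfact : Fact (Irreducible g) := ⟨hgi⟩
  have hfin : Module.finrank ℚ (AdjoinRoot g) = g.natDegree := by
    rw [(AdjoinRoot.powerBasis hgi.ne_zero).finrank, AdjoinRoot.powerBasis_dim]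
  have hfd : FiniteDimensional ℚ (AdjoinRoot g) :=
    (AdjoinRoot.powerBasis hgi.ne_zero).finite
  have hnf : NumberField (AdjoinRoot g) :=
    { to_charZero := charZero_of_injective_algebraMap (algebraMap ℚ (AdjoinRoot g)).injective
      to_finiteDimensional := hfd }
  refine ⟨AdjoinRoot g, inferInstance, hnf, ?_, ?_⟩
  · rw [hfin, hg, hf.natDegree_map]
  · intro K _ _ a ha
    refine ⟨AdjoinRoot.lift (algebraMap ℚ K) a ?_⟩
    rw [hg, Polynomial.eval₂_map]
    have h3 : (algebraMap ℚ K).comp (Int.castRingHom ℚ) = algebraMap ℤ K := RingHom.ext_int _ _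
    rw [h3]
    exact ha

end Vale.Agent.P007.H11
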