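import Vale.Agent.P007.Bdl.B7

/-! Orbits of the centralizer of a diagonal matrix on the lattices stable under it: they are closed,
and there are only countably many of them. -/

set_option autoImplicit false

open MeasureTheory Matrix Filter Topology
open scoped ENNReal

namespace Vale.Agent.P007.H11

open Vale.Agent.P007

variable {n : ℕ}

/-- the orbit of `x` under the centralizer of `diag(p)` -/
def ZO (p : Fin n → ℝ) (x : X n) : Set (X n) :=
  {y | ∃ h : G n, h.1 * diagonal p = diagonal p * h.1 ∧ y = tr h x}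

theorem zo_comm_inv {p : Fin n → ℝ} {h : G n} (hh : h.1 * diagonal p = diagonal p * h.1) :
    (h⁻¹ : G n).1 * diagonal p = diagonal p * (h⁻¹ : G n).1 := by
  have h1 : (h⁻¹ : G n).1 * h.1 = 1 := coe_inv_mul h
  have h2 : h.1 * (h⁻¹ : G n).1 = 1 := coe_mul_inv h
  calc (h⁻¹ : G n).1 * diagonal p = (h⁻¹ : G n).1 * (diagonal p * (h.1 * (h⁻¹ : G n).1)) := by
        rw [h2, mul_one]
    _ = (h⁻¹ : G n).1 * ((diagonal p * h.1) * (h⁻¹ : G n).1) := by rw [mul_assoc (diagonal p)]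
    _ = (h⁻¹ : G n).1 * ((h.1 * diagonal p) * (h⁻¹ : G n).1) := by rw [hh]
    _ = ((h⁻¹ : G n).1 * h.1) * diagonal p * (h⁻¹ : G n).1 := by simp only [mul_assoc]
    _ = diagonal p * (h⁻¹ : G n).1 := by rw [h1, one_mul]

theorem zo_comm_mul {p : Fin n → ℝ} {h k : G n} (hh : h.1 * diagonal p = diagonal p * h.1)
    (hk : k.1 * diagonal p = diagonal p * k.1) :
    (h * k : G n).1 * diagonal p = diagonal p * (h * k : G n).1 := by
  have h1 : (h * k : G n).1 = h.1 * k.1 := coe_mul_G h k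
  rw [h1, mul_assoc, hk, ← mul_assoc, hh, mul_assoc]

theorem zo_comm_one {p : Fin n → ℝ} : (1 : G n).1 * diagonal p = diagonal p * (1 : G n).1 := by
  have h1 : (1 : G n).1 = 1 := Matrix.SpecialLinearGroup.coe_one
  rw [h1, one_mul, mul_one]

theorem mem_ZO_self (p : Fin n → ℝ) (x : X n) : x ∈ ZO p x := ⟨1, zo_comm_one, (tr_one x).symm⟩

theorem mem_ZO_symm {p : Fin n → ℝ} {x y : X n} (h : y ∈ ZO p x) : x ∈ ZO p y := by
  obtain ⟨k, hk, rfl⟩ := h
  refine ⟨k⁻¹, zo_comm_inv hk, ?_⟩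
  rw [tr_tr, mul_inv_cancel, tr_one]

theorem mem_ZO_trans {p : Fin n → ℝ} {x y z : X n} (h : y ∈ ZO p x) (h' : z ∈ ZO p y) :
    z ∈ ZO p x := by
  obtain ⟨k, hk, rfl⟩ := h
  obtain ⟨l, hl, rfl⟩ := h'
  exact ⟨k * l, zo_comm_mul hk hl, tr_tr k l x⟩

theorem ZO_preimage (p : Fin n → ℝ) (x : X n) {h : G n}
    (hh : h.1 * diagonal p = diagonal p * h.1) :
    (tr h : X n → X n) ⁻¹' (ZO p x) = ZO p x := by
  ext z
  constructor
  · intro hz
    exact mem_ZO_trans hz (mem_ZO_symm ⟨h, hh, rfl⟩)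
  · intro hz
    exact mem_ZO_trans hz ⟨h, hh, rfl⟩

theorem zo_stab_comm {p : Fin n → ℝ} {g h : G n} {M : Matrix (Fin n) (Fin n) ℤ}
    (hM : g.1 * diagonal p = castM M * g.1) (hh : h.1 * diagonal p = diagonal p * h.1) :
    (g * h : G n).1 * diagonal p = castM M * (g * h : G n).1 := by
  have h1 : (g * h : G n).1 = g.1 * h.1 := coe_mul_G g h
  rw [h1, mul_assoc, hh, ← mul_assoc, hM, mul_assoc]

theorem ZO_subset {p : Fin n → ℝ} {x : X n} (hx : x ∈ Yd p) : ZO p x ⊆ Yd p := by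
  rintro _ ⟨h, hh, rfl⟩
  obtain ⟨g, rfl, M, hM⟩ := hx
  rw [tr_pt]
  exact pt_mem_Yd.2 ⟨M, zo_stab_comm hM hh⟩

/-- two matrices with the same integral form of `diag(p)` differ by an element of the
centralizer -/
theorem mem_ZO_of_eq {p : Fin n → ℝ} {g g' : G n} {M : Matrix (Fin n) (Fin n) ℤ}
    (hM : g.1 * diagonal p = castM M * g.1) (hM' : g'.1 * diagonal p = castM M * g'.1) :
    pt g' ∈ ZO p (pt g) := by
  refine ⟨g⁻¹ * g', ?_, ?_⟩
  · have h1 : (g⁻¹ * g' : G n).1 = (g⁻¹ : G n).1 * g'.1 := coe_mul_G g⁻¹ g'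
    have h2 : (g⁻¹ : G n).1 * g.1 = 1 := coe_inv_mul g
    have h3 : g.1 * (g⁻¹ : G n).1 = 1 := coe_mul_inv g
    rw [h1]
    calc (g⁻¹ : G n).1 * g'.1 * diagonal p = (g⁻¹ : G n).1 * (castM M * g'.1) := by
          rw [mul_assoc, hM']
      _ = (g⁻¹ : G n).1 * ((castM M * (g.1 * (g⁻¹ : G n).1)) * g'.1) := by rw [h3, mul_one]
      _ = (g⁻¹ : G n).1 * ((castM M * g.1) * (g⁻¹ : G n).1 * g'.1) := by
          simp only [mul_assoc]
      _ = (g⁻¹ : G n).1 * ((g.1 * diagonal p) * (g⁻¹ : G n).1 * g'.1) := by rw [hM]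
      _ = ((g⁻¹ : G n).1 * g.1) * diagonal p * ((g⁻¹ : G n).1 * g'.1) := by
          simp only [mul_assoc]
      _ = diagonal p * ((g⁻¹ : G n).1 * g'.1) := by rw [h2, one_mul]
  · rw [tr_pt, mul_inv_cancel_left]

/-- the integral matrices conjugate to `diag(p)` at the point `x` -/
def ZCs (p : Fin n → ℝ) (x : X n) : Set (Matrix (Fin n) (Fin n) ℤ) :=
  {M | ∃ g : G n, x = pt g ∧ g.1 * diagonal p = castM M * g.1}

theorem ZCs_nonempty {p : Fin n → ℝ} {x : X n} (hx : x ∈ Yd p) : (ZCs p x).Nonempty := by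
  obtain ⟨g, hg, M, hM⟩ := hx
  exact ⟨M, g, hg, hM⟩

theorem mem_ZO_of_ZCs {p : Fin n → ℝ} {x y : X n} {M : Matrix (Fin n) (Fin n) ℤ}
    (hx : M ∈ ZCs p x) (hy : M ∈ ZCs p y) : y ∈ ZO p x := by
  obtain ⟨g, rfl, hg⟩ := hx
  obtain ⟨g', rfl, hg'⟩ := hy
  exact mem_ZO_of_eq hg hg'

theorem ZCs_of_mem_ZO {p : Fin n → ℝ} {x y : X n} {M : Matrix (Fin n) (Fin n) ℤ}
    (hx : M ∈ ZCs p x) (hy : y ∈ ZO p x) : M ∈ ZCs p y := by
  obtain ⟨g, rfl, hg⟩ := hx
  obtain ⟨h, hh, rfl⟩ := hy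
  exact ⟨g * h, tr_pt g h, zo_stab_comm hg hh⟩

/-- all integral forms of `diag(p)` at points of the orbit of `x` -/
theorem preimage_ZO {p : Fin n → ℝ} {x : X n} (hx : x ∈ Yd p) :
    (pt : G n → X n) ⁻¹' (ZO p x) = {g : G n | (g : Matrix (Fin n) (Fin n) ℝ) * diagonal p *
      ((g⁻¹ : G n) : Matrix (Fin n) (Fin n) ℝ) ∈ castM '' (ZCs p x)} := by
  ext g
  constructor
  · intro hg
    obtain ⟨M, hM⟩ := ZCs_nonempty (ZO_subset hx hg)
    obtain ⟨g', hg', hM'⟩ := hM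
    -- transport the form from `g'` to `g`
    obtain ⟨N, hN⟩ := pt_mem_Yd.1 (ZO_subset hx hg)
    refine ⟨N, ZCs_of_mem_ZO ⟨g, rfl, hN⟩ (mem_ZO_symm hg), ?_⟩
    have hN' : (g : Matrix (Fin n) (Fin n) ℝ) * diagonal p = castM N * g := hN
    rw [hN', mul_assoc, coe_mul_inv, mul_one]
  · rintro ⟨M, hM, h⟩
    refine mem_ZO_of_ZCs hM ⟨g, rfl, ?_⟩
    have h1 : castM M * (g : Matrix (Fin n) (Fin n) ℝ) =
        (g : Matrix (Fin n) (Fin n) ℝ) * diagonal p := by
      rw [h, mul_assoc, coe_inv_mul, mul_one]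
    exact h1.symm

theorem discreteTopology_matrix : DiscreteTopology (Matrix (Fin n) (Fin n) ℤ) :=
  inferInstanceAs (DiscreteTopology (Fin n → Fin n → ℤ))

theorem isClosed_image_castM (S : Set (Matrix (Fin n) (Fin n) ℤ)) : IsClosed (castM '' S) :=
  (IsClosedEmbedding.matrix_map (m := Fin n) (n := Fin n)
    Int.isClosedEmbedding_coe_real).isClosedMap S (@isClosed_discrete _ _ discreteTopology_matrix S)

theorem isClosed_ZO {p : Fin n → ℝ} {x : X n} (hx : x ∈ Yd p) : IsClosed (ZO p x) := by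
  refine (isOpenQuotientMap_pt.isQuotientMap.isClosed_preimage).mp ?_
  rw [preimage_ZO hx]
  have hc : Continuous fun g : G n => (g : Matrix (Fin n) (Fin n) ℝ) * diagonal p *
      ((g⁻¹ : G n) : Matrix (Fin n) (Fin n) ℝ) := by
    have h1 : Continuous fun g : G n => (g : Matrix (Fin n) (Fin n) ℝ) :=
      Matrix.SpecialLinearGroup.isClosedEmbedding_val.continuous
    have h2 : Continuous fun g : G n => ((g⁻¹ : G n) : Matrix (Fin n) (Fin n) ℝ) :=
      h1.comp continuous_inv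
    exact (h1.matrix_mul continuous_const).matrix_mul h2
  exact (isClosed_image_castM _).preimage hc

/-- the orbits on `Yd p` -/
def zoSetoid (p : Fin n → ℝ) : Setoid (Yd p : Set (X n)) where
  r x y := y.1 ∈ ZO p x.1
  iseqv :=
    { refl := fun x => mem_ZO_self p x.1
      symm := fun h => mem_ZO_symm h
      trans := fun h h' => mem_ZO_trans h h' }

theorem exists_orbits (p : Fin n → ℝ) : ∃ T : Set (X n), T.Countable ∧ T ⊆ Yd p ∧
    T.PairwiseDisjoint (ZO p) ∧ (Yd p : Set (X n)) = ⋃ x ∈ T, ZO p x := by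
  classical
  let Q := Quotient (zoSetoid p)
  choose M hM using fun q : Q => ZCs_nonempty (q.out).2
  have hout : ∀ q q' : Q, (q'.out).1 ∈ ZO p (q.out).1 → q = q' := by
    intro q q' h
    have h1 : (⟦q.out⟧ : Q) = ⟦q'.out⟧ := Quotient.sound h
    rwa [Quotient.out_eq, Quotient.out_eq] at h1
  have hMi : Function.Injective M := by
    intro q q' h
    have h2 := hM q'
    rw [← h] at h2
    exact hout q q' (mem_ZO_of_ZCs (hM q) h2)
  have : Countable (Matrix (Fin n) (Fin n) ℤ) := inferInstanceAs (Countable (Fin n → Fin n → ℤ))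
  have hQ : Countable Q := hMi.countable
  refine ⟨Set.range fun q : Q => (q.out).1, Set.countable_range _, ?_, ?_, ?_⟩
  · rintro _ ⟨q, rfl⟩
    exact (q.out).2
  · rintro _ ⟨q, rfl⟩ _ ⟨q', rfl⟩ hne
    refine Set.disjoint_left.2 fun z hz hz' => hne ?_
    have h1 : (q'.out).1 ∈ ZO p (q.out).1 := mem_ZO_trans hz (mem_ZO_symm hz')
    change (q.out).1 = (q'.out).1
    rw [hout q q' h1]
  · apply Set.Subset.antisymm
    · intro y hy
      let q : Q := ⟦⟨y, hy⟩⟧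
      have h1 : y ∈ ZO p (q.out).1 := Quotient.exact (s := zoSetoid p) (Quotient.out_eq q)
      exact Set.mem_iUnion₂.2 ⟨(q.out).1, ⟨q, rfl⟩, h1⟩
    · refine Set.iUnion₂_subset ?_
      rintro _ ⟨q, rfl⟩
      exact ZO_subset (q.out).2

end Vale.Agent.P007.H11
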