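import Vale.Agent.P007.H11.Main

/-! The packet measures are invariant under the sign matrices of determinant one. -/

set_option autoImplicit false

open MeasureTheory Matrix NumberField Filter Topology
open scoped nonZeroDivisors ENNReal CompactlySupported

namespace Vale.Agent.P007.F

section SignInvariance

variable {n : ℕ}

private theorem sgn_measurable_tr (h : Matrix.SpecialLinearGroup (Fin n) ℝ) :
    Measurable (tr h : X n → X n) := (Vale.Agent.P007.continuous_tr (n := n) h).measurable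

private theorem sgn_tr_tr (h k : Matrix.SpecialLinearGroup (Fin n) ℝ) (x : X n) :
    tr k (tr h x) = tr (h * k) x := Vale.Agent.P007.tr_tr (n := n) h k x

private theorem sgn_tr_one (x : X n) : tr 1 x = x := Vale.Agent.P007.tr_one (n := n) x

private theorem sgn_measurable_orb (x : X n) :
    Measurable fun u : Fin (n - 1) → ℝ => tr (aexp u) x :=
  (Vale.Agent.P007.continuous_orbMap (n := n) x).measurable

variable {w : Fin n → ℤˣ} {g : Matrix.SpecialLinearGroup (Fin n) ℝ}

private theorem sgn_comm (hg : g.1 = Matrix.diagonal fun j => ((w j : ℤ) : ℝ))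
    (u : Fin (n - 1) → ℝ) : aexp u * g = g * aexp u := by
  apply Subtype.ext
  change (aexp u).1 * g.1 = g.1 * (aexp u).1
  rw [hg]
  change (diagonal fun j => Real.exp (expo u j)) * _ = _ * (diagonal fun j => Real.exp (expo u j))
  rw [diagonal_mul_diagonal, diagonal_mul_diagonal]
  congr 1
  funext j
  exact mul_comm _ _

private theorem sgn_unit (w : ℤˣ) : ((w : ℤ) : ℝ) * ((w : ℤ) : ℝ) = 1 := by
  rw [← Int.cast_mul, ← Units.val_mul, Int.units_mul_self, Units.val_one, Int.cast_one]

private theorem sgn_sq (hg : g.1 = Matrix.diagonal fun j => ((w j : ℤ) : ℝ)) : g * g = 1 := by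
  apply Subtype.ext
  change g.1 * g.1 = 1
  rw [hg, diagonal_mul_diagonal, ← diagonal_one]
  congr 1
  funext j
  exact sgn_unit (w j)

private theorem sgn_inv (hg : g.1 = Matrix.diagonal fun j => ((w j : ℤ) : ℝ)) (x : X n) :
    tr g (tr g x) = x := by
  rw [sgn_tr_tr, sgn_sq hg, sgn_tr_one]

private theorem sgn_tr_comm (hg : g.1 = Matrix.diagonal fun j => ((w j : ℤ) : ℝ))
    (u : Fin (n - 1) → ℝ) (x : X n) : tr g (tr (aexp u) x) = tr (aexp u) (tr g x) := by
  rw [sgn_tr_tr, sgn_tr_tr, sgn_comm hg]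

private theorem sgn_injective (hg : g.1 = Matrix.diagonal fun j => ((w j : ℤ) : ℝ)) :
    Function.Injective (tr g : X n → X n) :=
  Function.LeftInverse.injective (g := tr g) (sgn_inv hg)

private theorem sgn_image_image (hg : g.1 = Matrix.diagonal fun j => ((w j : ℤ) : ℝ))
    (S : Set (X n)) : tr g '' (tr g '' S) = S := by
  rw [Set.image_image]
  simp only [sgn_inv hg, Set.image_id']

private theorem sgn_orb (hg : g.1 = Matrix.diagonal fun j => ((w j : ℤ) : ℝ)) (x : X n) :
    tr g '' orb x = orb (tr g x) := by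
  unfold orb
  rw [← Set.range_comp]
  congr 1
  funext u
  exact sgn_tr_comm hg u x

private theorem sgn_lat (hg : g.1 = Matrix.diagonal fun j => ((w j : ℤ) : ℝ))
    (h : Matrix.SpecialLinearGroup (Fin n) ℝ) :
    lat (h * g) = {v | ∃ v' ∈ lat h, v = fun j => v' j * ((w j : ℤ) : ℝ)} := by
  have key : ∀ c : Fin n → ℤ, (fun i => (c i : ℝ)) ᵥ* (h * g).1 =
      fun j => ((fun i => (c i : ℝ)) ᵥ* h.1) j * ((w j : ℤ) : ℝ) := by
    intro c
    have h1 : (h * g).1 = h.1 * g.1 := rfl
    rw [h1, ← vecMul_vecMul, hg]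
    funext j
    rw [vecMul_diagonal]
  ext v
  constructor
  · rintro ⟨c, rfl⟩
    exact ⟨_, ⟨c, rfl⟩, key c⟩
  · rintro ⟨_, ⟨c, rfl⟩, rfl⟩
    exact ⟨c, key c⟩

private theorem sgn_orbMeas (hg : g.1 = Matrix.diagonal fun j => ((w j : ℤ) : ℝ))
    {S : Set (X n)} {l : Measure (X n)} (h : OrbMeas S l) :
    OrbMeas (tr g '' S) (l.map (tr g)) := by
  obtain ⟨x, B, hB, hbij⟩ := h
  rw [Measure.map_map (sgn_measurable_tr g) (sgn_measurable_orb x), sgn_orb hg]
  have h1 : (tr g ∘ fun u => tr (aexp u) x) = fun u => tr (aexp u) (tr g x) :=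
    funext fun u => sgn_tr_comm hg u x
  rw [h1]
  refine OrbMeas.mk (tr g x) B hB ?_
  rw [← h1, ← sgn_orb hg]
  exact ((sgn_injective hg).injOn.bijOn_image).comp hbij

variable {K : Type} [Field K] [NumberField K] {O : Subring (𝓞 K)} {σ : Fin n ≃ (K →+* ℝ)}

private theorem sgn_pkt (hg : g.1 = Matrix.diagonal fun j => ((w j : ℤ) : ℝ))
    {S : Set (X n)} (h : Pkt K O σ S) : Pkt K O σ (tr g '' S) := by
  obtain ⟨I, w', c, h, hc, hh⟩ := h
  rw [sgn_orb hg]
  have h1 : tr g (pt h) = pt (h * g) := rfl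
  rw [h1]
  refine Pkt.mk I (fun j => w' j * w j) c (h * g) hc ?_
  rw [sgn_lat hg, hh]
  ext v
  constructor
  · rintro ⟨_, ⟨a, ha, rfl⟩, rfl⟩
    refine ⟨a, ha, ?_⟩
    funext j
    rw [Units.val_mul, Int.cast_mul, mul_assoc]
  · rintro ⟨a, ha, rfl⟩
    refine ⟨_, ⟨a, ha, rfl⟩, ?_⟩
    funext j
    rw [Units.val_mul, Int.cast_mul, ← mul_assoc]

/-- **The packet measures are invariant under the sign matrices of determinant one.** -/
theorem packetMeas_sign {n : ℕ} {K : Type} [Field K] [NumberField K] {O : Subring (𝓞 K)}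
    {σ : Fin n ≃ (K →+* ℝ)} {μ : Measure (X n)} (h : PacketMeas K O σ μ) (w : Fin n → ℤˣ)
    (g : Matrix.SpecialLinearGroup (Fin n) ℝ)
    (hg : g.1 = Matrix.diagonal fun j => ((w j : ℤ) : ℝ)) : μ.map (tr g) = μ := by
  obtain ⟨μ₀, -, huniq⟩ := exists_packetMeas h.triple
  have hμ : μ = μ₀ := (huniq μ).1 h
  suffices h2 : PacketMeas K O σ (μ.map (tr g)) by
    rw [(huniq _).1 h2, hμ]
  refine ⟨h.triple, ?_⟩
  obtain ⟨l, hl, hμl⟩ := h.average
  let e : {S // Pkt K O σ S} ≃ {S // Pkt K O σ S} :=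
    { toFun := fun S => ⟨tr g '' S.1, sgn_pkt hg S.2⟩
      invFun := fun S => ⟨tr g '' S.1, sgn_pkt hg S.2⟩
      left_inv := fun S => Subtype.ext (sgn_image_image hg S.1)
      right_inv := fun S => Subtype.ext (sgn_image_image hg S.1) }
  refine ⟨fun S => (l (tr g '' S)).map (tr g), fun S hS => ?_, ?_⟩
  · have h1 := sgn_orbMeas hg (hl _ (sgn_pkt hg hS))
    rwa [sgn_image_image hg] at h1
  · have hmass : ∀ S : {S // Pkt K O σ S}, ((l (tr g '' S.1)).map (tr g)) Set.univ =
        l (e S).1 Set.univ := by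
      intro S
      rw [Measure.map_apply (sgn_measurable_tr g) MeasurableSet.univ, Set.preimage_univ]
      rfl
    have hsum : (∑' S : {S // Pkt K O σ S}, ((l (tr g '' S.1)).map (tr g)) Set.univ) =
        ∑' S : {S // Pkt K O σ S}, l S.1 Set.univ := by
      rw [← e.tsum_eq fun S : {S // Pkt K O σ S} => l S.1 Set.univ]
      exact tsum_congr hmass
    have hmeas : (Measure.sum fun S : {S // Pkt K O σ S} => l S.1).map (tr g) =
        Measure.sum fun S : {S // Pkt K O σ S} => (l (tr g '' S.1)).map (tr g) := by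
      ext s hs
      rw [Measure.map_apply (sgn_measurable_tr g) hs,
        Measure.sum_apply _ (sgn_measurable_tr g hs), Measure.sum_apply _ hs,
        ← e.tsum_eq fun S : {S // Pkt K O σ S} => l S.1 (tr g ⁻¹' s)]
      refine tsum_congr fun S => ?_
      rw [Measure.map_apply (sgn_measurable_tr g) hs]
      rfl
    rw [hμl, Measure.map_smul, hmeas, hsum]

end SignInvariance

end Vale.Agent.P007.F
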