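import Vale.Agent.P007.H11.Avg
import Vale.Agent.P007.H11.Cent
import Vale.Agent.P007.H11.Orb
import Vale.Agent.P007.H11.Sign

/-! The final form of the structure theorem: closed orbits of centralizers. -/

set_option autoImplicit false

open MeasureTheory Matrix Filter Topology ProbabilityTheory
open scoped ENNReal

namespace Vale.Agent.P007.H11

open Vale.Agent.P007 Vale.Agent.P007.Koopman Vale.Agent.P007.Mautner Vale.Agent.P007.R
  Vale.Agent.P007.R.Blk

variable {n : ℕ}

/-- `κ` is a probability measure carried by a closed orbit of the centralizer of `diag(p)` in the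
set of the lattices stable under `diag(p)` and invariant under this centralizer. -/
def Hom1 (p : Fin n → ℝ) (κ : Measure (X n)) : Prop :=
  IsProbabilityMeasure κ ∧ (∃ x ∈ Yd p, IsClosed (ZO p x) ∧ κ (ZO p x) = 1) ∧
    ∀ h : G n, h.1 * diagonal p = diagonal p * h.1 → κ.map (tr h) = κ

theorem inv_centralizer {p : Fin n → ℝ} {κ : Measure (X n)} (h : Homog p κ) (hW : SInv κ)
    {k : G n} (hk : k.1 * diagonal p = diagonal p * k.1) : κ.map (tr k) = κ :=
  centralizer_mem (Blk.invG κ) (fun β => h.1 β) (fun w g hg => hW g ⟨w, hg⟩)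
    (fun i j hij hpij s => h.2.2 i j hij hpij s) hk

/-- an indexed family of homogeneous measures with weights -/
def Dec (P : (Fin n → ℝ) → Prop) (κ : Measure (X n)) : Prop :=
  ∃ (J : Type) (_ : Countable J) (c : J → ℝ≥0∞) (κ' : J → Measure (X n)),
    (∀ k, ∃ p, P p ∧ Hom1 p (κ' k)) ∧ κ = Measure.sum fun k => c k • κ' k

theorem pieces {p : Fin n → ℝ} {κ : Measure (X n)} [IsFiniteMeasure κ] (h : Homog p κ)
    (hW : SInv κ) : Dec (fun q => q = p) κ := by
  classical
  obtain ⟨T, hT, hTY, hTd, hTU⟩ := exists_orbits (n := n) p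
  have hcl : ∀ x ∈ T, IsClosed (ZO p x) := fun x hx => isClosed_ZO (hTY hx)
  have hJ : {x : X n | x ∈ T ∧ κ (ZO p x) ≠ 0}.Countable := hT.mono fun x hx => hx.1
  have hcount : Countable {x : X n // x ∈ T ∧ κ (ZO p x) ≠ 0} := hJ.to_subtype
  refine ⟨{x : X n // x ∈ T ∧ κ (ZO p x) ≠ 0}, hcount, fun x => κ (ZO p x.1),
    fun x => (κ (ZO p x.1))⁻¹ • κ.restrict (ZO p x.1), fun x => ⟨p, rfl, ?_, ?_, ?_⟩, ?_⟩
  · constructor
    rw [Measure.smul_apply, Measure.restrict_apply_univ, smul_eq_mul]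
    exact ENNReal.inv_mul_cancel x.2.2 (measure_ne_top _ _)
  · refine ⟨x.1, hTY x.2.1, hcl _ x.2.1, ?_⟩
    rw [Measure.smul_apply, Measure.restrict_apply_self, smul_eq_mul]
    exact ENNReal.inv_mul_cancel x.2.2 (measure_ne_top _ _)
  · intro k hk
    rw [Measure.map_smul, map_restrict (inv_centralizer h hW hk) (hcl _ x.2.1).measurableSet]
    rw [ZO_preimage p x.1 hk]
    exact Filter.EventuallyEq.rfl
  · have e1 : ∀ x : {x : X n // x ∈ T ∧ κ (ZO p x) ≠ 0},
        κ (ZO p x.1) • ((κ (ZO p x.1))⁻¹ • κ.restrict (ZO p x.1)) = κ.restrict (ZO p x.1) := by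
      intro x
      rw [smul_smul, ENNReal.mul_inv_cancel x.2.2 (measure_ne_top _ _), one_smul]
    simp only [e1]
    have e2 : κ = κ.restrict (⋃ x ∈ T, ZO p x) := by
      rw [← hTU, Measure.restrict_eq_self_of_ae_mem]
      rw [ae_iff]
      exact h.2.1
    have := hT.to_subtype
    have e3 : κ.restrict (⋃ x ∈ T, ZO p x) = Measure.sum fun x : T => κ.restrict (ZO p x.1) := by
      rw [Set.biUnion_eq_iUnion]
      refine Measure.restrict_iUnion ?_ fun x => (hcl x.1 x.2).measurableSet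
      intro x y hxy
      exact hTd x.2 y.2 (fun e => hxy (Subtype.ext e))
    conv_lhs => rw [e2, e3]
    ext s hs
    rw [Measure.sum_apply _ hs, Measure.sum_apply _ hs]
    have hsupp : Function.support (fun x : T => κ.restrict (ZO p x.1) s) ⊆
        {x : T | κ (ZO p x.1) ≠ 0} := by
      intro x hx h0
      apply hx
      change κ.restrict (ZO p x.1) s = 0
      rw [Measure.restrict_eq_zero.2 h0]
      rfl
    rw [← tsum_subtype_eq_of_support_subset hsupp]
    exact (Equiv.subtypeSubtypeEquivSubtypeInter (fun x => x ∈ T)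
      (fun x : X n => κ (ZO p x) ≠ 0)).tsum_eq
      (fun x : {x : X n // x ∈ T ∧ κ (ZO p x) ≠ 0} => κ.restrict (ZO p x.1) s)

theorem Dec.sum {ι : Type} [Countable ι] {P : (Fin n → ℝ) → Prop} {κ : ι → Measure (X n)}
    (h : ∀ k, Dec P (κ k)) : Dec P (Measure.sum κ) := by
  choose J hJ c κ' hκ' hs using h
  refine ⟨Σ k, J k, inferInstance, fun q => c q.1 q.2, fun q => κ' q.1 q.2,
    fun q => hκ' q.1 q.2, ?_⟩
  ext s hs'
  rw [Measure.sum_apply _ hs', Measure.sum_apply _ hs', ENNReal.tsum_sigma']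
  refine tsum_congr fun k => ?_
  conv_lhs => rw [hs k]
  rw [Measure.sum_apply _ hs']

theorem Dec.mono {P Q : (Fin n → ℝ) → Prop} {κ : Measure (X n)} (h : Dec P κ)
    (hPQ : ∀ p, P p → Q p) : Dec Q κ := by
  obtain ⟨J, hJ, c, κ', h1, h2⟩ := h
  exact ⟨J, hJ, c, κ', fun k => by
    obtain ⟨p, hp, hp'⟩ := h1 k
    exact ⟨p, hPQ p hp, hp'⟩, h2⟩

/-- **Structure theorem.** -/
theorem structure_dec (hn : Odd n) (hn1 : 1 < n) (ν : Measure (X n)) [IsProbabilityMeasure ν]
    (hA : AInv ν) (hS : Star ν) (hW : SInv ν) {m : Measure (X n)} (hm : IsInvProb m) :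
    ∃ κ : Measure (X n), Dec IsMult κ ∧ ν = ν (RMs n)ᶜ • m + κ := by
  obtain ⟨κ, hκ, hν⟩ := decomposition_sg hn hn1 ν hA hS hW hm
  have hc : Countable {p : Fin n → ℝ // IsMult p} := countable_isMult.to_subtype
  refine ⟨Measure.sum κ, Dec.sum fun p => ?_, hν⟩
  have hle : κ p ≤ ν := by
    conv_rhs => rw [hν]
    exact (Measure.le_sum κ p).trans (Measure.le_add_left le_rfl)
  have := isFiniteMeasure_of_le ν hle
  exact (pieces (hκ p).1 (hκ p).2).mono fun q hq => hq ▸ p.2

/-- **Structure theorem, prime relative degree.** -/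
theorem structure_prime (hn : Odd n) (hn1 : 1 < n) (ν : Measure (X n)) [IsProbabilityMeasure ν]
    (hA : AInv ν) (hS : Star ν) (hW : SInv ν) {m : Measure (X n)} (hm : IsInvProb m)
    {p : Fin n → ℝ} {f : Polynomial ℤ} {k : ℕ}
    (hf : f.Monic) (hfi : Irreducible f) (hroot : ∀ j, Polynomial.aeval (p j) f = 0)
    (hf1 : 1 < f.natDegree) (hk : k.Prime) (hkn : f.natDegree * k = n) (hY : ν (Yd p)ᶜ = 0) :
    Dec (fun q => q = p) ν := by
  obtain ⟨κ, hκ, hν⟩ := decomposition hn hn1 ν hA hS hm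
  exact pieces (homog_of_prime hn1 ν hκ hν hf hfi hroot hf1 hk hkn hY) hW

end Vale.Agent.P007.H11
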