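import Vale.Agent.P007.H11.ArithGen

/-! The low entropy step in every degree. -/

set_option autoImplicit false

open MeasureTheory Matrix Filter Topology ProbabilityTheory
open scoped ENNReal

namespace Vale.Agent.P007.H11

open Vale.Agent.P007 Vale.Agent.P007.Koopman Vale.Agent.P007.Mautner Vale.Agent.P007.R
  Vale.Agent.P007.R.LowAux

variable {n : ℕ}

theorem low_core_gen (μ : Measure (X n)) [IsProbabilityMeasure μ] (hA : AInv μ)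
    {i j : Fin n} (hij : i ≠ j) (β : Fin n → ℝ) (hari : ∃ δ > 0, ∀ h : G n,
      (∀ k l, |h.1 k l - (1 : Matrix (Fin n) (Fin n) ℝ) k l| ≤ δ) → ∀ m : ℕ, 1 ≤ m → ∀ x : X n,
        tr (da β ^ m) x = tr h x → ¬ Cent i j h) (L : Leafwise μ i j)
    (hleaf : ∀ E : Set (X n), MeasurableSet E → μ Eᶜ = 0 →
      ∀ᵐ x ∂μ, ∀ᵐ s ∂(L.lam x), tr (ug i j s) x ∈ E)
    (hconst : ∃ X' : Set (X n), MeasurableSet X' ∧ μ X'ᶜ = 0 ∧
      ∀ x ∈ X', ∀ k : ℤ, L.lam (tr (da β ^ k) x) = L.lam x)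
    (hna : ∀ᵐ x ∂μ, ∀ s : ℝ, L.lam x {s} = 0)
    (hsym : ∀ᵐ x ∂μ, ∀ σ : ℝ, (∃ c : ℝ≥0∞, c ≠ 0 ∧ c ≠ ∞ ∧
      (L.lam x).map (fun t => t - σ) = c • L.lam x) → σ = 0)
    (hV : ∃ X' : Set (X n), MeasurableSet X' ∧ μ X'ᶜ = 0 ∧ ∀ x ∈ X', ∀ c : G n, tr c x ∈ X' →
      (∀ k, c.1 k k = 1) → (∀ k l, k ≠ l → ¬ Vpos i j k l → c.1 k l = 0) →
      ∀ l, l ≠ i → l ≠ j → c.1 i l = 0 ∧ c.1 l j = 0) : False := by
  classical
  obtain ⟨XV, -, hXV0, hXV⟩ := hV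
  obtain ⟨Xc, hXc, hXc0, hXc'⟩ := hconst
  -- the good set `Y`
  obtain ⟨Y, hY, hY0, hYP⟩ := ae_set ((ae_mem L.conull).and ((ae_mem hXV0).and
    (hsym.and (ae_goodScale hij L))))
  obtain ⟨Yl, hYl, hYl0, hYlP⟩ := ae_set (hleaf Y hY hY0)
  obtain ⟨K, hKY, hKc, hKF, δ, hδ0, hδ1, W, hW, hWμ, hWP⟩ := exists_KW L hna hY hY0
  obtain ⟨Gd, hGd, hGdμ, hGdP⟩ := density hA i j hW hWμ
  -- the set `Gs`
  set Gs : Set (X n) := (Y ∩ Yl) ∩ (Xc ∩ Gd) with hGs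
  have hGsm : MeasurableSet Gs := (hY.inter hYl).inter (hXc.inter hGd)
  have hGsμ : μ Gs ≠ 0 := by
    intro h0
    have h1 : μ Gsᶜ ≤ 1 / 4 := by
      rw [hGs, Set.compl_inter, Set.compl_inter, Set.compl_inter]
      calc μ ((Yᶜ ∪ Ylᶜ) ∪ (Xcᶜ ∪ Gdᶜ)) ≤ μ (Yᶜ ∪ Ylᶜ) + μ (Xcᶜ ∪ Gdᶜ) := measure_union_le _ _
        _ ≤ (μ Yᶜ + μ Ylᶜ) + (μ Xcᶜ + μ Gdᶜ) :=
            add_le_add (measure_union_le _ _) (measure_union_le _ _)
        _ ≤ 1 / 4 := by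
            rw [hY0, hYl0, hXc0, zero_add, zero_add, zero_add]
            exact hGdμ
    have h2 := measure_add_measure_compl (μ := μ) hGsm
    rw [h0, zero_add, measure_univ] at h2
    rw [h2] at h1
    have h3 := ENNReal.toReal_mono (by simp) h1
    norm_num at h3
  -- Poincaré recurrence for the element `da β`
  have hP := poincare μ (da β) (hA _) hGsm
  obtain ⟨x, hxG, hxP⟩ : ∃ x ∈ Gs, ∀ U ∈ 𝓝 (1 : G n), ∃ᶠ m : ℕ in atTop, ∃ h ∈ U,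
      tr (da β ^ m) x = tr h x ∧ tr (da β ^ m) x ∈ Gs := by
    by_contra hcon
    push Not at hcon
    apply hGsμ
    refine measure_mono_null ?_ hP
    intro x hx hx2
    obtain ⟨U, hU, hU2⟩ := hcon x hx
    have h1 := hx2 hx U hU
    exact h1 (hU2.mono fun m hm => by
      push Not
      exact hm)
  obtain ⟨δa, hδa, harith⟩ := hari
  refine limit_contra hij L hKc (fun x hx => (hYP x (hKY hx)).1) hKF
    (fun x hx => (hYP x (hKY hx)).2.2.1)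
    (fun x hx c hc => hXV x (hYP x (hKY hx)).2.1 c (hYP _ (hKY hc)).2.1)
    (c₀ := 1 / (2 * (n : ℝ) + 2) * (δ ^ 2 / 20)) (by (clear * - hδ0; positivity)) ?_
  intro ε hε
  -- choose `ρ`
  obtain ⟨ρ, hρ1, hρε⟩ : ∃ ρ : ℝ, 1 ≤ ρ ∧ Real.exp (1 - ρ) ≤ ε / 2 := by
    refine ⟨max 1 (1 - Real.log (ε / 2)), le_max_left _ _, ?_⟩
    have h1 := le_max_right 1 (1 - Real.log (ε / 2))
    calc Real.exp (1 - max 1 (1 - Real.log (ε / 2))) ≤ Real.exp (Real.log (ε / 2)) :=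
          Real.exp_le_exp.mpr (by linarith only [h1])
      _ = ε / 2 := Real.exp_log (by positivity)
  obtain ⟨d, hd, hwin⟩ := window ρ
  have hd' : 0 < min d (min δa (ε / 2)) := by (clear * - hδa hε hd; positivity)
  have hU : {h : G n | (∀ k l, |h.1 k l - (1 : Matrix (Fin n) (Fin n) ℝ) k l| ≤
      min d (min δa (ε / 2))) ∧ cA0 i j h ≤ min d (min δa (ε / 2)) ∧
      cA1 i j h ≤ min d (min δa (ε / 2)) ∧ cA2 i j h ≤ min d (min δa (ε / 2))} ∈ 𝓝 (1 : G n) :=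
    eventually_small i j hij hd'
  obtain ⟨m, ⟨h, ⟨hh1, hh2, hh3, hh4⟩, hmx, hmG⟩, hm1⟩ :=
    ((hxP _ hU).and_eventually (eventually_ge_atTop 1)).exists
  have hle1 : min d (min δa (ε / 2)) ≤ d := min_le_left _ _
  have hle2 : min d (min δa (ε / 2)) ≤ δa := (min_le_right _ _).trans (min_le_left _ _)
  have hle3 : min d (min δa (ε / 2)) ≤ ε / 2 := (min_le_right _ _).trans (min_le_right _ _)
  have hnC : ¬ Cent i j h := harith h (fun k l => (hh1 k l).trans hle2) m hm1 x hmx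
  have hlam : L.lam x = L.lam (tr h x) := by
    rw [← hmx, ← zpow_natCast]
    exact (hXc' x hxG.2.1 m).symm
  rw [hmx] at hmG
  -- bad times
  obtain ⟨T, v, hT, hv, hv', hgap, hA0, hg1, hg2⟩ := hwin (cA0 i j h) (cA1 i j h) (cA2 i j h)
    (cA1_nonneg i j h) (cA2_nonneg i j h) (hh2.trans hle1) (hh3.trans hle1) (hh4.trans hle1)
    (pos_of_not_cent hnC) {k : ℤ | tr (av i j k) x ∉ W} {k : ℤ | tr (av i j k) (tr h x) ∉ W}
    (fun N hN => by convert hGdP x hxG.2.2 N hN) (fun N hN => by convert hGdP _ hmG.2.2 N hN)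
  simp only [Set.mem_ofPred_eq, not_not] at hT hv hv'
  have htim : Tim i j h (ε / 2) ρ T v :=
    ⟨fun k l => (hh1 k l).trans hle3, hgap, hA0, hg1, hg2⟩
  obtain ⟨x', hx'K, c, hcK, hcl, hc1, hc2, hc3⟩ := pair hij L (fun x hx => (hYP x hx).1)
    (fun x hx => (hYP x hx).2.2.2) hKY hKc.isClosed.measurableSet htim (by (clear * - hε; positivity)) hρ1
    hxG.1.1 hmG.1.1 hlam (hYlP x hxG.1.2) (hYlP _ hmG.1.2) (hWP _ hT).1 (hWP _ hT).2.1 hδ0 hδ1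
    (hWP _ hv).2.2 (hWP _ hv').2.2
  refine ⟨x', hx'K, c, hcK, hcl, fun k l hkl => (hc1 k l hkl).trans ?_, hc2, hc3⟩
  linarith only [hρε]

theorem low_gen (hn : 3 ≤ n) (μ : Measure (X n)) [IsProbabilityMeasure μ] (hA : AInv μ) (hP : Pure μ)
    {i j : Fin n} (hij : i ≠ j) (h1 : ¬ Triv μ i j)
    (h2 : ∀ l, l ≠ i → l ≠ j → Triv μ i l ∧ Triv μ l j) : UInv μ i j := by
  by_contra hU
  obtain ⟨β, hβ, hari⟩ := arith_gen hn hij
  obtain ⟨L⟩ := exists_leafwise μ hA hij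
  have hsym : ∀ᵐ x ∂μ, ∀ σ : ℝ, (∃ c : ℝ≥0∞, c ≠ 0 ∧ c ≠ ∞ ∧
      (L.lam x).map (fun t => t - σ) = c • L.lam x) → σ = 0 := by
    by_contra hcon
    exact hU (L.uinv_of_sym hA hP hij hcon)
  obtain ⟨Xc, -, hXc, hXc0, hXc', -⟩ := L.const hA β (by rw [hβ])
  obtain ⟨XV, hXV, hXV0, hXV'⟩ := lemmaV μ hA ({i, j} : Set (Fin n)) hij (by simp) (by simp)
    (fun l hl => h2 l (fun h => hl (by simp [h])) (fun h => hl (by simp [h])))
  refine low_core_gen μ hA hij β hari L (fun E hE hE0 => L.ae_leaf hE hE0)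
    ⟨Xc, hXc, hXc0, fun x hx k => (hXc' x hx k).2⟩ (L.noAtoms hA hP hij h1) hsym
    ⟨XV, hXV, hXV0, fun x hx c hc hd hoff l hli hlj => ?_⟩
  refine hXV' x hx c hc hd (fun k l hkl e1 e2 e3 => hoff k l hkl ?_) l (by simp [hli, hlj])
  rintro ⟨h3 | h3, h4, h5⟩
  · subst h3
    by_cases h6 : l = j
    · exact e1 ⟨rfl, h6⟩
    · exact e2 ⟨rfl, by simp [h5, h6]⟩
  · subst h3
    by_cases h6 : k = i
    · exact e1 ⟨h6, rfl⟩
    · exact e3 ⟨by simp [h6, h4], rfl⟩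


end Vale.Agent.P007.H11
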