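import Vale.Agent.P007.H11.Fin
import Vale.Agent.P007.H11.Low

/-! The structure theorem in every degree `n ≥ 3`. -/

set_option autoImplicit false

open MeasureTheory Matrix Filter Topology ProbabilityTheory
open scoped ENNReal

namespace Vale.Agent.P007.H11

open Vale.Agent.P007 Vale.Agent.P007.Koopman Vale.Agent.P007.Mautner Vale.Agent.P007.R
  Vale.Agent.P007.R.Blk

variable {n : ℕ}

theorem pure_dichotomy_gen (hn : 3 ≤ n) (hn1 : 1 < n) (μ : Measure (X n)) [IsProbabilityMeasure μ]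
    (hA : AInv μ) (hS : Star μ) (hP : Pure μ) (hR : μ (RMs n) = 0) : IsInvProb μ := by
  classical
  set F : Set (Fin n × Fin n) := {p | p.1 ≠ p.2 ∧ ¬ Triv μ p.1 p.2} with hF
  have hF1 : ∀ i j, i ≠ j → (i, j) ∉ F → Triv μ i j := by
    intro i j hij h
    by_contra h1
    exact h ⟨hij, h1⟩
  have hhigh : ∀ i j k : Fin n, i ≠ k → (i, j) ∈ F → (j, k) ∈ F → UInv μ i k :=
    fun i j k hik h1 h2 => high μ hA hP h1.1 h2.1 hik h1.2 h2.2
  have hUF : ∀ i j : Fin n, i ≠ j → UInv μ i j → (i, j) ∈ F :=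
    fun i j hij hU => ⟨hij, not_triv_of_uinv hij hU⟩
  have hF2 : ∀ i j k, i ≠ j → j ≠ k → i ≠ k → (i, j) ∈ F → (j, k) ∈ F → (i, k) ∈ F :=
    fun i j k _ _ hik h1 h2 => hUF i k hik (hhigh i j k hik h1 h2)
  obtain ⟨i₀, j₀, hij₀, hF3, hF4⟩ := star_cycle_of_names (names n) hn1 μ hA hS F hF1 hF2
  let B : Finset (Fin n) := Finset.univ.filter fun k => k = i₀ ∨ ((i₀, k) ∈ F ∧ (k, i₀) ∈ F)
  have hB : ∀ k, k ∈ B ↔ k = i₀ ∨ ((i₀, k) ∈ F ∧ (k, i₀) ∈ F) := by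
    intro k; simp only [Finset.mem_filter, Finset.mem_univ, true_and, B]
  have hi₀ : i₀ ∈ B := (hB _).2 (Or.inl rfl)
  have hj₀ : j₀ ∈ B := (hB _).2 (Or.inr ⟨hF3, hF4⟩)
  have hBF : ∀ k ∈ B, ∀ l ∈ B, k ≠ l → (k, l) ∈ F := by
    intro k hk l hl hkl
    rcases (hB k).1 hk with rfl | ⟨h1, h2⟩
    · rcases (hB l).1 hl with rfl | ⟨h3, h4⟩
      · exact absurd rfl hkl
      · exact h3
    · rcases (hB l).1 hl with rfl | ⟨h3, h4⟩
      · exact h2
      · exact hF2 k i₀ l h2.1 h3.1 hkl h2 h3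
  -- an index linked in both directions to a point of `B` is in `B`
  have hBc : ∀ k ∈ B, ∀ l, (k, l) ∈ F → (l, k) ∈ F → l ∈ B := by
    intro k hk l h1 h2
    by_cases hl : l = i₀
    · rw [hl]; exact hi₀
    by_cases hk0 : k = i₀
    · rw [hk0] at h1 h2
      exact (hB l).2 (Or.inr ⟨h1, h2⟩)
    · have h3 := hBF k hk i₀ hi₀ hk0
      have h4 := hBF i₀ hi₀ k hk (Ne.symm hk0)
      exact (hB l).2 (Or.inr ⟨hF2 _ _ _ h4.1 h1.1 (Ne.symm hl) h4 h1,
        hF2 _ _ _ h2.1 h3.1 hl h2 h3⟩)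
  have hother : ∀ k ∈ B, ∃ k' ∈ B, k' ≠ k := by
    intro k hk
    by_cases h : k = i₀
    · exact ⟨j₀, hj₀, by rw [h]; exact hij₀.symm⟩
    · exact ⟨i₀, hi₀, Ne.symm h⟩
  have hout : ∀ k ∈ B, ∀ l ∉ B, Triv μ k l ∧ Triv μ l k := by
    intro k hk l hl
    have hkl : k ≠ l := fun h => hl (h ▸ hk)
    obtain ⟨k', hk', hkk'⟩ := hother k hk
    have hkl' : k' ≠ l := fun h => hl (h ▸ hk')
    constructor
    · refine hF1 k l hkl fun h => hl ?_
      have hU : UInv μ k' l := hhigh k' k l hkl' (hBF k' hk' k hk hkk') h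
      have h1 := haar_symm_of_names (names n) μ hA F hF1 hF2 hkl' hU
      exact hBc k' hk' l (hUF _ _ hkl' hU) h1
    · refine hF1 l k hkl.symm fun h => hl ?_
      have hU : UInv μ l k' := hhigh l k k' hkl'.symm h (hBF k hk k' hk' hkk'.symm)
      have h1 := haar_symm_of_names (names n) μ hA F hF1 hF2 hkl'.symm hU
      exact hBc k' hk' l h1 (hUF _ _ hkl'.symm hU)
  have hU : ∀ i ∈ B, ∀ j ∈ B, i ≠ j → UInv μ i j := by
    intro i hi j hj hij
    by_cases h3 : ∃ k ∈ B, k ≠ i ∧ k ≠ j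
    · obtain ⟨k, hk, hki, hkj⟩ := h3
      exact hhigh i k j hij (hBF i hi k hk hki.symm) (hBF k hk j hj hkj)
    · push Not at h3
      refine low_gen hn μ hA hP hij (hBF i hi j hj hij).2 fun l hli hlj => ?_
      have hl : l ∉ B := fun h => hlj (h3 l h hli)
      exact ⟨(hout i hi l hl).1, (hout j hj l hl).2⟩
  have hB2 : 2 ≤ B.card := Finset.one_lt_card.2 ⟨i₀, hi₀, j₀, hj₀, hij₀⟩
  have hBu : B = Finset.univ := by
    by_contra hne
    exact blocks_rm μ hA B hB2 hne hU hout hR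
  refine isInvProb_of_uinv μ hn1 fun i j hij => ?_
  exact hU i (by rw [hBu]; exact Finset.mem_univ _) j (by rw [hBu]; exact Finset.mem_univ _) hij

theorem structure_gen (hn : 3 ≤ n) (hn1 : 1 < n) (μ : Measure (X n)) [IsProbabilityMeasure μ]
    (hA : AInv μ) (hS : Star μ) {m : Measure (X n)} (hm : IsInvProb m) :
    μ.restrict (RMs n)ᶜ = μ (RMs n)ᶜ • m := by
  by_cases h0 : μ (RMs n)ᶜ = 0
  · rw [h0, zero_smul, Measure.restrict_eq_zero]
    exact h0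
  have hAR : AEInv μ (RMs n)ᶜ := ⟨measurableSet_RMs.compl, fun β => by
    rw [Set.preimage_compl]
    exact ((aeInv_RMs μ).2 β).compl⟩
  have key : ∀ Ω₀ ⊆ (RMs n)ᶜ, AEInv μ Ω₀ → μ Ω₀ ≠ 0 → ∃ Ω ⊆ Ω₀, AEInv μ Ω ∧ μ Ω ≠ 0 ∧
      nrm μ Ω = m := by
    intro Ω₀ hsub h0 h0'
    obtain ⟨Ω, h1, h2, h3, h4⟩ := exists_pure μ hA h0 h0'
    have := nrm_prob μ h3
    refine ⟨Ω, h1, h2, h3, unique_inv _ _ (pure_dichotomy_gen hn hn1 (nrm μ Ω) (hA.nrm h2)
      (hS.nrm h3) h4 ?_) hm⟩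
    rw [nrm, Measure.smul_apply, Measure.restrict_apply measurableSet_RMs]
    have h5 : RMs n ∩ Ω = ∅ := by
      ext x
      simp only [Set.mem_inter_iff, Set.mem_empty_iff_false, iff_false, not_and]
      exact fun hx hx' => hsub (h1 hx') hx
    rw [h5, measure_empty, smul_zero]
  obtain ⟨Ω, hsub, hΩ, hΩ0, hinv⟩ := key _ subset_rfl hAR h0
  have hcompl : μ ((RMs n)ᶜ \ Ω) = 0 := by
    by_contra hne
    have hΩc : AEInv μ ((RMs n)ᶜ \ Ω) := ⟨hAR.1.diff hΩ.1, fun β => by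
      rw [Set.preimage_sdiff]
      exact (hAR.2 β).diff (hΩ.2 β)⟩
    obtain ⟨Ω', hsub', hΩ', hΩ'0, hinv'⟩ := key _ Set.sdiff_subset hΩc hne
    have h1 : nrm μ Ω Ω = 1 := by
      rw [nrm, Measure.smul_apply, Measure.restrict_apply_self, smul_eq_mul,
        ENNReal.inv_mul_cancel hΩ0 (measure_ne_top _ _)]
    have h2 : nrm μ Ω' Ω = 0 := by
      have h3 : Ω ∩ Ω' = ∅ := by
        ext x
        simp only [Set.mem_inter_iff, Set.mem_empty_iff_false, iff_false, not_and]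
        exact fun hx hx' => (hsub' hx').2 hx
      rw [nrm, Measure.smul_apply, Measure.restrict_apply hΩ.1, h3, measure_empty, smul_zero]
    rw [hinv, ← hinv', h2] at h1
    exact zero_ne_one h1
  have h1 : μ.restrict (RMs n)ᶜ = μ.restrict Ω := by
    refine Measure.restrict_congr_set ?_
    rw [Filter.eventuallyEq_set]
    have h2 : ∀ᵐ x ∂μ, x ∉ (RMs n)ᶜ \ Ω := by
      rw [ae_iff]
      refine measure_mono_null (fun x hx => ?_) hcompl
      exact not_not.1 hx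
    filter_upwards [h2] with x hx
    constructor
    · intro h3
      by_contra h4
      exact hx ⟨h3, h4⟩
    · exact fun h3 => hsub h3
  have h2 : μ.restrict Ω = μ Ω • m := by
    rw [← hinv, nrm, smul_smul, ENNReal.mul_inv_cancel hΩ0 (measure_ne_top _ _), one_smul]
  have h3 : μ (RMs n)ᶜ = μ Ω := by
    have h4 := congrArg (fun ν : Measure (X n) => ν Set.univ) h1
    simpa using h4
  rw [h1, h2, h3]

theorem pure_blocks_gen (hn : 3 ≤ n) (hn1 : 1 < n) (μ : Measure (X n)) [IsProbabilityMeasure μ]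
    (hA : AInv μ) (hS : Star μ) (hP : Pure μ) : ∃ B : Finset (Fin n), 2 ≤ B.card ∧
      (∀ i ∈ B, ∀ j ∈ B, i ≠ j → UInv μ i j) ∧ ∀ i ∈ B, ∀ l ∉ B, Triv μ i l ∧ Triv μ l i := by
  classical
  set F : Set (Fin n × Fin n) := {p | p.1 ≠ p.2 ∧ ¬ Triv μ p.1 p.2} with hF
  have hF1 : ∀ i j, i ≠ j → (i, j) ∉ F → Triv μ i j := by
    intro i j hij h
    by_contra h1
    exact h ⟨hij, h1⟩
  have hhigh : ∀ i j k : Fin n, i ≠ k → (i, j) ∈ F → (j, k) ∈ F → UInv μ i k :=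
    fun i j k hik h1 h2 => high μ hA hP h1.1 h2.1 hik h1.2 h2.2
  have hUF : ∀ i j : Fin n, i ≠ j → UInv μ i j → (i, j) ∈ F :=
    fun i j hij hU => ⟨hij, not_triv_of_uinv hij hU⟩
  have hF2 : ∀ i j k, i ≠ j → j ≠ k → i ≠ k → (i, j) ∈ F → (j, k) ∈ F → (i, k) ∈ F :=
    fun i j k _ _ hik h1 h2 => hUF i k hik (hhigh i j k hik h1 h2)
  obtain ⟨i₀, j₀, hij₀, hF3, hF4⟩ := star_cycle_of_names (names n) hn1 μ hA hS F hF1 hF2
  let B : Finset (Fin n) := Finset.univ.filter fun k => k = i₀ ∨ ((i₀, k) ∈ F ∧ (k, i₀) ∈ F)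
  have hB : ∀ k, k ∈ B ↔ k = i₀ ∨ ((i₀, k) ∈ F ∧ (k, i₀) ∈ F) := by
    intro k; simp only [Finset.mem_filter, Finset.mem_univ, true_and, B]
  have hi₀ : i₀ ∈ B := (hB _).2 (Or.inl rfl)
  have hj₀ : j₀ ∈ B := (hB _).2 (Or.inr ⟨hF3, hF4⟩)
  have hBF : ∀ k ∈ B, ∀ l ∈ B, k ≠ l → (k, l) ∈ F := by
    intro k hk l hl hkl
    rcases (hB k).1 hk with rfl | ⟨h1, h2⟩
    · rcases (hB l).1 hl with rfl | ⟨h3, h4⟩
      · exact absurd rfl hkl
      · exact h3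
    · rcases (hB l).1 hl with rfl | ⟨h3, h4⟩
      · exact h2
      · exact hF2 k i₀ l h2.1 h3.1 hkl h2 h3
  -- an index linked in both directions to a point of `B` is in `B`
  have hBc : ∀ k ∈ B, ∀ l, (k, l) ∈ F → (l, k) ∈ F → l ∈ B := by
    intro k hk l h1 h2
    by_cases hl : l = i₀
    · rw [hl]; exact hi₀
    by_cases hk0 : k = i₀
    · rw [hk0] at h1 h2
      exact (hB l).2 (Or.inr ⟨h1, h2⟩)
    · have h3 := hBF k hk i₀ hi₀ hk0
      have h4 := hBF i₀ hi₀ k hk (Ne.symm hk0)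
      exact (hB l).2 (Or.inr ⟨hF2 _ _ _ h4.1 h1.1 (Ne.symm hl) h4 h1,
        hF2 _ _ _ h2.1 h3.1 hl h2 h3⟩)
  have hother : ∀ k ∈ B, ∃ k' ∈ B, k' ≠ k := by
    intro k hk
    by_cases h : k = i₀
    · exact ⟨j₀, hj₀, by rw [h]; exact hij₀.symm⟩
    · exact ⟨i₀, hi₀, Ne.symm h⟩
  have hout : ∀ k ∈ B, ∀ l ∉ B, Triv μ k l ∧ Triv μ l k := by
    intro k hk l hl
    have hkl : k ≠ l := fun h => hl (h ▸ hk)
    obtain ⟨k', hk', hkk'⟩ := hother k hk
    have hkl' : k' ≠ l := fun h => hl (h ▸ hk')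
    constructor
    · refine hF1 k l hkl fun h => hl ?_
      have hU : UInv μ k' l := hhigh k' k l hkl' (hBF k' hk' k hk hkk') h
      have h1 := haar_symm_of_names (names n) μ hA F hF1 hF2 hkl' hU
      exact hBc k' hk' l (hUF _ _ hkl' hU) h1
    · refine hF1 l k hkl.symm fun h => hl ?_
      have hU : UInv μ l k' := hhigh l k k' hkl'.symm h (hBF k hk k' hk' hkk'.symm)
      have h1 := haar_symm_of_names (names n) μ hA F hF1 hF2 hkl'.symm hU
      exact hBc k' hk' l h1 (hUF _ _ hkl'.symm hU)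
  have hU : ∀ i ∈ B, ∀ j ∈ B, i ≠ j → UInv μ i j := by
    intro i hi j hj hij
    by_cases h3 : ∃ k ∈ B, k ≠ i ∧ k ≠ j
    · obtain ⟨k, hk, hki, hkj⟩ := h3
      exact hhigh i k j hij (hBF i hi k hk hki.symm) (hBF k hk j hj hkj)
    · push Not at h3
      refine low_gen hn μ hA hP hij (hBF i hi j hj hij).2 fun l hli hlj => ?_
      have hl : l ∉ B := fun h => hlj (h3 l h hli)
      exact ⟨(hout i hi l hl).1, (hout j hj l hl).2⟩
  have hB2 : 2 ≤ B.card := Finset.one_lt_card.2 ⟨i₀, hi₀, j₀, hj₀, hij₀⟩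
  exact ⟨B, hB2, hU, hout⟩


theorem component_gen (hn : 3 ≤ n) (hn1 : 1 < n) (ν : Measure (X n)) [IsProbabilityMeasure ν]
    (hA : AInv ν) (hS : Star ν) {Ω₀ : Set (X n)}
    (hsub : Ω₀ ⊆ RMs n) (h0 : AEInv ν Ω₀) (h0' : ν Ω₀ ≠ 0) : ∃ Ω ⊆ Ω₀, AEInv ν Ω ∧ ν Ω ≠ 0 ∧
      ∃ p : {p : Fin n → ℝ // IsMult p}, Homog p.1 (ν.restrict Ω) := by
  classical
  obtain ⟨Ω₁, hΩ₁, hAE₁, h1, hP⟩ := exists_pure ν hA h0 h0'
  have hprob := nrm_prob ν h1
  obtain ⟨B, hB, hU, hout⟩ := pure_blocks_gen hn hn1 (nrm ν Ω₁) (hA.nrm hAE₁) (hS.nrm h1) hP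
  have hBu : B ≠ Finset.univ := by
    intro hBu
    have hinv : IsInvProb (nrm ν Ω₁) := isInvProb_of_uinv (nrm ν Ω₁) hn1 fun i j hij =>
      hU i (by rw [hBu]; exact Finset.mem_univ _) j (by rw [hBu]; exact Finset.mem_univ _) hij
    have h2 := inv_RMs hinv
    rw [nrm, Measure.smul_apply, Measure.restrict_apply measurableSet_RMs,
      Set.inter_eq_self_of_subset_right (hΩ₁.trans hsub), smul_eq_mul,
      ENNReal.inv_mul_cancel h1 (measure_ne_top _ _)] at h2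
    exact one_ne_zero h2
  obtain ⟨p, hp, hlev, hY⟩ := blocks_rm' (nrm ν Ω₁) (hA.nrm hAE₁) B hB hBu hU hout
  have hAE : AEInv ν (Yd p ∩ Ω₁) := aeInv_inter (Yd_aeInv ν p) hAE₁
  have h2 : ν (Yd p ∩ Ω₁) ≠ 0 := by
    intro h3
    apply hY
    rw [nrm, Measure.smul_apply, Measure.restrict_apply (isClosed_Yd p).measurableSet, h3,
      smul_zero]
  refine ⟨Yd p ∩ Ω₁, Set.inter_subset_right.trans hΩ₁, hAE, h2, ⟨p, hp⟩, ?_⟩
  have hinv0 : (ν (Yd p ∩ Ω₁))⁻¹ ≠ 0 := ENNReal.inv_ne_zero.2 (measure_ne_top _ _)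
  have hinvt : (ν (Yd p ∩ Ω₁))⁻¹ ≠ ∞ := ENNReal.inv_ne_top.2 h2
  refine Homog.of_smul hinv0 hinvt ?_
  have hprob2 := nrm_prob ν h2
  refine homog_of_block hp (nrm ν (Yd p ∩ Ω₁)) (hA.nrm hAE) ?_ hB hlev ?_
  · have h3 : (Yd p)ᶜ ∩ (Yd p ∩ Ω₁) = ∅ := by
      ext x
      simp only [Set.mem_inter_iff, Set.mem_compl_iff, Set.mem_empty_iff_false, iff_false, not_and]
      exact fun hx hx' => absurd hx' hx
    rw [nrm, Measure.smul_apply, Measure.restrict_apply (isClosed_Yd p).measurableSet.compl, h3,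
      measure_empty, smul_zero]
  · intro i hi j hj hij
    have h3 := uinv_restrict (hA.nrm hAE₁) hij (hU i hi j hj hij) (Yd_aeInv (nrm ν Ω₁) p)
    rw [nrm_restrict ν Ω₁ (Yd p) (isClosed_Yd p).measurableSet] at h3
    exact (h3.of_smul (ENNReal.inv_ne_zero.2 (measure_ne_top _ _))
      (ENNReal.inv_ne_top.2 h1)).smul _

theorem decomposition_gen (hn : 3 ≤ n) (hn1 : 1 < n) (ν : Measure (X n)) [IsProbabilityMeasure ν]
    (hA : AInv ν) (hS : Star ν) {m : Measure (X n)} (hm : IsInvProb m) :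
    ∃ κ : {p : Fin n → ℝ // IsMult p} → Measure (X n), (∀ p, Homog p.1 (κ p)) ∧
      ν = ν (RMs n)ᶜ • m + Measure.sum κ := by
  have : Countable {p : Fin n → ℝ // IsMult p} := countable_isMult.to_subtype
  obtain ⟨S, hS1, hS2⟩ := exhaustion (ν := ν) (ι := {p : Fin n → ℝ // IsMult p}) (AEInv ν)
    (fun s hs => hs.1) ⟨MeasurableSet.empty, fun β => Filter.EventuallyEq.rfl⟩
    (fun s t hs ht => ⟨hs.1.diff ht.1, fun β => by
      rw [Set.preimage_sdiff]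
      exact (hs.2 β).diff (ht.2 β)⟩)
    (fun s hs => ⟨MeasurableSet.iUnion fun k => (hs k).1, fun β => by
      rw [Set.preimage_iUnion]
      exact Filter.EventuallyEq.countable_iUnion fun k => (hs k).2 β⟩)
    (R := RMs n) (aeInv_RMs ν) (fun p Ω => Homog p.1 (ν.restrict Ω))
    (fun s hs hP h0 => component_gen hn hn1 ν hA hS hs hP h0)
  refine ⟨fun k => Measure.sum fun m => ν.restrict (S k m), fun k => Homog.sum fun m => ?_, ?_⟩
  · rcases (hS1 k m).2.2 with h | h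
    · exact h
    · rw [h, Measure.restrict_empty]
      exact Homog.zero _
  · rw [← hS2, ← structure_gen hn hn1 ν hA hS hm, add_comm]
    exact (Measure.restrict_add_restrict_compl measurableSet_RMs).symm

theorem decomposition_sg_gen (hn : 3 ≤ n) (hn1 : 1 < n) (ν : Measure (X n)) [IsProbabilityMeasure ν]
    (hA : AInv ν) (hS : Star ν) (hW : SInv ν) {m : Measure (X n)} (hm : IsInvProb m) :
    ∃ κ : {p : Fin n → ℝ // IsMult p} → Measure (X n), (∀ p, Homog p.1 (κ p) ∧ SInv (κ p)) ∧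
      ν = ν (RMs n)ᶜ • m + Measure.sum κ := by
  obtain ⟨κ, hκ, hν⟩ := decomposition_gen hn hn1 ν hA hS hm
  refine ⟨fun p => avg (κ p), fun p => ⟨(hκ p).avg, sInv_avg _⟩, ?_⟩
  have h1 := congrArg avg hν
  rwa [avg_of_sInv hW, avg_add, avg_smul, avg_of_sInv (sInv_of_inv hm), avg_sum] at h1

theorem structure_dec_gen (hn : 3 ≤ n) (hn1 : 1 < n) (ν : Measure (X n)) [IsProbabilityMeasure ν]
    (hA : AInv ν) (hS : Star ν) (hW : SInv ν) {m : Measure (X n)} (hm : IsInvProb m) :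
    ∃ κ : Measure (X n), Dec IsMult κ ∧ ν = ν (RMs n)ᶜ • m + κ := by
  obtain ⟨κ, hκ, hν⟩ := decomposition_sg_gen hn hn1 ν hA hS hW hm
  have hc : Countable {p : Fin n → ℝ // IsMult p} := countable_isMult.to_subtype
  refine ⟨Measure.sum κ, Dec.sum fun p => ?_, hν⟩
  have hle : κ p ≤ ν := by
    conv_rhs => rw [hν]
    exact (Measure.le_sum κ p).trans (Measure.le_add_left le_rfl)
  have := isFiniteMeasure_of_le ν hle
  exact (pieces (hκ p).1 (hκ p).2).mono fun q hq => hq ▸ p.2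

theorem structure_prime_gen (hn : 3 ≤ n) (hn1 : 1 < n) (ν : Measure (X n)) [IsProbabilityMeasure ν]
    (hA : AInv ν) (hS : Star ν) (hW : SInv ν) {m : Measure (X n)} (hm : IsInvProb m)
    {p : Fin n → ℝ} {f : Polynomial ℤ} {k : ℕ}
    (hf : f.Monic) (hfi : Irreducible f) (hroot : ∀ j, Polynomial.aeval (p j) f = 0)
    (hf1 : 1 < f.natDegree) (hk : k.Prime) (hkn : f.natDegree * k = n) (hY : ν (Yd p)ᶜ = 0) :
    Dec (fun q => q = p) ν := by
  obtain ⟨κ, hκ, hν⟩ := decomposition_gen hn hn1 ν hA hS hm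
  exact pieces (homog_of_prime hn1 ν hκ hν hf hfi hroot hf1 hk hkn hY) hW


end Vale.Agent.P007.H11
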