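import Vale.Agent.P007.H11.Fin
import Vale.Agent.P007.H11.Defs2

/-! The structure of the weak limits in terms of the definitions of `StmtF`, `Defs` and `Defs2`. -/

set_option autoImplicit false

open MeasureTheory Matrix NumberField Filter Topology
open scoped ENNReal nonZeroDivisors CompactlySupported

namespace Vale.Agent.P007.H11

open Vale.Agent.P007 Vale.Agent.P007.Koopman Vale.Agent.P007.R

variable {n : ℕ}

/-- properties of the limits -/
theorem limit_props (hn : Odd n) (hn3 : 3 ≤ n) (D : ℕ → Datum n)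
    (hdisc : Tendsto (fun i => (D i).disc) atTop atTop)
    (ν : Measure (X n)) [IsFiniteMeasure ν]
    (hν : ∀ f : C_c(X n, ℝ), Tendsto (fun i => ∫ x, f x ∂(D i).packetMeas) atTop
      (𝓝 (∫ x, f x ∂ν))) :
    IsProbabilityMeasure ν ∧ AInv ν ∧ Star ν := by
  obtain ⟨ν', h1, h2, h3, h4⟩ := exists_limit_odd hn hn3 D hdisc (Ultrafilter.of atTop)
    (Ultrafilter.of_le atTop)
  have heq : ν = ν' := ext_cc fun f =>
    tendsto_nhds_unique ((hν f).mono_left (Ultrafilter.of_le atTop)) (h4 f)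
  subst heq
  exact ⟨h1, h2, h3⟩

/-- translates of test functions -/
theorem exists_comp (f : C_c(X n, ℝ)) (g : G n) : ∃ f' : C_c(X n, ℝ), ∀ x, f' x = f (tr g x) := by
  have hc : HasCompactSupport fun x => f (tr g x) := by
    refine HasCompactSupport.intro (K := (tr g⁻¹ : X n → X n) '' tsupport f)
      (f.hasCompactSupport.isCompact.image (continuous_tr _)) ?_
    intro x hx
    refine image_eq_zero_of_notMem_tsupport fun h => hx ⟨_, h, ?_⟩
    rw [tr_tr, mul_inv_cancel, Vale.Agent.P007.tr_one]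
  exact ⟨⟨⟨fun x => f (tr g x), f.continuous.comp (continuous_tr g)⟩, hc⟩, fun x => rfl⟩

/-- limits of measures invariant under `g` are invariant under `g` -/
theorem map_of_limit {μ : ℕ → Measure (X n)} (ν : Measure (X n)) [IsFiniteMeasure ν]
    (hν : ∀ f : C_c(X n, ℝ), Tendsto (fun i => ∫ x, f x ∂(μ i)) atTop (𝓝 (∫ x, f x ∂ν)))
    {g : G n} (hg : ∀ i, (μ i).map (tr g) = μ i) : ν.map (tr g) = ν := by
  have hfin : IsFiniteMeasure (ν.map (tr g)) :=
    Measure.isFiniteMeasure_map ν (tr g)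
  refine ext_cc fun f => ?_
  have hfc : ∀ κ : Measure (X n), AEStronglyMeasurable (fun x => f x) κ := fun κ =>
    f.continuous.aestronglyMeasurable
  rw [integral_map (measurable_tr g).aemeasurable (hfc _)]
  obtain ⟨f', hf'⟩ := exists_comp f g
  have h1 := hν f'
  simp only [hf'] at h1
  refine tendsto_nhds_unique h1 ?_
  refine (hν f).congr fun i => ?_
  conv_lhs => rw [← hg i]
  rw [integral_map (measurable_tr g).aemeasurable (hfc _)]

/-- a closed set of full measure for all members of the sequence has full measure for the limit -/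
theorem null_of_limit {μ : ℕ → Measure (X n)} (hμ : ∀ i, IsProbabilityMeasure (μ i))
    (ν : Measure (X n)) [IsProbabilityMeasure ν]
    (hν : ∀ f : C_c(X n, ℝ), Tendsto (fun i => ∫ x, f x ∂(μ i)) atTop (𝓝 (∫ x, f x ∂ν)))
    {Y : Set (X n)} (hY : IsClosed Y) (h : ∀ i, μ i Yᶜ = 0) : ν Yᶜ = 0 := by
  have h1 := open_le (U := Ultrafilter.of atTop) hμ (ν := ν)
    (fun f => (hν f).mono_left (Ultrafilter.of_le atTop)) hY.isOpen_compl (c := 0) le_rfl
    (Eventually.of_forall fun i => by rw [h i]; exact zero_le)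
  rw [ENNReal.ofReal_zero] at h1
  exact le_antisymm h1 zero_le

end Vale.Agent.P007.H11

namespace Vale.Agent.P007.F

variable {n : ℕ}

theorem homog_iff (p : Fin n → ℝ) (κ : Measure (X n)) (h : H11.Hom1 (n := n) p κ) :
    Homog p κ := by
  obtain ⟨h1, ⟨x, hx, hxc, hx1⟩, h2⟩ := h
  refine ⟨h1, fun k hk => h2 k hk, x, ?_, hxc, hx1⟩
  rw [stab_eq]
  exact hx

theorem comb_of {P : (Fin n → ℝ) → Prop} {κ : Measure (X n)} (h : H11.Dec (n := n) P κ) :
    Comb P κ := by
  obtain ⟨J, hJ, c, κ', h1, h2⟩ := h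
  refine ⟨J, hJ, c, κ', fun k => ?_, h2⟩
  obtain ⟨p, hp, hp'⟩ := h1 k
  exact ⟨p, hp, homog_iff p _ hp'⟩

section Seq

variable {K : ℕ → Type} [∀ i, Field (K i)] [∀ i, NumberField (K i)] {O : ∀ i, Subring (𝓞 (K i))}
  {σ : ∀ i, Fin n ≃ (K i →+* ℝ)} {μ : ℕ → Measure (X n)}

/-- **All weak limits in odd degree are algebraic.** -/
theorem algebraic (hn : Odd n) (hn3 : 3 ≤ n) (h : ∀ i, PacketMeas (K i) (O i) (σ i) (μ i))
    (hdisc : Tendsto (fun i => disc (K i) (O i)) atTop atTop) {m : Measure (X n)}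
    (hm : IsInvProb m) (ν : Measure (X n)) [IsFiniteMeasure ν]
    (hν : ∀ f : C_c(X n, ℝ), Tendsto (fun i => ∫ x, f x ∂μ i) atTop (𝓝 (∫ x, f x ∂ν))) :
    WeakTo μ ν ∧ IsProbabilityMeasure ν ∧
      ∃ κ : Measure (X n), Comb IsMult κ ∧ ν = ν (RM n)ᶜ • m + κ := by
  have hsg : ∀ i, ∀ g ∈ H11.W n, (μ i).map (tr g) = μ i := by
    rintro i g ⟨w, hw⟩
    exact packetMeas_sign (h i) w g hw
  have h1 := seq_eq h
  have key := fun (ν' : Measure (Vale.Agent.P007.X n)) (_ : IsFiniteMeasure ν') =>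
      H11.limit_props (n := n) hn hn3 (fun i => T.mkD (isDatum (h i).1)) hdisc ν'
  obtain ⟨h2, h3, h4⟩ := key ν ‹IsFiniteMeasure ν› (by rw [h1] at hν; exact hν)
  have hW : H11.SInv (n := n) ν := fun g hg => by
    have key2 := fun (ν' : Measure (Vale.Agent.P007.X n)) (_ : IsFiniteMeasure ν') =>
      H11.map_of_limit (n := n) (μ := μ) ν'
    exact key2 ν ‹IsFiniteMeasure ν› hν (g := g) fun i => hsg i g hg
  refine ⟨⟨hν, fun ε hε => ?_⟩, h2, ?_⟩
  · obtain ⟨C, hC, hCe⟩ := H11.tightness (n := n) hn hn3 (fun i => T.mkD (isDatum (h i).1))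
      hdisc ε hε
    refine ⟨C, hC, ?_⟩
    rw [h1]
    exact hCe
  · have key3 := fun (ν' : Measure (Vale.Agent.P007.X n)) (_ : IsProbabilityMeasure ν') =>
      H11.structure_dec (n := n) hn (by omega) ν' (m := m)
    obtain ⟨κ, hκ, hνκ⟩ := key3 ν h2 h3 h4 hW hm
    refine ⟨κ, comb_of hκ, ?_⟩
    rw [RM_eq]
    exact hνκ

/-- **Fields containing a fixed subfield, with prime relative degree.** -/
theorem algebraic_prime (hn : Odd n) (hn3 : 3 ≤ n)
    (h : ∀ i, PacketMeas (K i) (O i) (σ i) (μ i))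
    (hdisc : Tendsto (fun i => disc (K i) (O i)) atTop atTop) {m : Measure (X n)}
    (hm : IsInvProb m) {p : Fin n → ℝ} {f : Polynomial ℤ} {k : ℕ}
    (hf : f.Monic) (hfi : Irreducible f) (hroot : ∀ j, Polynomial.aeval (p j) f = 0)
    (hf1 : 1 < f.natDegree) (hk : k.Prime) (hkn : f.natDegree * k = n)
    (hp : ∀ i, ∃ a ∈ O i, ∀ j, σ i j a = p j) (ν : Measure (X n)) [IsFiniteMeasure ν]
    (hν : ∀ f : C_c(X n, ℝ), Tendsto (fun i => ∫ x, f x ∂μ i) atTop (𝓝 (∫ x, f x ∂ν))) :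
    Comb (fun q => q = p) ν := by
  have hsg : ∀ i, ∀ g ∈ H11.W n, (μ i).map (tr g) = μ i := by
    rintro i g ⟨w, hw⟩
    exact packetMeas_sign (h i) w g hw
  have h1 := seq_eq h
  have key := fun (ν' : Measure (Vale.Agent.P007.X n)) (_ : IsFiniteMeasure ν') =>
      H11.limit_props (n := n) hn hn3 (fun i => T.mkD (isDatum (h i).1)) hdisc ν'
  obtain ⟨h2, h3, h4⟩ := key ν ‹IsFiniteMeasure ν› (by rw [h1] at hν; exact hν)
  have hW : H11.SInv (n := n) ν := fun g hg => by
    have key2 := fun (ν' : Measure (Vale.Agent.P007.X n)) (_ : IsFiniteMeasure ν') =>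
      H11.map_of_limit (n := n) (μ := μ) ν'
    exact key2 ν ‹IsFiniteMeasure ν› hν (g := g) fun i => hsg i g hg
  have hY : ν (Vale.Agent.P007.Yd (n := n) p)ᶜ = 0 := by
    have key2 := fun (ν' : Measure (Vale.Agent.P007.X n)) (_ : IsProbabilityMeasure ν') =>
      H11.null_of_limit (n := n) (μ := fun i => (T.mkD (isDatum (h i).1)).packetMeas)
        (fun i => packetMeas_prob _) ν'
    refine key2 ν h2 (by rw [h1] at hν; exact hν) (Vale.Agent.P007.isClosed_Yd p) fun i => ?_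
    obtain ⟨a, ha, hap⟩ := hp i
    refine packetMeas_null _ (Vale.Agent.P007.isClosed_Yd p).measurableSet ?_
    rintro S ⟨x, hx, rfl⟩
    have h5 := orb_subset_Yd (T.mkD (isDatum (h i).1)) hx ⟨a, ha⟩
    have h6 : (fun j => (T.mkD (isDatum (h i).1)).σ j ((⟨a, ha⟩ : (T.mkD (isDatum (h i).1)).O) :
        𝓞 (T.mkD (isDatum (h i).1)).K)) = p := funext fun j => hap j
    rw [h6] at h5
    exact h5
  have key3 := fun (ν' : Measure (Vale.Agent.P007.X n)) (_ : IsProbabilityMeasure ν') =>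
    H11.structure_prime (n := n) hn (by omega) ν' (m := m) (p := p) (f := f) (k := k)
  exact comb_of (key3 ν h2 h3 h4 hW hm hf hfi hroot hf1 hk hkn hY)

end Seq

end Vale.Agent.P007.F
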