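import Vale.Agent.P007.H11.Arith
import Mathlib.Algebra.AlgebraicCard

/-! Measure rigidity in every odd degree. -/

set_option autoImplicit false

open MeasureTheory Matrix Filter Topology ProbabilityTheory
open scoped ENNReal

namespace Vale.Agent.P007.H11

open Vale.Agent.P007 Vale.Agent.P007.Koopman Vale.Agent.P007.Mautner Vale.Agent.P007.R
  Vale.Agent.P007.R.Blk

variable {n : ℕ}

/-- lattices with real multiplication by a field of degree strictly between `1` and `n` -/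
def RMs (n : ℕ) : Set (X n) := {x | ∃ p : Fin n → ℝ, IsMult p ∧ x ∈ Yd p}

theorem countable_isMult : {p : Fin n → ℝ | IsMult p}.Countable := by
  refine (Set.countable_univ_pi (s := fun _ : Fin n => {x : ℝ | IsAlgebraic ℤ x})
    fun _ => Algebraic.countable ℤ ℝ).mono ?_
  rintro p ⟨f, hf, -, -, -, h⟩ j -
  exact ⟨f, hf.ne_zero, h j⟩

theorem RMs_eq : RMs n = ⋃ p ∈ {p : Fin n → ℝ | IsMult p}, Yd p := by
  ext x
  simp only [RMs, Set.mem_ofPred_eq, Set.mem_iUnion, exists_prop]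

theorem measurableSet_RMs : MeasurableSet (RMs n) := by
  rw [RMs_eq]
  exact MeasurableSet.biUnion countable_isMult fun p _ => (isClosed_Yd p).measurableSet

theorem Yd_da {p : Fin n → ℝ} {x : X n} (hx : x ∈ Yd p) (β : Fin n → ℝ) :
    tr (da β) x ∈ Yd p := by
  obtain ⟨g, rfl⟩ := pt_surjective x
  obtain ⟨M, hM⟩ := pt_mem_Yd.1 hx
  rw [tr_pt]
  refine pt_mem_Yd.2 ⟨M, ?_⟩
  rw [coe_mul_G, coe_da, ← mul_assoc, ← hM, mul_assoc, mul_assoc, diagonal_mul_diagonal,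
    diagonal_mul_diagonal]
  congr 2
  funext j
  exact mul_comm _ _

theorem RMs_da (β : Fin n → ℝ) : (tr (da β) : X n → X n) ⁻¹' (RMs n) = RMs n := by
  ext x
  constructor
  · rintro ⟨p, hp, hx⟩
    refine ⟨p, hp, ?_⟩
    have h1 := Yd_da hx (-β)
    rw [da_neg, tr_tr, mul_inv_cancel, Vale.Agent.P007.tr_one] at h1
    exact h1
  · rintro ⟨p, hp, hx⟩
    exact ⟨p, hp, Yd_da hx β⟩

theorem aeInv_RMs (μ : Measure (X n)) : AEInv μ (RMs n) :=
  ⟨measurableSet_RMs, fun β => by rw [RMs_da]; exact Filter.EventuallyEq.rfl⟩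

/-- An invariant measure with a proper block structure charges the lattices with real
multiplication. -/
theorem blocks_rm (μ : Measure (X n)) [IsProbabilityMeasure μ] (hA : AInv μ)
    (B : Finset (Fin n)) (hB : 2 ≤ B.card) (hB' : B ≠ Finset.univ)
    (h1 : ∀ i ∈ B, ∀ j ∈ B, i ≠ j → UInv μ i j)
    (h2 : ∀ i ∈ B, ∀ l ∉ B, Triv μ i l ∧ Triv μ l i) : μ (RMs n) ≠ 0 := by
  intro hR0
  obtain ⟨E, hEm, hE0, U, hU, hEU⟩ := drift μ hA B hB h1 h2
  have hBne : B.Nonempty := Finset.card_pos.1 (by omega)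
  have htyp := ae_typical μ hA hBne
  have hr0 : ∀ i j : Fin n, ∀ᵐ x ∂μ, x ∈ E → ∀ V ∈ 𝓝 (1 : G n), ∃ᶠ m : ℕ in atTop,
      ∃ h ∈ V, tr (da (bij i j) ^ m) x = tr h x ∧ tr (da (bij i j) ^ m) x ∈ E := fun i j =>
    poincare μ _ (hA _) hEm
  have hr1 : ∀ i j : Fin n, i ∈ B → j ∈ B → i ≠ j → ∀ᵐ x ∂μ, x ∈ E → ∀ V ∈ 𝓝 (1 : G n),
      ∃ᶠ m : ℕ in atTop, ∃ h ∈ V,
        tr ((ug i j 1 * da (bij i j) * (ug i j 1)⁻¹) ^ m) x = tr h x ∧
        tr ((ug i j 1 * da (bij i j) * (ug i j 1)⁻¹) ^ m) x ∈ E := fun i j hi hj hij =>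
    poincare μ _ (mul_mem (mul_mem (ug_mem_invG (h1 i hi j hj hij) 1) (da_mem_invG hA _))
      (inv_mem (ug_mem_invG (h1 i hi j hj hij) 1)) : _ ∈ R.invG μ) hEm
  have hr0' : ∀ᵐ x ∂μ, ∀ i j : Fin n, x ∈ E → ∀ V ∈ 𝓝 (1 : G n), ∃ᶠ m : ℕ in atTop,
      ∃ h ∈ V, tr (da (bij i j) ^ m) x = tr h x ∧ tr (da (bij i j) ^ m) x ∈ E :=
    ae_all_iff.2 fun i => ae_all_iff.2 fun j => hr0 i j
  have hr1' : ∀ᵐ x ∂μ, ∀ i j : Fin n, i ∈ B → j ∈ B → i ≠ j → x ∈ E → ∀ V ∈ 𝓝 (1 : G n),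
      ∃ᶠ m : ℕ in atTop, ∃ h ∈ V,
        tr ((ug i j 1 * da (bij i j) * (ug i j 1)⁻¹) ^ m) x = tr h x ∧
        tr ((ug i j 1 * da (bij i j) * (ug i j 1)⁻¹) ^ m) x ∈ E := by
    refine ae_all_iff.2 fun i => ae_all_iff.2 fun j => ?_
    by_cases hc : i ∈ B ∧ j ∈ B ∧ i ≠ j
    · filter_upwards [hr1 i j hc.1 hc.2.1 hc.2.2] with x hx _ _ _
      exact hx
    · exact Filter.Eventually.of_forall fun x hi hj hij => absurd ⟨hi, hj, hij⟩ hc
  have hnR : ∀ᵐ x ∂μ, x ∉ RMs n := by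
    rw [ae_iff]
    refine measure_mono_null (fun x hx => ?_) hR0
    exact not_not.1 hx
  obtain ⟨x, hxE, hx1, hx2, hx3, hx4⟩ : ∃ x ∈ E, (∀ g : G n, pt g = x → ∀ z : Fin n → ℤ,
      z ≠ 0 → (∃ i ∈ B, (zr z ᵥ* g.1) i ≠ 0) ∧ ∃ i ∈ B, ((g⁻¹).1 *ᵥ zr z) i ≠ 0) ∧
      (∀ i j : Fin n, x ∈ E → ∀ V ∈ 𝓝 (1 : G n), ∃ᶠ m : ℕ in atTop,
      ∃ h ∈ V, tr (da (bij i j) ^ m) x = tr h x ∧ tr (da (bij i j) ^ m) x ∈ E) ∧
      (∀ i j : Fin n, i ∈ B → j ∈ B → i ≠ j → x ∈ E → ∀ V ∈ 𝓝 (1 : G n),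
      ∃ᶠ m : ℕ in atTop, ∃ h ∈ V,
        tr ((ug i j 1 * da (bij i j) * (ug i j 1)⁻¹) ^ m) x = tr h x ∧
        tr ((ug i j 1 * da (bij i j) * (ug i j 1)⁻¹) ^ m) x ∈ E) ∧ x ∉ RMs n := by
    by_contra hcon
    apply hE0
    refine measure_mono_null ?_ (htyp.and (hr0'.and (hr1'.and hnR)))
    intro x hx hx'
    exact hcon ⟨x, hx, hx'.1, hx'.2.1, hx'.2.2.1, hx'.2.2.2⟩
  obtain ⟨g, rfl⟩ := pt_surjective x
  have hii : ∀ i j : Fin n, i ≠ j → Matrix.single i i (1 : ℝ) ∈ Submodule.span ℝ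
      {M | ∃ s ∈ AA B g, M = (g⁻¹).1 * qm s * g.1} := fun i j hij =>
    limit_mem g hU hEU hxE (da (bij i j)) (BD_diagonal B _) _ (tendsto_H0 hij) (hx2 i j hxE)
  have hij' : ∀ i ∈ B, ∀ j ∈ B, i ≠ j → Matrix.single i j (1 : ℝ) ∈ Submodule.span ℝ
      {M | ∃ s ∈ AA B g, M = (g⁻¹).1 * qm s * g.1} := by
    intro i hi j hj hij
    have h3 := limit_mem g hU hEU hxE (ug i j 1 * da (bij i j) * (ug i j 1)⁻¹)
      (((BD_ug hi hj hij 1).mul (BD_diagonal B _)).mul (BD_inv (BD_ug hi hj hij 1))) _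
      (tendsto_H1 hij) (hx3 i j hi hj hij hxE)
    have h4 := Submodule.sub_mem _ (hii i j hij) h3
    rwa [sub_sub_cancel] at h4
  have hne : ∀ i : Fin n, ∃ j : Fin n, i ≠ j := by
    intro i
    obtain ⟨a, ha, b, hb, hab⟩ := Finset.one_lt_card.1 (show 1 < B.card by omega)
    by_cases h : i = a
    · exact ⟨b, by rw [h]; exact hab⟩
    · exact ⟨a, h⟩
  obtain ⟨p, hp, hs⟩ := exists_mult hB hB' g (fun z hz => (hx1 g rfl z hz).1)
    (fun z hz => (hx1 g rfl z hz).2) (fun i hi j hj => by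
      by_cases hij : i = j
      · subst hij
        obtain ⟨j, hij⟩ := hne i
        exact hii i j hij
      · exact hij' i hi j hj hij) (fun i => by
      obtain ⟨j, hij⟩ := hne i
      exact hii i j hij)
  exact hx4 ⟨p, hp, pt_mem_Yd.2 hs⟩

/-! ### pure components (as in `B10`, with the Hopf argument as only input) -/

theorem uinv_restrict {μ : Measure (X n)} [IsProbabilityMeasure μ] (hA : AInv μ) {i j : Fin n}
    (hij : i ≠ j) (hU : UInv μ i j) {Ω : Set (X n)} (hΩ : AEInv μ Ω) :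
    UInv (μ.restrict Ω) i j := by
  classical
  intro s
  refine map_restrict (hU s) hΩ.1 ?_
  have hF : Measurable (Ω.indicator fun _ => (1 : ℝ)) := measurable_const.indicator hΩ.1
  obtain ⟨X', hX', hX0, h⟩ := hopf μ (da (Pi.single i (1 : ℝ))) (hA _)
    (Ω.indicator fun _ => (1 : ℝ)) hF (by
      filter_upwards [hΩ.2 (Pi.single i (1 : ℝ))] with x hx
      have hx' : tr (da (Pi.single i (1 : ℝ))) x ∈ Ω ↔ x ∈ Ω := iff_of_eq hx
      by_cases hxΩ : x ∈ Ω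
      · rw [Set.indicator_of_mem hxΩ, Set.indicator_of_mem (hx'.2 hxΩ)]
      · rw [Set.indicator_of_notMem hxΩ, Set.indicator_of_notMem (fun h => hxΩ (hx'.1 h))])
  have h1 : ∀ᵐ x ∂μ, x ∈ X' := by
    rw [ae_iff]; exact hX0
  have h2 : ∀ᵐ x ∂μ, tr (ug i j s) x ∈ X' := by
    have h3 : ∀ᵐ x ∂(μ.map (tr (ug i j s))), x ∈ X' := by rw [hU s]; exact h1
    exact ae_of_ae_map (measurable_tr _).aemeasurable h3
  filter_upwards [h1, h2] with x hx1 hx2
  have h4 := h x hx1 (ug i j s) hx2 (tendsto_conj_ug i j hij s)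
  apply propext
  change tr (ug i j s) x ∈ Ω ↔ x ∈ Ω
  by_cases hxΩ : x ∈ Ω
  · rw [Set.indicator_of_mem hxΩ] at h4
    refine ⟨fun _ => hxΩ, fun _ => ?_⟩
    by_contra h5
    rw [Set.indicator_of_notMem h5] at h4
    exact one_ne_zero h4
  · rw [Set.indicator_of_notMem hxΩ] at h4
    refine ⟨fun h5 => ?_, fun h5 => absurd h5 hxΩ⟩
    rw [Set.indicator_of_mem h5] at h4
    exact absurd h4.symm one_ne_zero

theorem score_mono' (μ : Measure (X n)) [IsProbabilityMeasure μ] (hA : AInv μ)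
    {Ω Ω' : Set (X n)} (hΩ : AEInv μ Ω) (h0 : μ Ω ≠ 0) (hΩ' : AEInv (nrm μ Ω) Ω') :
    score μ Ω ⊆ score μ (Ω' ∩ Ω) := by
  have hinv0 : (μ Ω)⁻¹ ≠ 0 := ENNReal.inv_ne_zero.2 (measure_ne_top _ _)
  have hinvt : (μ Ω)⁻¹ ≠ ∞ := ENNReal.inv_ne_top.2 h0
  intro p hp
  simp only [score, Finset.mem_filter, Finset.mem_univ, true_and] at hp ⊢
  refine ⟨hp.1, ?_⟩
  have hp2 := hp.2
  split_ifs at hp2 ⊢ with hb
  · exact hp2.mono (Measure.absolutelyContinuous_of_le (Measure.restrict_mono_set μ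
      Set.inter_subset_right))
  · have := nrm_prob μ h0
    have h1 : UInv (nrm μ Ω) p.1.1 p.1.2 := hp2.smul _
    have h2 := uinv_restrict (hA.nrm hΩ) hp.1 h1 hΩ'
    rw [nrm_restrict μ Ω Ω' hΩ'.1] at h2
    exact h2.of_smul hinv0 hinvt

theorem exists_pure (μ : Measure (X n)) [IsProbabilityMeasure μ] (hA : AInv μ) {Ω₀ : Set (X n)}
    (h0 : AEInv μ Ω₀) (h0' : μ Ω₀ ≠ 0) :
    ∃ Ω ⊆ Ω₀, AEInv μ Ω ∧ μ Ω ≠ 0 ∧ Pure ((μ Ω)⁻¹ • μ.restrict Ω) := by
  classical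
  let S : Set ℕ := {k | ∃ Ω ⊆ Ω₀, AEInv μ Ω ∧ μ Ω ≠ 0 ∧ (score μ Ω).card = k}
  have hSne : S.Nonempty := ⟨_, Ω₀, subset_rfl, h0, h0', rfl⟩
  have hSb : BddAbove S := by
    refine ⟨Fintype.card ((Fin n × Fin n) × Bool), ?_⟩
    rintro k ⟨Ω, -, -, -, rfl⟩
    exact Finset.card_le_univ _
  obtain ⟨Ω, hΩ0, hΩ, hΩ1, hcard⟩ := Nat.sSup_mem hSne hSb
  refine ⟨Ω, hΩ0, hΩ, hΩ1, ?_⟩
  have hinv0 : (μ Ω)⁻¹ ≠ 0 := ENNReal.inv_ne_zero.2 (measure_ne_top _ _)
  have hinvt : (μ Ω)⁻¹ ≠ ∞ := ENNReal.inv_ne_top.2 hΩ1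
  intro Ω' hΩ' hΩ'0 i j hij
  change AEInv (nrm μ Ω) Ω' at hΩ'
  change nrm μ Ω Ω' ≠ 0 at hΩ'0
  change (Triv ((nrm μ Ω).restrict Ω') i j → Triv (nrm μ Ω) i j) ∧
    (UInv ((nrm μ Ω).restrict Ω') i j → UInv (nrm μ Ω) i j)
  have hAE : AEInv μ (Ω' ∩ Ω) := hΩ.of_nrm (measure_ne_top _ _) hΩ'
  have hpos : μ (Ω' ∩ Ω) ≠ 0 := by
    intro h
    apply hΩ'0
    rw [nrm, Measure.smul_apply, Measure.restrict_apply hΩ'.1, h, smul_zero]
  have hmem : (score μ (Ω' ∩ Ω)).card ∈ S :=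
    ⟨Ω' ∩ Ω, Set.inter_subset_right.trans hΩ0, hAE, hpos, rfl⟩
  have hle := le_csSup hSb hmem
  have heq : score μ Ω = score μ (Ω' ∩ Ω) :=
    Finset.eq_of_subset_of_card_le (score_mono' μ hA hΩ hΩ1 hΩ') (by rw [hcard]; exact hle)
  rw [nrm_restrict μ Ω Ω' hΩ'.1, nrm, triv_smul hinv0, triv_smul hinv0, uinv_smul hinv0 hinvt,
    uinv_smul hinv0 hinvt]
  constructor
  · intro h
    have h1 : ((i, j), true) ∈ score μ (Ω' ∩ Ω) := by
      simp only [score, Finset.mem_filter, Finset.mem_univ, true_and, if_true]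
      exact ⟨hij, h⟩
    rw [← heq] at h1
    simp only [score, Finset.mem_filter, Finset.mem_univ, true_and, if_true] at h1
    exact h1.2
  · intro h
    have h1 : ((i, j), false) ∈ score μ (Ω' ∩ Ω) := by
      simp only [score, Finset.mem_filter, Finset.mem_univ, true_and, Bool.false_eq_true, if_false]
      exact ⟨hij, h⟩
    rw [← heq] at h1
    simp only [score, Finset.mem_filter, Finset.mem_univ, true_and, Bool.false_eq_true,
      if_false] at h1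
    exact h1.2

/-- A pure component which does not charge the lattices with real multiplication is the invariant
probability. -/
theorem pure_dichotomy (hn : Odd n) (hn1 : 1 < n) (μ : Measure (X n)) [IsProbabilityMeasure μ]
    (hA : AInv μ) (hS : Star μ) (hP : Pure μ) (hR : μ (RMs n) = 0) : IsInvProb μ := by
  classical
  set F : Set (Fin n × Fin n) := {p | p.1 ≠ p.2 ∧ ¬ Triv μ p.1 p.2} with hF
  have hF1 : ∀ i j, i ≠ j → (i, j) ∉ F → Triv μ i j := by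
    intro i j hij h
    by_contra h1
    exact h ⟨hij, h1⟩
  have hhigh : ∀ i j k : Fin n, i ≠ k → (i, j) ∈ F → (j, k) ∈ F → UInv μ i k :=
    fun i j k hik h1 h2 => high μ hA hP h1.1 h2.1 hik h1.2 h2.2
  have hUF : ∀ i j : Fin n, i ≠ j → UInv μ i j → (i, j) ∈ F :=
    fun i j hij hU => ⟨hij, not_triv_of_uinv hij hU⟩
  have hF2 : ∀ i j k, i ≠ j → j ≠ k → i ≠ k → (i, j) ∈ F → (j, k) ∈ F → (i, k) ∈ F :=
    fun i j k _ _ hik h1 h2 => hUF i k hik (hhigh i j k hik h1 h2)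
  obtain ⟨i₀, j₀, hij₀, hF3, hF4⟩ := star_cycle_of_names (names n) hn1 μ hA hS F hF1 hF2
  let B : Finset (Fin n) := Finset.univ.filter fun k => k = i₀ ∨ ((i₀, k) ∈ F ∧ (k, i₀) ∈ F)
  have hB : ∀ k, k ∈ B ↔ k = i₀ ∨ ((i₀, k) ∈ F ∧ (k, i₀) ∈ F) := by
    intro k; simp only [Finset.mem_filter, Finset.mem_univ, true_and, B]
  have hi₀ : i₀ ∈ B := (hB _).2 (Or.inl rfl)
  have hj₀ : j₀ ∈ B := (hB _).2 (Or.inr ⟨hF3, hF4⟩)
  have hBF : ∀ k ∈ B, ∀ l ∈ B, k ≠ l → (k, l) ∈ F := by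
    intro k hk l hl hkl
    rcases (hB k).1 hk with rfl | ⟨h1, h2⟩
    · rcases (hB l).1 hl with rfl | ⟨h3, h4⟩
      · exact absurd rfl hkl
      · exact h3
    · rcases (hB l).1 hl with rfl | ⟨h3, h4⟩
      · exact h2
      · exact hF2 k i₀ l h2.1 h3.1 hkl h2 h3
  -- an index linked in both directions to a point of `B` is in `B`
  have hBc : ∀ k ∈ B, ∀ l, (k, l) ∈ F → (l, k) ∈ F → l ∈ B := by
    intro k hk l h1 h2
    by_cases hl : l = i₀
    · rw [hl]; exact hi₀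
    by_cases hk0 : k = i₀
    · rw [hk0] at h1 h2
      exact (hB l).2 (Or.inr ⟨h1, h2⟩)
    · have h3 := hBF k hk i₀ hi₀ hk0
      have h4 := hBF i₀ hi₀ k hk (Ne.symm hk0)
      exact (hB l).2 (Or.inr ⟨hF2 _ _ _ h4.1 h1.1 (Ne.symm hl) h4 h1,
        hF2 _ _ _ h2.1 h3.1 hl h2 h3⟩)
  have hother : ∀ k ∈ B, ∃ k' ∈ B, k' ≠ k := by
    intro k hk
    by_cases h : k = i₀
    · exact ⟨j₀, hj₀, by rw [h]; exact hij₀.symm⟩
    · exact ⟨i₀, hi₀, Ne.symm h⟩
  have hout : ∀ k ∈ B, ∀ l ∉ B, Triv μ k l ∧ Triv μ l k := by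
    intro k hk l hl
    have hkl : k ≠ l := fun h => hl (h ▸ hk)
    obtain ⟨k', hk', hkk'⟩ := hother k hk
    have hkl' : k' ≠ l := fun h => hl (h ▸ hk')
    constructor
    · refine hF1 k l hkl fun h => hl ?_
      have hU : UInv μ k' l := hhigh k' k l hkl' (hBF k' hk' k hk hkk') h
      have h1 := haar_symm_of_names (names n) μ hA F hF1 hF2 hkl' hU
      exact hBc k' hk' l (hUF _ _ hkl' hU) h1
    · refine hF1 l k hkl.symm fun h => hl ?_
      have hU : UInv μ l k' := hhigh l k k' hkl'.symm h (hBF k hk k' hk' hkk'.symm)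
      have h1 := haar_symm_of_names (names n) μ hA F hF1 hF2 hkl'.symm hU
      exact hBc k' hk' l h1 (hUF _ _ hkl'.symm hU)
  have hU : ∀ i ∈ B, ∀ j ∈ B, i ≠ j → UInv μ i j := by
    intro i hi j hj hij
    by_cases h3 : ∃ k ∈ B, k ≠ i ∧ k ≠ j
    · obtain ⟨k, hk, hki, hkj⟩ := h3
      exact hhigh i k j hij (hBF i hi k hk hki.symm) (hBF k hk j hj hkj)
    · push Not at h3
      refine low hn μ hA hP hij (hBF i hi j hj hij).2 fun l hli hlj => ?_
      have hl : l ∉ B := fun h => hlj (h3 l h hli)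
      exact ⟨(hout i hi l hl).1, (hout j hj l hl).2⟩
  have hB2 : 2 ≤ B.card := Finset.one_lt_card.2 ⟨i₀, hi₀, j₀, hj₀, hij₀⟩
  have hBu : B = Finset.univ := by
    by_contra hne
    exact blocks_rm μ hA B hB2 hne hU hout hR
  refine isInvProb_of_uinv μ hn1 fun i j hij => ?_
  exact hU i (by rw [hBu]; exact Finset.mem_univ _) j (by rw [hBu]; exact Finset.mem_univ _) hij

/-- **Measure rigidity in odd degree.** An `A`-invariant probability measure with property (*) is a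
multiple of the invariant probability on the complement of the set of the lattices with real
multiplication. -/
theorem structure_odd (hn : Odd n) (hn1 : 1 < n) (μ : Measure (X n)) [IsProbabilityMeasure μ]
    (hA : AInv μ) (hS : Star μ) {m : Measure (X n)} (hm : IsInvProb m) :
    μ.restrict (RMs n)ᶜ = μ (RMs n)ᶜ • m := by
  by_cases h0 : μ (RMs n)ᶜ = 0
  · rw [h0, zero_smul, Measure.restrict_eq_zero]
    exact h0
  have hAR : AEInv μ (RMs n)ᶜ := ⟨measurableSet_RMs.compl, fun β => by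
    rw [Set.preimage_compl]
    exact ((aeInv_RMs μ).2 β).compl⟩
  have key : ∀ Ω₀ ⊆ (RMs n)ᶜ, AEInv μ Ω₀ → μ Ω₀ ≠ 0 → ∃ Ω ⊆ Ω₀, AEInv μ Ω ∧ μ Ω ≠ 0 ∧
      nrm μ Ω = m := by
    intro Ω₀ hsub h0 h0'
    obtain ⟨Ω, h1, h2, h3, h4⟩ := exists_pure μ hA h0 h0'
    have := nrm_prob μ h3
    refine ⟨Ω, h1, h2, h3, unique_inv _ _ (pure_dichotomy hn hn1 (nrm μ Ω) (hA.nrm h2)
      (hS.nrm h3) h4 ?_) hm⟩
    rw [nrm, Measure.smul_apply, Measure.restrict_apply measurableSet_RMs]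
    have h5 : RMs n ∩ Ω = ∅ := by
      ext x
      simp only [Set.mem_inter_iff, Set.mem_empty_iff_false, iff_false, not_and]
      exact fun hx hx' => hsub (h1 hx') hx
    rw [h5, measure_empty, smul_zero]
  obtain ⟨Ω, hsub, hΩ, hΩ0, hinv⟩ := key _ subset_rfl hAR h0
  have hcompl : μ ((RMs n)ᶜ \ Ω) = 0 := by
    by_contra hne
    have hΩc : AEInv μ ((RMs n)ᶜ \ Ω) := ⟨hAR.1.diff hΩ.1, fun β => by
      rw [Set.preimage_sdiff]
      exact (hAR.2 β).diff (hΩ.2 β)⟩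
    obtain ⟨Ω', hsub', hΩ', hΩ'0, hinv'⟩ := key _ Set.sdiff_subset hΩc hne
    have h1 : nrm μ Ω Ω = 1 := by
      rw [nrm, Measure.smul_apply, Measure.restrict_apply_self, smul_eq_mul,
        ENNReal.inv_mul_cancel hΩ0 (measure_ne_top _ _)]
    have h2 : nrm μ Ω' Ω = 0 := by
      have h3 : Ω ∩ Ω' = ∅ := by
        ext x
        simp only [Set.mem_inter_iff, Set.mem_empty_iff_false, iff_false, not_and]
        exact fun hx hx' => (hsub' hx').2 hx
      rw [nrm, Measure.smul_apply, Measure.restrict_apply hΩ.1, h3, measure_empty, smul_zero]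
    rw [hinv, ← hinv', h2] at h1
    exact zero_ne_one h1
  have h1 : μ.restrict (RMs n)ᶜ = μ.restrict Ω := by
    refine Measure.restrict_congr_set ?_
    rw [Filter.eventuallyEq_set]
    have h2 : ∀ᵐ x ∂μ, x ∉ (RMs n)ᶜ \ Ω := by
      rw [ae_iff]
      refine measure_mono_null (fun x hx => ?_) hcompl
      exact not_not.1 hx
    filter_upwards [h2] with x hx
    constructor
    · intro h3
      by_contra h4
      exact hx ⟨h3, h4⟩
    · exact fun h3 => hsub h3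
  have h2 : μ.restrict Ω = μ Ω • m := by
    rw [← hinv, nrm, smul_smul, ENNReal.mul_inv_cancel hΩ0 (measure_ne_top _ _), one_smul]
  have h3 : μ (RMs n)ᶜ = μ Ω := by
    have h4 := congrArg (fun ν : Measure (X n) => ν Set.univ) h1
    simpa using h4
  rw [h1, h2, h3]

/-- The invariant probability does not charge the lattices with real multiplication. -/
theorem inv_RMs {m : Measure (X n)} (hm : IsInvProb m) : m (RMs n) = 0 := by
  rw [RMs_eq, measure_biUnion_null_iff countable_isMult]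
  rintro p ⟨f, hf, hfi, h1, h2, h⟩
  by_cases hc : ∃ i j, p i ≠ p j
  · obtain ⟨i, j, hij⟩ := hc
    exact measure_Yd hij hm
  · have h3 : (Yd p : Set (X n)) = ∅ := by
      by_contra hne
      obtain ⟨x, g, -, M, hM⟩ := Set.nonempty_iff_ne_empty.2 hne
      push Not at hc
      have hn : 0 < n := by omega
      set i₀ : Fin n := ⟨0, hn⟩ with hi₀
      have h4 : diagonal p = p i₀ • (1 : Matrix (Fin n) (Fin n) ℝ) := by
        ext i j
        rw [Matrix.smul_apply, diagonal_apply, one_apply, smul_eq_mul, hc i i₀]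
        split_ifs <;> simp
      have h5 : castM M = p i₀ • (1 : Matrix (Fin n) (Fin n) ℝ) := by
        have h6 : castM M * (g : Matrix (Fin n) (Fin n) ℝ) *
            ((g⁻¹ : G n) : Matrix (Fin n) (Fin n) ℝ) = p i₀ • (1 : Matrix (Fin n) (Fin n) ℝ) := by
          rw [← hM, h4, Matrix.mul_smul, Matrix.mul_one, Matrix.smul_mul, coe_mul_inv]
        rwa [mul_assoc, coe_mul_inv, mul_one] at h6
      have h6 : ((M i₀ i₀ : ℤ) : ℝ) = p i₀ := by
        have h7 := congrFun (congrFun h5 i₀) i₀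
        rw [Matrix.smul_apply, one_apply_eq, smul_eq_mul, mul_one] at h7
        exact h7
      have h7 : f.eval (M i₀ i₀) = 0 := by
        have h8 := h i₀
        rw [← h6] at h8
        have h9 : ((f.eval (M i₀ i₀) : ℤ) : ℝ) = 0 := by
          rw [← h8]
          simp [Polynomial.aeval_def, Polynomial.eval₂_at_intCast]
        exact_mod_cast h9
      obtain ⟨q, hq⟩ := Polynomial.dvd_iff_isRoot.2 h7
      have h8 : (Polynomial.X - Polynomial.C (M i₀ i₀)).natDegree = 1 :=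
        Polynomial.natDegree_X_sub_C _
      rcases hfi.isUnit_or_isUnit hq with hu | hu
      · have := Polynomial.natDegree_eq_zero_of_isUnit hu
        omega
      · have h9 := Polynomial.natDegree_eq_zero_of_isUnit hu
        have h10 : f.natDegree ≤ (Polynomial.X - Polynomial.C (M i₀ i₀)).natDegree +
            q.natDegree := by
          rw [hq]
          exact Polynomial.natDegree_mul_le
        omega
    rw [h3, measure_empty]

end Vale.Agent.P007.H11
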