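import Vale.Agent.P007.H11.Defs
import Vale.Agent.P007.H11.Rigid
import Mathlib.MeasureTheory.Measure.Prokhorov
import Mathlib.MeasureTheory.Measure.LevyProkhorovMetric

/-! Limits of packet measures in odd degree. -/

set_option autoImplicit false

open MeasureTheory Matrix NumberField Filter Topology
open scoped ENNReal nonZeroDivisors CompactlySupported

namespace Vale.Agent.P007.H11

open Vale.Agent.P007 Vale.Agent.P007.Koopman Vale.Agent.P007.R

variable {n : ℕ}

/-- the set of the lattices with a short vector -/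
def ShortS (n : ℕ) (ε : ℝ) : Set (X n) := {x | ∃ v ∈ latx x, v ≠ 0 ∧ ∀ i, |v i| < ε}

theorem tight_odd (hn : Odd n) (hn3 : 3 ≤ n) : ∃ C : ℝ, ∀ ε : ℝ, 0 < ε → ε < 1 → ∃ D₀ : ℕ,
    ∀ D : Datum n, D₀ ≤ D.disc → D.packetMeas (ShortS n ε) ≤ ENNReal.ofReal (C * √ε) :=
  N.tight_packet_in n hn3 (N.rO_HT n (by omega)) (fun D => N.rO_zero D) (T.vol_lower_odd n hn hn3)

theorem star_odd (hn : Odd n) (hn3 : 3 ≤ n) : ∃ C : ℝ, ∀ ε : ℝ, 0 < ε → ε < 1 → ∃ D₀ : ℕ,
    ∀ D : Datum n, D₀ ≤ D.disc → ∀ N0 : ℝ,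
      D.packetMeas {x | ∃ v ∈ latx x, v ≠ 0 ∧ (∀ i, |v i| < 3) ∧ |∏ i, v i - N0| < ε} ≤
        ENNReal.ofReal (C * √ε) :=
  N.star_packet_in n hn3 (N.rO_HT n (by omega)) (fun D => N.rO_zero D) (T.vol_lower_odd n hn hn3)

/-- every ultrafilter finer than `atTop` has a limit measure with all the properties -/
theorem exists_limit_odd (hn : Odd n) (hn3 : 3 ≤ n) (D : ℕ → Datum n)
    (hdisc : Tendsto (fun i => (D i).disc) atTop atTop) (U : Ultrafilter ℕ)
    (hU : (U : Filter ℕ) ≤ atTop) :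
    ∃ ν : Measure (X n), IsProbabilityMeasure ν ∧ AInv ν ∧ Star ν ∧
      ∀ f : C_c(X n, ℝ), Tendsto (fun i => ∫ x, f x ∂(D i).packetMeas) U (𝓝 (∫ x, f x ∂ν)) := by
  obtain ⟨C1, hC1⟩ := star_odd hn hn3
  obtain ⟨C2, hC2⟩ := tight_odd hn hn3
  have hmax1 : ∀ ε : ℝ, ENNReal.ofReal (C1 * √ε) ≤ ENNReal.ofReal (max C1 C2 * √ε) := fun ε =>
    ENNReal.ofReal_le_ofReal (mul_le_mul_of_nonneg_right (le_max_left _ _) (Real.sqrt_nonneg ε))
  have hmax2 : ∀ ε : ℝ, ENNReal.ofReal (C2 * √ε) ≤ ENNReal.ofReal (max C1 C2 * √ε) := fun ε =>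
    ENNReal.ofReal_le_ofReal (mul_le_mul_of_nonneg_right (le_max_right _ _) (Real.sqrt_nonneg ε))
  have hdisc' : ∀ D₀ : ℕ, ∀ᶠ i in atTop, D₀ ≤ (D i).disc := fun D₀ =>
    (hdisc.eventually_ge_atTop D₀).mono fun i hi => hi
  refine N.exists_limit (by omega) U D (C := max C1 C2) ?_ ?_
  · intro ε hε hε1 N0
    obtain ⟨D₀, hD₀⟩ := hC1 ε hε hε1
    filter_upwards [hU (hdisc' D₀)] with i hi
    exact (hD₀ _ hi N0).trans (hmax1 ε)
  · intro ε hε hε1
    obtain ⟨D₀, hD₀⟩ := hC2 ε hε hε1
    filter_upwards [hU (hdisc' D₀)] with i hi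
    exact (hD₀ _ hi).trans (hmax2 ε)

/-- no escape of mass -/
theorem tightness (hn : Odd n) (hn3 : 3 ≤ n) (D : ℕ → Datum n)
    (hdisc : Tendsto (fun i => (D i).disc) atTop atTop) (ε : ℝ≥0∞) (hε : 0 < ε) :
    ∃ K : Set (X n), IsCompact K ∧ ∀ᶠ i in atTop, (D i).packetMeas Kᶜ ≤ ε := by
  obtain ⟨C, hC⟩ := tight_odd hn hn3
  have hlim : Tendsto (fun δ : ℝ => ENNReal.ofReal (C * √δ)) (𝓝[>] 0) (𝓝 (ENNReal.ofReal 0)) := by
    refine ENNReal.tendsto_ofReal ?_
    have hc : Continuous fun ε : ℝ => C * √ε := by fun_prop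
    have := hc.tendsto 0
    simp only [Real.sqrt_zero, mul_zero] at this
    exact this.mono_left nhdsWithin_le_nhds
  rw [ENNReal.ofReal_zero] at hlim
  have h1 : ∀ᶠ δ : ℝ in 𝓝[>] 0, δ < 1 :=
    (eventually_lt_nhds one_pos).filter_mono nhdsWithin_le_nhds
  obtain ⟨δ, hδ1, hδ2, hδ0⟩ := ((hlim.eventually (gt_mem_nhds hε)).and
    (h1.and self_mem_nhdsWithin)).exists
  obtain ⟨K, hK, hKt⟩ := N.thick_subset_compact (n := n) (by omega) hδ0
  obtain ⟨D₀, hD₀⟩ := hC δ hδ0 hδ2
  refine ⟨K, hK, ?_⟩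
  filter_upwards [hdisc.eventually_ge_atTop D₀] with i hi
  exact (measure_mono fun x hx => hKt x hx).trans ((hD₀ _ hi).trans hδ1.le)

/-- finite measures with the same integrals of test functions are equal -/
theorem ext_cc {μ ν : Measure (X n)} [IsFiniteMeasure μ] [IsFiniteMeasure ν]
    (h : ∀ f : C_c(X n, ℝ), ∫ x, f x ∂μ = ∫ x, f x ∂ν) : μ = ν :=
  Measure.ext_of_integral_eq_on_compactlySupported h

/-- The limit theorem for data. -/
theorem limit_data (hn : Odd n) (hn3 : 3 ≤ n) (D : ℕ → Datum n)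
    (hdisc : Tendsto (fun i => (D i).disc) atTop atTop) {m : Measure (X n)} (hm : IsInvProb m)
    (ν : Measure (X n)) [IsFiniteMeasure ν]
    (hν : ∀ f : C_c(X n, ℝ), Tendsto (fun i => ∫ x, f x ∂(D i).packetMeas) atTop
      (𝓝 (∫ x, f x ∂ν))) :
    IsProbabilityMeasure ν ∧ AInv ν ∧ ν.restrict (RMs n)ᶜ = ν (RMs n)ᶜ • m := by
  obtain ⟨ν', h1, h2, h3, h4⟩ := exists_limit_odd hn hn3 D hdisc (Ultrafilter.of atTop)
    (Ultrafilter.of_le atTop)
  have heq : ν = ν' := ext_cc fun f =>
    tendsto_nhds_unique ((hν f).mono_left (Ultrafilter.of_le atTop)) (h4 f)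
  subst heq
  exact ⟨h1, h2, structure_odd hn (by omega) ν h2 h3 hm⟩

/-- portmanteau for open sets -/
theorem open_le {U : Ultrafilter ℕ} {μ : ℕ → Measure (X n)} (hμ : ∀ i, IsProbabilityMeasure (μ i))
    {ν : Measure (X n)} [IsProbabilityMeasure ν]
    (hν : ∀ f : C_c(X n, ℝ), Tendsto (fun i => ∫ x, f x ∂μ i) U (𝓝 (∫ x, f x ∂ν)))
    {V : Set (X n)} (hV : IsOpen V) {c : ℝ} (hc : 0 ≤ c)
    (h : ∀ᶠ i in U, μ i V ≤ ENNReal.ofReal c) : ν V ≤ ENNReal.ofReal c := by
  rw [hV.measure_eq_iSup_isCompact]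
  refine iSup_le fun K => iSup_le fun hKV => iSup_le fun hK => ?_
  obtain ⟨f, hf1, hf2, hf3, hf4⟩ := exists_continuousMap_one_of_isCompact_subset_isOpen hK hV hKV
  set F : C_c(X n, ℝ) := ⟨f, hasCompactSupport_def.mpr hf2⟩ with hF
  have h0 : ∫ x, F x ∂ν ≤ c := by
    refine le_of_tendsto (hν F) ?_
    filter_upwards [h] with i hi
    have := hμ i
    have h1 : ∫ x, F x ∂μ i ≤ (μ i).real V := by
      rw [← integral_indicator_one hV.measurableSet]
      refine integral_mono (F.continuous.integrable_of_hasCompactSupport F.hasCompactSupport)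
        ((integrable_const (1 : ℝ)).indicator hV.measurableSet) fun x => ?_
      by_cases hx : x ∈ V
      · rw [Set.indicator_of_mem hx]
        exact (hf4 x).2
      · rw [Set.indicator_of_notMem hx]
        exact (image_eq_zero_of_notMem_tsupport fun hx' => hx (hf3 hx')).le
    refine h1.trans ?_
    exact ENNReal.toReal_le_of_le_ofReal hc hi
  have h1 : ν.real K ≤ ∫ x, F x ∂ν := by
    rw [← integral_indicator_one hK.measurableSet]
    refine integral_mono ((integrable_const (1 : ℝ)).indicator hK.measurableSet)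
      (F.continuous.integrable_of_hasCompactSupport F.hasCompactSupport) fun x => ?_
    by_cases hx : x ∈ K
    · rw [Set.indicator_of_mem hx]
      exact (hf1 hx).ge
    · rw [Set.indicator_of_notMem hx]
      exact (hf4 x).1
  rw [← ENNReal.ofReal_toReal (measure_ne_top ν K)]
  exact ENNReal.ofReal_le_ofReal (h1.trans h0)

/-- **Criterion.** In odd degree the packet measures converge to the invariant probability if and
only if they do not accumulate on the lattices with real multiplication. -/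
theorem criterion (hn : Odd n) (hn3 : 3 ≤ n) (D : ℕ → Datum n)
    (hdisc : Tendsto (fun i => (D i).disc) atTop atTop) {m : Measure (X n)} (hm : IsInvProb m) :
    WeakTo (fun i => (D i).packetMeas) m ↔ ∀ p : Fin n → ℝ, IsMult p → ∀ L ⊆ (Yd p : Set (X n)),
      IsCompact L → ∀ ε : ℝ≥0∞, 0 < ε → ∃ V : Set (X n), IsOpen V ∧ L ⊆ V ∧
        ∀ᶠ i in atTop, (D i).packetMeas V ≤ ε := by
  have hmp := hm.1
  have hprob : ∀ i, IsProbabilityMeasure (D i).packetMeas := fun i => packetMeas_prob (D i)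
  constructor
  · intro hW p hp L hL hLc ε hε
    have h0 : m L = 0 := by
      have h1 := inv_RMs hm
      refine measure_mono_null (fun x hx => ?_) h1
      exact ⟨p, hp, hL hx⟩
    obtain ⟨W, hLW, hWo, hWm⟩ := L.exists_isOpen_lt_of_lt ε (μ := m) (by rw [h0]; exact hε)
    obtain ⟨K, hK, hLK, hKW⟩ := exists_compact_between hLc hWo hLW
    obtain ⟨f, hf1, hf2, hf3, hf4⟩ :=
      exists_continuousMap_one_of_isCompact_subset_isOpen hK hWo hKW
    set F : C_c(X n, ℝ) := ⟨f, hasCompactSupport_def.mpr hf2⟩ with hF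
    refine ⟨interior K, isOpen_interior, hLK, ?_⟩
    have h1 : ∫ x, F x ∂m ≤ m.real W := by
      rw [← integral_indicator_one hWo.measurableSet]
      refine integral_mono (F.continuous.integrable_of_hasCompactSupport F.hasCompactSupport)
        ((integrable_const (1 : ℝ)).indicator hWo.measurableSet) fun x => ?_
      by_cases hx : x ∈ W
      · rw [Set.indicator_of_mem hx]
        exact (hf4 x).2
      · rw [Set.indicator_of_notMem hx]
        exact (image_eq_zero_of_notMem_tsupport fun hx' => hx (hf3 hx')).le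
    have h2 : ENNReal.ofReal (∫ x, F x ∂m) < ε := by
      refine lt_of_le_of_lt (ENNReal.ofReal_le_ofReal h1) ?_
      rw [Measure.real, ENNReal.ofReal_toReal (measure_ne_top m W)]
      exact hWm
    have h3 : Tendsto (fun i => ENNReal.ofReal (∫ x, F x ∂(D i).packetMeas)) atTop
        (𝓝 (ENNReal.ofReal (∫ x, F x ∂m))) := ENNReal.tendsto_ofReal (hW.1 F)
    filter_upwards [h3.eventually (gt_mem_nhds h2)] with i hi
    refine le_trans ?_ hi.le
    have := hprob i
    have h4 : (D i).packetMeas.real (interior K) ≤ ∫ x, F x ∂(D i).packetMeas := by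
      rw [← integral_indicator_one isOpen_interior.measurableSet]
      refine integral_mono ((integrable_const (1 : ℝ)).indicator isOpen_interior.measurableSet)
        (F.continuous.integrable_of_hasCompactSupport F.hasCompactSupport) fun x => ?_
      by_cases hx : x ∈ interior K
      · rw [Set.indicator_of_mem hx]
        exact (hf1 (interior_subset hx)).ge
      · rw [Set.indicator_of_notMem hx]
        exact (hf4 x).1
    rw [← ENNReal.ofReal_toReal (measure_ne_top (D i).packetMeas (interior K))]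
    exact ENNReal.ofReal_le_ofReal h4
  · intro h
    apply Koopman.weakTo_of_Cc
    intro f
    rw [tendsto_iff_ultrafilter]
    intro U hU
    obtain ⟨ν, hν, hA, hS, hlim⟩ := exists_limit_odd hn hn3 D hdisc U hU
    have hR : ν (RMs n) = 0 := by
      rw [RMs_eq, measure_biUnion_null_iff countable_isMult]
      intro p hp
      by_contra hne
      obtain ⟨L, hL, hLc, hLm⟩ := (isClosed_Yd p).measurableSet.exists_lt_isCompact
        (pos_iff_ne_zero.2 hne)
      obtain ⟨δ, hδ0, hδ⟩ : ∃ δ : ℝ, 0 < δ ∧ ENNReal.ofReal δ < ν L := by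
        refine ⟨(ν L).toReal / 2, ?_, ?_⟩
        · have := ENNReal.toReal_pos hLm.ne' (measure_ne_top ν L)
          positivity
        · rw [ENNReal.ofReal_lt_iff_lt_toReal (by positivity) (measure_ne_top ν L)]
          have := ENNReal.toReal_pos hLm.ne' (measure_ne_top ν L)
          linarith
      obtain ⟨V, hVo, hLV, hV⟩ := h p hp L hL hLc (ENNReal.ofReal δ) (ENNReal.ofReal_pos.2 hδ0)
      have h1 := open_le hprob hlim hVo hδ0.le (hU hV)
      exact absurd ((measure_mono hLV).trans h1) (not_le.2 hδ)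
    have hstr := structure_odd hn (by omega) ν hA hS hm
    have h1 : ν (RMs n)ᶜ = 1 := (prob_compl_eq_one_iff measurableSet_RMs).2 hR
    have h2 : ν.restrict (RMs n)ᶜ = ν := by
      rw [Measure.restrict_eq_self_of_ae_mem]
      rw [ae_iff]
      simpa using hR
    rw [h1, h2, one_smul] at hstr
    rw [← hstr]
    exact hlim f

/-- existence of weakly convergent subsequences -/
theorem exists_subseq (hn : Odd n) (hn3 : 3 ≤ n) (D : ℕ → Datum n)
    (hdisc : Tendsto (fun i => (D i).disc) atTop atTop) :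
    ∃ φ : ℕ → ℕ, StrictMono φ ∧ ∃ ν : Measure (X n), IsProbabilityMeasure ν ∧
      WeakTo (fun i => (D (φ i)).packetMeas) ν := by
  have hprob : ∀ i, IsProbabilityMeasure (D i).packetMeas := fun i => packetMeas_prob (D i)
  let P : ℕ → ProbabilityMeasure (X n) := fun i => ⟨(D i).packetMeas, hprob i⟩
  have htight : IsTightMeasureSet {x | ∃ μ ∈ Set.range P, (μ : Measure (X n)) = x} := by
    rw [isTightMeasureSet_iff_exists_isCompact_measure_compl_le]
    intro ε hε
    obtain ⟨K, hK, hKe⟩ := tightness hn hn3 D hdisc ε hε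
    obtain ⟨N, hN⟩ := eventually_atTop.1 hKe
    have hsingle : ∀ i, ∃ L : Set (X n), IsCompact L ∧ (D i).packetMeas Lᶜ ≤ ε := by
      intro i
      have := hprob i
      obtain ⟨L, -, hLc, hL⟩ := (MeasurableSet.univ (α := X n)).exists_isCompact_lt_add
        (measure_ne_top (D i).packetMeas _) (ε := ε) hε.ne'
      refine ⟨L, hLc, ?_⟩
      rw [prob_compl_eq_one_sub hLc.measurableSet]
      rw [measure_univ] at hL
      exact tsub_le_iff_left.2 hL.le
    choose L hLc hL using hsingle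
    refine ⟨K ∪ ⋃ i ∈ Finset.range N, L i, hK.union
      ((Finset.range N).isCompact_biUnion fun i _ => hLc i), ?_⟩
    rintro _ ⟨_, ⟨i, rfl⟩, rfl⟩
    change (D i).packetMeas _ ≤ ε
    by_cases hi : N ≤ i
    · exact (measure_mono (Set.compl_subset_compl.2 Set.subset_union_left)).trans (hN i hi)
    · refine (measure_mono (Set.compl_subset_compl.2 ?_)).trans (hL i)
      exact (Set.subset_biUnion_of_mem (u := fun i => L i)
        (Finset.mem_coe.2 (Finset.mem_range.2 (not_le.1 hi)))).trans Set.subset_union_right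
  have hcomp := isCompact_closure_of_isTightMeasureSet htight
  obtain ⟨ν, -, φ, hφ, hlim⟩ := hcomp.tendsto_subseq (x := P)
    (fun i => subset_closure (Set.mem_range_self i))
  refine ⟨φ, hφ, ν, inferInstance, ?_⟩
  apply Koopman.weakTo_of_Cc
  intro f
  obtain ⟨B, hB⟩ := f.hasCompactSupport.exists_bound_of_continuous f.continuous
  exact ProbabilityMeasure.tendsto_iff_forall_integral_tendsto.1 hlim
    (BoundedContinuousFunction.ofNormedAddCommGroup f f.continuous B hB)

end Vale.Agent.P007.H11
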