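import Vale.Agent.P007.H11.Limits

/-! The statement for odd degrees in terms of the definitions of `StmtF.lean` and `Defs.lean`. -/

set_option autoImplicit false

open MeasureTheory Matrix NumberField Filter Topology
open scoped ENNReal nonZeroDivisors CompactlySupported

namespace Vale.Agent.P007.H11

open Vale.Agent.P007 Vale.Agent.P007.Koopman Vale.Agent.P007.R

variable {n : ℕ}

theorem mem_Yd_iff (p : Fin n → ℝ) (x : X n) : x ∈ Yd p ↔
    ∀ g : G n, pt g = x → ∀ v ∈ lat g, (fun j => v j * p j) ∈ lat g := by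
  constructor
  · rintro hx g rfl _ ⟨c, rfl⟩
    obtain ⟨M, hM⟩ := pt_mem_Yd.1 hx
    refine ⟨c ᵥ* M, ?_⟩
    have h1 : (fun i => ((c ᵥ* M) i : ℝ)) = (fun i => (c i : ℝ)) ᵥ* castM M := by
      funext j
      simp only [vecMul, dotProduct, Int.cast_sum, Int.cast_mul, castM, map_apply]
    have h2 : (fun j => ((fun i => (c i : ℝ)) ᵥ* (g : Matrix (Fin n) (Fin n) ℝ)) j * p j) =
        (fun i => (c i : ℝ)) ᵥ* ((g : Matrix (Fin n) (Fin n) ℝ) * diagonal p) := by
      rw [← vecMul_vecMul]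
      funext j
      rw [vecMul_diagonal]
    change (fun i => ((c ᵥ* M) i : ℝ)) ᵥ* (g : Matrix (Fin n) (Fin n) ℝ) =
      fun j => ((fun i => (c i : ℝ)) ᵥ* (g : Matrix (Fin n) (Fin n) ℝ)) j * p j
    rw [h1, h2, hM, vecMul_vecMul]
  · intro h
    obtain ⟨g, rfl⟩ := pt_surjective x
    have h1 : ∀ i : Fin n, ∃ c : Fin n → ℤ, (fun k => (c k : ℝ)) ᵥ*
        (g : Matrix (Fin n) (Fin n) ℝ) = fun j => (g : Matrix (Fin n) (Fin n) ℝ) i j * p j := by
      intro i
      have h2 : (fun j => (g : Matrix (Fin n) (Fin n) ℝ) i j) ∈ lat g := by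
        refine ⟨Pi.single i 1, ?_⟩
        have h3 : (fun k => ((Pi.single i 1 : Fin n → ℤ) k : ℝ)) = Pi.single i 1 := by
          funext k
          rcases eq_or_ne k i with rfl | hk
          · simp
          · simp [hk]
        change (fun k => ((Pi.single i 1 : Fin n → ℤ) k : ℝ)) ᵥ*
          (g : Matrix (Fin n) (Fin n) ℝ) = _
        rw [h3, single_one_vecMul]
        rfl
      exact h g rfl _ h2
    choose M hM using h1
    refine pt_mem_Yd.2 ⟨M, ?_⟩
    ext i j
    rw [mul_diagonal]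
    have h2 : ((fun k => (M i k : ℝ)) ᵥ* (g : Matrix (Fin n) (Fin n) ℝ)) j =
        (g : Matrix (Fin n) (Fin n) ℝ) i j * p j := congrFun (hM i) j
    rw [← h2, mul_apply]
    rfl

/-- the degree of the field of multiplications divides the degree -/
theorem dvd_of_stab {p : Fin n → ℝ} {f : Polynomial ℤ} (hf : f.Monic) (hfi : Irreducible f)
    (hroot : ∀ j, Polynomial.aeval (p j) f = 0) {g : G n} (hs : Stab p g) :
    f.natDegree ∣ n := by
  obtain ⟨M, hM⟩ := hs
  set q : Polynomial ℤ := M.charpoly with hq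
  have hqm : q.Monic := M.charpoly_monic
  have hqd : q.natDegree = n := by rw [hq, M.charpoly_natDegree_eq_dim, Fintype.card_fin]
  have hfpos : 0 < f.natDegree := by
    rcases Nat.eq_zero_or_pos f.natDegree with h | h
    · exfalso
      rw [hf.natDegree_eq_zero.1 h] at hfi
      exact hfi.not_isUnit isUnit_one
    · exact h
  have hmin : ∀ j, f = minpoly ℤ (p j) := by
    intro j
    have hint : IsIntegral ℤ (p j) := ⟨f, hf, by
      have := hroot j
      rwa [Polynomial.aeval_def] at this⟩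
    have h1 : minpoly ℤ (p j) ∣ f := minpoly.isIntegrallyClosed_dvd hint (hroot j)
    have h2 : Associated (minpoly ℤ (p j)) f := by
      refine ((hfi.dvd_iff.1 h1).resolve_left ?_).symm
      intro hu
      have := minpoly.natDegree_pos hint
      rw [Polynomial.natDegree_eq_zero_of_isUnit hu] at this
      exact lt_irrefl _ this
    exact (Polynomial.eq_of_monic_of_associated (minpoly.monic hint) hf h2).symm
  have hfin : FiniteMultiplicity f q := by
    refine Polynomial.finiteMultiplicity_of_degree_pos_of_monic ?_ hf hqm.ne_zero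
    exact Polynomial.natDegree_pos_iff_degree_pos.1 hfpos
  obtain ⟨r, hr, hrn⟩ := hfin.exists_eq_pow_mul_and_not_dvd
  have hrm : r.Monic := (hf.pow _).of_mul_monic_left (by rw [← hr]; exact hqm)
  have hr0 : r.natDegree = 0 := by
    by_contra hne
    -- `r` has a real root, which is some `p j`
    have h1 : (r.map (Int.castRingHom ℝ)) ∣ ∏ i, (Polynomial.X - Polynomial.C (p i)) := by
      rw [← charpoly_eq hM]
      exact Polynomial.map_dvd _ ⟨f ^ _, by rw [← hq, hr, mul_comm]⟩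
    have h2 : (∏ i, (Polynomial.X - Polynomial.C (p i)) : Polynomial ℝ).Splits :=
      Polynomial.Splits.prod fun i _ => Polynomial.Splits.X_sub_C _
    have h3 : (∏ i, (Polynomial.X - Polynomial.C (p i)) : Polynomial ℝ) ≠ 0 :=
      Finset.prod_ne_zero_iff.2 fun i _ => Polynomial.X_sub_C_ne_zero _
    have h4 : (r.map (Int.castRingHom ℝ)).Splits := h2.of_dvd h3 h1
    have h5 : (r.map (Int.castRingHom ℝ)).degree ≠ 0 := by
      rw [hrm.degree_map]
      intro h6
      exact hne (Polynomial.natDegree_eq_of_degree_eq_some h6)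
    obtain ⟨a, ha⟩ := h4.exists_eval_eq_zero h5
    have h6 : (∏ i, (Polynomial.X - Polynomial.C (p i)) : Polynomial ℝ).eval a = 0 := by
      obtain ⟨s, hs⟩ := h1
      rw [hs, Polynomial.eval_mul, ha, zero_mul]
    rw [Polynomial.eval_prod, Finset.prod_eq_zero_iff] at h6
    obtain ⟨j, -, hj⟩ := h6
    rw [Polynomial.eval_sub, Polynomial.eval_X, Polynomial.eval_C, sub_eq_zero] at hj
    subst hj
    have hint : IsIntegral ℤ (p j) := ⟨f, hf, by
      have := hroot j
      rwa [Polynomial.aeval_def] at this⟩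
    apply hrn
    rw [hmin j]
    refine minpoly.isIntegrallyClosed_dvd hint ?_
    rw [Polynomial.aeval_def, ← Polynomial.eval_map]
    exact ha
  have h1 : q.natDegree = multiplicity f q * f.natDegree := by
    conv_lhs => rw [hr]
    rw [(hf.pow _).natDegree_mul hrm, hf.natDegree_pow, hr0, add_zero]
  rw [← hqd, h1]
  exact dvd_mul_left _ _

theorem RMs_prime (hn : n.Prime) : RMs n = ∅ := by
  ext x
  simp only [Set.mem_empty_iff_false, iff_false]
  rintro ⟨p, ⟨f, hf, hfi, h1, h2, hroot⟩, g, -, hs⟩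
  have h3 := dvd_of_stab hf hfi hroot hs
  rcases (Nat.dvd_prime hn).1 h3 with h | h <;> omega

end Vale.Agent.P007.H11

namespace Vale.Agent.P007.F

variable {n : ℕ}

theorem stab_eq (p : Fin n → ℝ) : Stab p = Vale.Agent.P007.Yd (n := n) p :=
  Set.ext fun x => (H11.mem_Yd_iff (n := n) p x).symm

theorem isMult_iff (p : Fin n → ℝ) : IsMult p ↔ H11.IsMult p := Iff.rfl

theorem RM_eq : RM n = H11.RMs n := by
  ext x
  constructor
  · rintro ⟨p, hp, hx⟩
    exact ⟨p, hp, by rw [stab_eq] at hx; exact hx⟩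
  · rintro ⟨p, hp, hx⟩
    exact ⟨p, hp, by rw [stab_eq]; exact hx⟩

theorem measurableSet_RM : MeasurableSet (RM n) := by
  rw [RM_eq]
  exact H11.measurableSet_RMs (n := n)

theorem RM_null {m : Measure (X n)} (hm : IsInvProb m) : m (RM n) = 0 := by
  rw [RM_eq]
  exact H11.inv_RMs (n := n) (m := m) hm

theorem RM_prime (hn : n.Prime) : RM n = ∅ := by
  rw [RM_eq]
  exact H11.RMs_prime hn

/-- explicit bound for the mass in the cusp -/
theorem cusp_bound (hn : Odd n) (hn3 : 3 ≤ n) : ∃ C : ℝ, ∀ ε : ℝ, 0 < ε → ε < 1 → ∃ D₀ : ℕ,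
    ∀ (K : Type) [Field K] [NumberField K] (O : Subring (𝓞 K)) (σ : Fin n ≃ (K →+* ℝ))
      (μ : Measure (X n)), PacketMeas K O σ μ → D₀ ≤ disc K O →
      μ {x | ∃ g, pt g = x ∧ ∃ v ∈ lat g, v ≠ 0 ∧ ∀ j, |v j| < ε} ≤ ENNReal.ofReal (C * √ε) := by
  obtain ⟨C, hC⟩ := H11.tight_odd hn hn3
  refine ⟨C, fun ε hε hε1 => ?_⟩
  obtain ⟨D₀, hD₀⟩ := hC ε hε hε1
  refine ⟨D₀, fun K _ _ O σ μ hμ hd => ?_⟩
  have h1 : μ = (T.mkD (isDatum hμ.1)).packetMeas :=
    (T.pktMeas_iff (isDatum hμ.1) _).mp ((packetMeas_iff μ).mp hμ).2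
  have h2 := hD₀ (T.mkD (isDatum hμ.1)) hd
  rw [h1]
  refine le_trans (measure_mono ?_) h2
  rintro x ⟨g, hg, v, hv, hv0, hvε⟩
  exact ⟨v, ⟨g, hg, hv⟩, hv0, hvε⟩

section Seq

variable {K : ℕ → Type} [∀ i, Field (K i)] [∀ i, NumberField (K i)] {O : ∀ i, Subring (𝓞 (K i))}
  {σ : ∀ i, Fin n ≃ (K i →+* ℝ)} {μ : ℕ → Measure (X n)}

theorem seq_eq (h : ∀ i, PacketMeas (K i) (O i) (σ i) (μ i)) :
    μ = fun i => (T.mkD (isDatum (h i).1)).packetMeas :=
  funext fun i => (T.pktMeas_iff (isDatum (h i).1) _).mp ((packetMeas_iff (μ i)).mp (h i)).2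

/-- In odd degree: no escape of mass, convergent subsequences, the form of the limits and the
criterion for the convergence. -/
theorem odd_degree (hn : Odd n) (hn3 : 3 ≤ n) (h : ∀ i, PacketMeas (K i) (O i) (σ i) (μ i))
    (hdisc : Tendsto (fun i => disc (K i) (O i)) atTop atTop) {m : Measure (X n)}
    (hm : IsInvProb m) :
    (∃ φ : ℕ → ℕ, StrictMono φ ∧ ∃ ν, IsProbabilityMeasure ν ∧ WeakTo (fun i => μ (φ i)) ν) ∧
    (∀ φ : ℕ → ℕ, StrictMono φ → ∀ (ν : Measure (X n)) [IsFiniteMeasure ν],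
      (∀ f : C_c(X n, ℝ), Tendsto (fun i => ∫ x, f x ∂μ (φ i)) atTop (𝓝 (∫ x, f x ∂ν))) →
      IsProbabilityMeasure ν ∧ (∀ u, ν.map (tr (aexp u)) = ν) ∧
        ν.restrict (RM n)ᶜ = ν (RM n)ᶜ • m) ∧
    (WeakTo μ m ↔ ∀ p : Fin n → ℝ, IsMult p → ∀ L ⊆ Stab p, IsCompact L → ∀ ε > 0,
      ∃ V, IsOpen V ∧ L ⊆ V ∧ ∀ᶠ i in atTop, μ i V ≤ ε) := by
  have h1 := seq_eq h
  refine ⟨?_, ?_, ?_⟩
  · obtain ⟨φ, hφ, ν, hν, hW⟩ := H11.exists_subseq (n := n) hn hn3
      (fun i => T.mkD (isDatum (h i).1)) hdisc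
    refine ⟨φ, hφ, ν, hν, ?_⟩
    rw [h1]
    exact hW
  · intro φ hφ ν _ hν
    rw [h1] at hν
    have key := fun (ν' : Measure (Vale.Agent.P007.X n)) (_ : IsFiniteMeasure ν') =>
      H11.limit_data (n := n) hn hn3 (fun i => T.mkD (isDatum (h (φ i)).1))
        (hdisc.comp hφ.tendsto_atTop) (m := m) hm ν'
    obtain ⟨h2, h3, h4⟩ := key ν ‹IsFiniteMeasure ν› hν
    refine ⟨h2, fun u => ?_, ?_⟩
    · have hn0 : 0 < n := by omega
      obtain ⟨β, hβ⟩ : ∃ β : Fin n → ℝ, (R.da β : Vale.Agent.P007.G n) =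
          Vale.Agent.P007.aexp u := by
        refine ⟨Vale.Agent.P007.expo u, Subtype.ext ?_⟩
        rw [R.coe_da, coe_aexp, R.mean, Vale.Agent.P007.sum_expo, zero_div]
        simp only [sub_zero]
      have h5 := h3 β
      rw [hβ] at h5
      exact h5
    · rw [RM_eq]
      exact h4
  · rw [h1]
    have h2 := H11.criterion (n := n) hn hn3 (fun i => T.mkD (isDatum (h i).1)) hdisc (m := m) hm
    refine Iff.trans h2 ?_
    refine forall_congr' fun p => imp_congr Iff.rfl ?_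
    rw [stab_eq]
    exact Iff.rfl

end Seq

end Vale.Agent.P007.F
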