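import Vale.Agent.P007.Bdl.B19

/-! No exceptional zero for the fields `K ⊇ F` of odd relative degree. -/

set_option autoImplicit false

open NumberField

namespace Vale.Agent.P007.H11

open Vale.Agent.P007 Vale.Agent.P007.Z Vale.Agent.P007.Z.FinalAux

section Gal

variable (F K L : Type) [Field F] [NumberField F] [Field K] [NumberField K] [Field L]
  [NumberField L] [Algebra F K] [Algebra K L] [Algebra F L] [IsScalarTower F K L]

/-- action of a group of automorphisms over `F` on the `F`-embeddings -/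
@[instance_reducible] noncomputable def embActionRel (H : Subgroup (L ≃ₐ[ℚ] L))
    (hH : ∀ σ ∈ H, ∀ a : F, σ (algebraMap F L a) = algebraMap F L a) :
    MulAction H (K →ₐ[F] L) where
  smul σ φ :=
    { toRingHom := (σ : L ≃ₐ[ℚ] L).toAlgHom.toRingHom.comp φ.toRingHom
      commutes' := fun a => by
        change (σ : L ≃ₐ[ℚ] L) (φ (algebraMap F K a)) = algebraMap F L a
        rw [φ.commutes]
        exact hH σ σ.2 a }
  one_smul φ := by
    ext x
    rfl
  mul_smul σ τ φ := by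
    ext x
    rfl

theorem exists_emb_fixed_rel [IsGalois ℚ L] (hodd : Odd (Module.finrank F K))
    (H : Subgroup (L ≃ₐ[ℚ] L))
    (hHF : ∀ σ ∈ H, ∀ a : F, σ (algebraMap F L a) = algebraMap F L a)
    (hH : IsPGroup 2 H) :
    ∃ φ : K →+* L, ∀ σ ∈ H, ∀ x, σ (φ x) = φ x := by
  let _ := embActionRel F K L H hHF
  have hQ : IsScalarTower ℚ F K := inferInstance
  have hQ2 : IsScalarTower ℚ F L := inferInstance
  have hfd : FiniteDimensional F K := FiniteDimensional.right ℚ F K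
  have hGal : IsGalois F L := IsGalois.tower_top_of_isGalois ℚ F L
  have hcard : Nat.card (K →ₐ[F] L) = Module.finrank F K := by
    apply AlgHom.natCard_of_splits
    intro x
    have h1 := (IsGalois.to_normal (F := F) (E := L)).splits (algebraMap K L x)
    rwa [minpoly.algebraMap_eq (algebraMap K L).injective x] at h1
  have : Finite (K →ₐ[F] L) := by
    apply Nat.finite_of_card_ne_zero
    rw [hcard]
    exact (Module.finrank_pos (R := F) (M := K)).ne'
  have h2 := hH.card_modEq_card_fixedPoints (K →ₐ[F] L)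
  rw [hcard] at h2
  have h3 : Nat.card (MulAction.fixedPoints H (K →ₐ[F] L)) ≠ 0 := by
    intro h0
    rw [h0] at h2
    have : 2 ∣ Module.finrank F K := (Nat.modEq_zero_iff_dvd).mp h2
    exact (Nat.not_even_iff_odd.mpr hodd) (even_iff_two_dvd.mpr this)
  have h4 : (MulAction.fixedPoints H (K →ₐ[F] L)).Nonempty := by
    by_contra hne
    rw [Set.not_nonempty_iff_eq_empty] at hne
    apply h3
    rw [hne]
    simp
  obtain ⟨φ, hφ⟩ := h4
  refine ⟨φ.toRingHom, fun σ hσ x => ?_⟩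
  have h5 := hφ ⟨σ, hσ⟩
  exact DFunLike.congr_fun h5 x

theorem aE_pos_two_group_rel [IsGalois ℚ L] (hodd : Odd (Module.finrank F K))
    (H : Subgroup (L ≃ₐ[ℚ] L))
    (hHF : ∀ σ ∈ H, ∀ a : F, σ (algebraMap F L a) = algebraMap F L a)
    (hH : IsPGroup 2 H) (p : ℕ) (hp : p.Prime)
    (h : 0 < aE (IntermediateField.fixedField H) p) : 0 < aE K p := by
  obtain ⟨φ, hφ⟩ := exists_emb_fixed_rel F K L hodd H hHF hH
  let _ : Algebra K (IntermediateField.fixedField H) :=
    RingHom.toAlgebra (RingHom.codRestrict φ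
      (IntermediateField.fixedField H).toSubfield.toSubring.toSubsemiring (by
        intro x
        show φ x ∈ IntermediateField.fixedField H
        rw [IntermediateField.mem_fixedField_iff]
        intro f hf
        exact hφ f hf x))
  exact aE_pos_of_algebra K (IntermediateField.fixedField H) p hp h

end Gal

/-- non-cyclic step -/
theorem noncyclic_step_rel (L : Type) [Field L] [NumberField L] (N : ℕ)
    (hN : Module.finrank ℚ L ≤ N) {ℓ η : ℝ} (hℓ : 1 ≤ ℓ)
    (hη : 0 < η) (hη1 : η ≤ 1) (H : Subgroup (L ≃ₐ[ℚ] L)) (hH : ¬ IsCyclic H) (C : ℝ)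
    (hC : 0 ≤ C)
    (hsub : ∀ H' : Subgroup (L ≃ₐ[ℚ] L), H' ≤ H → Nat.card H' < Nat.card H →
      Sc (IntermediateField.fixedField H') (fun _ => True) ℓ η ≤ C) :
    Sc (IntermediateField.fixedField H) (fun _ => True) ℓ η ≤ N * C := by
  classical
  -- proper cyclic subgroups
  have hproper : ∀ σ ∈ H, Nat.card (Subgroup.zpowers σ) < Nat.card H := by
    intro σ hσ
    have hle : Subgroup.zpowers σ ≤ H := (Subgroup.zpowers_le).mpr hσ
    rcases lt_or_eq_of_le (Nat.card_le_card_of_injective _ (Subgroup.inclusion_injective hle))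
      with h | h
    · exact h
    · exfalso
      apply hH
      have : Subgroup.zpowers σ = H := Subgroup.eq_of_le_of_card_ge hle h.ge
      rw [← this]
      infer_instance
  let f : (L ≃ₐ[ℚ] L) → Nat.Primes → ℝ := fun σ p =>
    if σ ∈ H then tm (IntermediateField.fixedField (Subgroup.zpowers σ)) ℓ η p else 0
  have hfs : ∀ σ, Summable (f σ) := by
    intro σ
    by_cases h : σ ∈ H
    · simp only [f, h, if_true]
      exact tm_summable _ hℓ hη hη1
    · simp only [f, h, if_false]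
      exact summable_zero
  have hfle : ∀ σ, ∑' p, f σ p ≤ C := by
    intro σ
    by_cases h : σ ∈ H
    · have h1 := hsub (Subgroup.zpowers σ) ((Subgroup.zpowers_le).mpr h) (hproper σ h)
      rw [Sc_eq] at h1
      simp only [f, h, if_true]
      exact h1
    · simp only [f, h, if_false, tsum_zero]
      exact hC
  have h1 : Sc (IntermediateField.fixedField H) (fun _ => True) ℓ η ≤
      ∑' p, ∑ σ : (L ≃ₐ[ℚ] L), f σ p := by
    rw [Sc_eq]
    refine Summable.tsum_le_tsum ?_ (tm_summable _ hℓ hη hη1)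
      (summable_sum fun σ _ => hfs σ)
    intro p
    have hfnn : ∀ σ, 0 ≤ f σ p := by
      intro σ
      simp only [f]
      split_ifs
      · exact tm_nonneg _ hℓ hη hη1 p
      · exact le_refl _
    by_cases h : 0 < aE (IntermediateField.fixedField H) p
    · obtain ⟨σ, hσ, hpos⟩ := exists_cyclic_frob L H p p.2 h
      have h4 : tm (IntermediateField.fixedField H) ℓ η p = f σ p := by
        simp only [f, hσ, if_true, tm, h, hpos]
      rw [h4]
      exact Finset.single_le_sum (fun σ _ => hfnn σ) (Finset.mem_univ σ)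
    · have h4 : tm (IntermediateField.fixedField H) ℓ η p = 0 := by
        simp only [tm, h, if_false]
      rw [h4]
      exact Finset.sum_nonneg (fun σ _ => hfnn σ)
  have h2 : ∑' p, ∑ σ : (L ≃ₐ[ℚ] L), f σ p = ∑ σ : (L ≃ₐ[ℚ] L), ∑' p, f σ p :=
    Summable.tsum_finsetSum fun σ _ => hfs σ
  have h3 : ∑ σ : (L ≃ₐ[ℚ] L), ∑' p, f σ p ≤ ∑ _σ : (L ≃ₐ[ℚ] L), C :=
    Finset.sum_le_sum fun σ _ => hfle σ
  have h4 : ∑ _σ : (L ≃ₐ[ℚ] L), C = (Nat.card (L ≃ₐ[ℚ] L) : ℝ) * C := by
    rw [Finset.sum_const, nsmul_eq_mul, Nat.card_eq_fintype_card, Finset.card_univ]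
  have h5 : (Nat.card (L ≃ₐ[ℚ] L) : ℝ) ≤ N := by exact_mod_cast card_gal_le L N hN
  nlinarith

/-- the induction over the subgroups of `G` -/
theorem subgroup_induction_rel (hstep : StepStmt) (N : ℕ) (C₀ C₁ : ℝ) (k : ℕ) :
    ∃ C ℓ₁ : ℝ, 0 ≤ C ∧ 1 ≤ ℓ₁ ∧
    ∀ (L : Type) [Field L] [NumberField L] [IsTotallyReal L] [IsGalois ℚ L],
    Module.finrank ℚ L ≤ N → ∀ ℓ : ℝ, ℓ₁ ≤ ℓ → Real.log |(discr L : ℝ)| ≤ C₁ * ℓ →
    ∀ η : ℝ, 0 < η → η ≤ 1 → ∀ G : Subgroup (L ≃ₐ[ℚ] L),
    (∀ H : Subgroup (L ≃ₐ[ℚ] L), H ≤ G → IsPGroup 2 H →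
      Sc (IntermediateField.fixedField H) (fun _ => True) ℓ η ≤ C₀) →
    ∀ H : Subgroup (L ≃ₐ[ℚ] L), H ≤ G → Nat.card H ≤ k →
      Sc (IntermediateField.fixedField H) (fun _ => True) ℓ η ≤ C := by
  induction k with
  | zero =>
    refine ⟨0, 1, le_refl _, le_refl _, ?_⟩
    intro L _ _ _ _ _ ℓ _ _ η _ _ _ _ H _ hH
    have : 0 < Nat.card H := Nat.card_pos
    omega
  | succ k ih =>
    obtain ⟨C, ℓ₁, hC0, hℓ₁, hC⟩ := ih
    obtain ⟨C₂, ℓ₂, hC₂⟩ := hstep N (max C₁ C)
    refine ⟨max (max C₀ C₂) (max C (N * C)), max ℓ₁ ℓ₂, ?_, le_trans hℓ₁ (le_max_left _ _), ?_⟩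
    · exact le_trans hC0 (le_trans (le_max_left _ _) (le_max_right _ _))
    intro L _ _ _ _ hN ℓ hℓ hdisc η hη hη1 G h2 H hHG hH
    have hℓ1 : ℓ₁ ≤ ℓ := le_trans (le_max_left _ _) hℓ
    have hℓ2 : ℓ₂ ≤ ℓ := le_trans (le_max_right _ _) hℓ
    have hℓ0 : 1 ≤ ℓ := le_trans hℓ₁ hℓ1
    have hIH := hC L hN ℓ hℓ1 hdisc η hη hη1 G h2
    by_cases hcy : IsCyclic H
    · rcases Nat.eq_two_pow_or_exists_odd_prime_and_dvd (Nat.card H) with hp | hp
      · obtain ⟨e, he⟩ := hp
        have : IsPGroup 2 H := IsPGroup.of_card he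
        exact le_trans (h2 H hHG this) (le_trans (le_max_left _ _) (le_max_left _ _))
      · obtain ⟨d, hd, hdvd, hodd⟩ := hp
        obtain ⟨H', hle, hidx, hcard⟩ := exists_index_sub H hcy d hd hdvd
        have h3 := hIH H' (hle.trans hHG) (by omega)
        have h4 : Real.log |(discr L : ℝ)| ≤ max C₁ C * ℓ :=
          le_trans hdisc (mul_le_mul_of_nonneg_right (le_max_left _ _) (by linarith only [hℓ₁, hℓ1]))
        have h5 := hC₂ L hN H' H d hle hcy hd hodd hidx ℓ hℓ2 h4 η hη hη1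
          (le_trans h3 (le_max_right _ _))
        exact le_trans h5 (le_trans (le_max_right _ _) (le_max_left _ _))
    · have h3 := noncyclic_step_rel L N hN hℓ0 hη hη1 H hcy C hC0
        (fun H' hH'H hH' => hIH H' (hH'H.trans hHG) (by omega))
      exact le_trans h3 (le_trans (le_max_right _ _) (le_max_right _ _))

/-- the converse of `Sc_le_Del` -/
theorem Del_le_Sc (K : Type) [Field K] [NumberField K] {ℓ η : ℝ} (hℓ : 1 ≤ ℓ) (hη : 0 < η)
    (hη1 : η ≤ 1) :
    Del K (1 : DirichletCharacter ℂ 1) ℓ η ≤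
      (Module.finrank ℚ K : ℝ) * Sc K (fun _ => True) ℓ η := by
  have hχ : ∀ p : Nat.Primes, ((1 : DirichletCharacter ℂ 1) ((p : ℕ) : ZMod 1)).re = 1 := by
    intro p
    have : ((p : ℕ) : ZMod 1) = 1 := Subsingleton.elim _ _
    rw [this]
    simp
  rw [Sc_eq]
  unfold Del
  have hs : Summable fun p : Nat.Primes =>
      ((1 : DirichletCharacter ℂ 1) ((p : ℕ) : ZMod 1)).re * (aE K p : ℝ) * wt ℓ η p := by
    apply Summable.of_nonneg_of_le _ _
      ((summable_wt hℓ hη hη1).mul_left (Module.finrank ℚ K : ℝ))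
    · intro p
      rw [hχ p, one_mul]
      exact mul_nonneg (Nat.cast_nonneg _) (wt_nonneg hℓ hη hη1 p p.2).1
    · intro p
      rw [hχ p, one_mul]
      apply mul_le_mul_of_nonneg_right _ (wt_nonneg hℓ hη hη1 p p.2).1
      exact_mod_cast aE_le K p p.2
  rw [← tsum_mul_left]
  refine Summable.tsum_le_tsum ?_ hs ((tm_summable K hℓ hη hη1).mul_left _)
  intro p
  have h3 := (wt_nonneg hℓ hη hη1 p p.2).1
  rw [hχ p, one_mul]
  unfold tm
  split_ifs with h
  · apply mul_le_mul_of_nonneg_right _ h3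
    exact_mod_cast aE_le K p p.2
  · have h4 : aE K p = 0 := by omega
    rw [h4]
    simp

theorem not_exceptional_rel (n : ℕ) (F : Type) [Field F] [NumberField F] (hF : ∃ C : ℝ, ∀ ℓ : ℝ, 1 ≤ ℓ → ∀ η : ℝ, 0 < η → η ≤ 1 → -Real.log η - C ≤ Z.Del F (1 : DirichletCharacter ℂ 1) ℓ η) (k : ℕ) (hk : Odd k) (hn : Module.finrank ℚ F * k = n) : ∃ C ℓ₀ : ℝ, ∀ (K : Type) [Field K] [NumberField K] [NumberField.IsTotallyReal K], Module.finrank ℚ K = n → Nonempty (F →+* K) → ∀ ℓ : ℝ, ℓ₀ ≤ ℓ → Real.log |(NumberField.discr K : ℝ)| ≤ ℓ → ∀ η : ℝ, 0 < η → η ≤ 1 → -Real.log η - C ≤ Z.Del K (1 : DirichletCharacter ℂ 1) ℓ η := by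
  have hstep : StepStmt := cyclic_step_of exists_ZForm
  obtain ⟨N, Ccl, hcl⟩ := exists_closure n
  obtain ⟨CZ, ℓZ, hℓZ, hZ⟩ := exists_ZForm n 1
  obtain ⟨CF, hCF⟩ := hF
  obtain ⟨C, ℓ₁, hC0, hℓ₁, hC⟩ := subgroup_induction_rel hstep N CZ (2 * |Ccl|) N
  -- the final constant
  set D : ℝ := (Module.finrank ℚ F : ℝ) * C + |CF| with hD
  have hD0 : 0 ≤ D := by positivity
  refine ⟨|CZ| + |CZ| * D, max ℓZ ℓ₁, ?_⟩
  rintro K _ _ _ hK ⟨e⟩ ℓ hℓ hdisc η hη hη1
  have hℓ1 : 1 ≤ ℓ := le_trans hℓZ (le_trans (le_max_left _ _) hℓ)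
  obtain ⟨δ, d, hδ, hlen, hd, hχ, hmod⟩ := hZ K (le_of_eq hK) 1 1 (by simp) ℓ
    (le_trans (le_max_left _ _) hℓ) (by linarith) (by simp; linarith only [hℓ1])
  obtain ⟨rfl, hdpos⟩ := hχ rfl
  have hlen0 : (0 : ℝ) ≤ (d.length : ℝ) := Nat.cast_nonneg _
  have hCZ0 : 0 ≤ CZ := le_trans hlen0 hlen
  have hDel := hmod η hη hη1
  rw [abs_le] at hDel
  by_cases hne : d = []
  · subst hne
    have h1 : model 1 [] η = -Real.log η := by simp only [model, Nat.cast_one, one_mul,
                                                 List.map_nil, List.sum_nil, add_zero]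
    rw [h1] at hDel
    have h2 : 0 ≤ |CZ| * D := mul_nonneg (abs_nonneg _) hD0
    have h3 := le_abs_self CZ
    linarith [hDel.1]
  -- the smallest element
  obtain ⟨m, hm, hmin⟩ := Finset.exists_min_image d.toFinset id
    (by rwa [List.toFinset_nonempty_iff])
  rw [List.mem_toFinset] at hm
  have hmin' : ∀ x ∈ d, m ≤ x := fun x hx => hmin x (List.mem_toFinset.mpr hx)
  have hm0 : 0 < m := hdpos m hm
  have hm1 : m ≤ 1 := (hd m hm).2
  have hmodel := model_at_min d (fun x hx => ⟨hdpos x hx, (hd x hx).2⟩) m hm hmin'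
  have hDelm := hmod m hm0 hm1
  rw [abs_le] at hDelm
  have hScK : Sc K (fun _ => True) ℓ m ≤ CZ := by
    have := Sc_le_Del K hℓ1 hm0 hm1
    linarith [hDelm.2]
  -- Galois closure
  obtain ⟨L, iF, iN, iA, iR, iG, hLN, hLd⟩ := hcl K hK
  have hdK : 0 ≤ Real.log |(discr K : ℝ)| := by
    apply Real.log_nonneg
    have h1 : discr K ≠ 0 := discr_ne_zero K
    have h2 : (1 : ℤ) ≤ |discr K| := Int.one_le_abs h1
    have h3 : ((1 : ℤ) : ℝ) ≤ ((|discr K| : ℤ) : ℝ) := by exact_mod_cast h2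
    rw [Int.cast_abs] at h3
    simpa only [ge_iff_le, Int.cast_one] using h3
  have hLd' : Real.log |(discr L : ℝ)| ≤ 2 * |Ccl| * ℓ := by
    have h1 : Ccl * (1 + Real.log |(discr K : ℝ)|) ≤ |Ccl| * (1 + Real.log |(discr K : ℝ)|) :=
      mul_le_mul_of_nonneg_right (le_abs_self _) (by linarith)
    have h2 : |Ccl| * (1 + Real.log |(discr K : ℝ)|) ≤ |Ccl| * (2 * ℓ) :=
      mul_le_mul_of_nonneg_left (by linarith) (abs_nonneg _)
    linarith
  -- the tower
  let _ : Algebra F K := e.toAlgebra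
  let _ : Algebra F L := ((algebraMap K L).comp e).toAlgebra
  have hT : IsScalarTower F K L := IsScalarTower.of_algebraMap_eq fun a => rfl
  have hodd : Odd (Module.finrank F K) := by
    have h1 := Module.finrank_mul_finrank ℚ F K
    rw [hK, ← hn] at h1
    have h2 : Module.finrank F K = k :=
      Nat.eq_of_mul_eq_mul_left (Module.finrank_pos (R := ℚ) (M := F)) h1
    rw [h2]
    exact hk
  let M : IntermediateField ℚ L := (IsScalarTower.toAlgHom ℚ F L).fieldRange
  have hM : ∀ a : F, algebraMap F L a ∈ M := fun a => ⟨a, rfl⟩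
  have hfix : ∀ H : Subgroup (L ≃ₐ[ℚ] L), H ≤ M.fixingSubgroup → ∀ σ ∈ H, ∀ a : F,
      σ (algebraMap F L a) = algebraMap F L a := fun H hH σ hσ a =>
    (IntermediateField.mem_fixingSubgroup_iff M σ).1 (hH hσ) _ (hM a)
  have hall := hC L hLN ℓ (le_trans (le_max_right _ _) hℓ) hLd' m hm0 hm1 M.fixingSubgroup
    (by
      intro H hHM hH
      refine le_trans (Sc_mono _ K hℓ1 hm0 hm1 ?_) hScK
      intro p hp hpos
      exact aE_pos_two_group_rel F K L hodd H (hfix H hHM) hH p hp hpos)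
    M.fixingSubgroup le_rfl
    (by
      refine le_trans ?_ (card_gal_le L N hLN)
      exact Nat.card_le_card_of_injective _ Subtype.val_injective)
  have hMF : IntermediateField.fixedField M.fixingSubgroup = M :=
    IsGalois.fixedField_fixingSubgroup M
  let ψ : IntermediateField.fixedField M.fixingSubgroup ≃ₐ[ℚ] F :=
    (IntermediateField.equivOfEq hMF).trans
      (AlgEquiv.ofInjectiveField (IsScalarTower.toAlgHom ℚ F L)).symm
  have hScF : Sc F (fun _ => True) ℓ m ≤ C := by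
    refine le_trans (Sc_mono F (IntermediateField.fixedField M.fixingSubgroup) hℓ1 hm0 hm1 ?_) hall
    intro p hp hpos
    let _ : Algebra (IntermediateField.fixedField M.fixingSubgroup) F :=
      ψ.toAlgHom.toRingHom.toAlgebra
    exact aE_pos_of_algebra (IntermediateField.fixedField M.fixingSubgroup) F p hp hpos
  have hlogm : -D ≤ Real.log m := by
    have h1 := hCF ℓ hℓ1 m hm0 hm1
    have h2 := Del_le_Sc F hℓ1 hm0 hm1
    have h3 := mul_le_mul_of_nonneg_left hScF
      (Nat.cast_nonneg (α := ℝ) (Module.finrank ℚ F))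
    have h4 := le_abs_self CF
    linarith
  have hge := model_ge d m η hm0 hmin'
  have h5 : -(|CZ| * D) ≤ (d.length : ℝ) * Real.log m := by
    have h6 : (d.length : ℝ) * (-D) ≤ (d.length : ℝ) * Real.log m :=
      mul_le_mul_of_nonneg_left hlogm hlen0
    have h7 : (d.length : ℝ) * D ≤ |CZ| * D :=
      mul_le_mul_of_nonneg_right (le_trans hlen (le_abs_self _)) hD0
    linarith only [h6, h7]
  have h3 := le_abs_self CZ
  linarith [hDel.1]

end Vale.Agent.P007.H11
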