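import Vale.Agent.P007.H11.LimFam
import Vale.Agent.P007.H11.DelFix
import Vale.Agent.P007.H11.RelExc

/-! The limits of packet measures for fields of odd degree over a fixed field: the theorems in terms
of the definitions of `StmtF`, `Defs` and `Defs2`. -/

set_option autoImplicit false

open MeasureTheory Matrix NumberField Filter Topology
open scoped ENNReal nonZeroDivisors CompactlySupported

namespace Vale.Agent.P007.F

variable {n : ℕ}

/-- uniform absence of exceptional zeros for the fields of odd degree over a fixed field -/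
theorem exists_NE (F : Type) [Field F] [NumberField F] {k : ℕ} (hk : Odd k)
    (hkn : Module.finrank ℚ F * k = n) : ∃ C ℓ₀ : ℝ, ∀ (K : Type) [Field K] [NumberField K],
      IsTotallyReal K → Module.finrank ℚ K = n → Nonempty (F →+* K) → H11.NE C ℓ₀ K := by
  obtain ⟨C, ℓ₀, h⟩ := H11.not_exceptional_rel n F (H11.Del_fixed F) k hk hkn
  exact ⟨C, ℓ₀, fun K _ _ hK hd hF => h K hd hF⟩

section Seq

variable {F : Type} [Field F] [NumberField F] {K : ℕ → Type} [∀ i, Field (K i)]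
  [∀ i, NumberField (K i)] {O : ∀ i, Subring (𝓞 (K i))}
  {σ : ∀ i, Fin n ≃ (K i →+* ℝ)} {μ : ℕ → Measure (X n)}

/-- No escape of mass: explicit bound for the mass in the cusp. -/
theorem cusp_bound_fam (hn3 : 3 ≤ n) (F : Type) [Field F] [NumberField F] {k : ℕ} (hk : Odd k)
    (hkn : Module.finrank ℚ F * k = n) : ∃ C : ℝ, ∀ ε : ℝ, 0 < ε → ε < 1 → ∃ D₀ : ℕ,
    ∀ (K : Type) [Field K] [NumberField K] (O : Subring (𝓞 K)) (σ : Fin n ≃ (K →+* ℝ))
      (μ : Measure (X n)), PacketMeas K O σ μ → Nonempty (F →+* K) → D₀ ≤ disc K O →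
      μ {x | ∃ g, pt g = x ∧ ∃ v ∈ lat g, v ≠ 0 ∧ ∀ j, |v j| < ε} ≤ ENNReal.ofReal (C * √ε) := by
  obtain ⟨C₀, ℓ₀, hNE⟩ := exists_NE (n := n) F hk hkn
  obtain ⟨C, hC⟩ := H11.tight_fam n hn3 C₀ ℓ₀
  refine ⟨C, fun ε hε hε1 => ?_⟩
  obtain ⟨D₀, hD₀⟩ := hC ε hε hε1
  refine ⟨D₀, fun K _ _ O σ μ hμ hFK hd => ?_⟩
  have h1 : μ = (T.mkD (isDatum hμ.1)).packetMeas :=
    (T.pktMeas_iff (isDatum hμ.1) _).mp ((packetMeas_iff μ).mp hμ).2
  have h2 := hD₀ (T.mkD (isDatum hμ.1)) (hNE K hμ.1.real hμ.1.deg hFK) hd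
  rw [h1]
  refine le_trans (measure_mono ?_) h2
  rintro x ⟨g, hg, v, hv, hv0, hvε⟩
  exact ⟨v, ⟨g, hg, hv⟩, hv0, hvε⟩

theorem subseq_fam (hn3 : 3 ≤ n) {k : ℕ} (hk : Odd k) (hkn : Module.finrank ℚ F * k = n)
    (hFK : ∀ i, Nonempty (F →+* K i)) (h : ∀ i, PacketMeas (K i) (O i) (σ i) (μ i))
    (hdisc : Tendsto (fun i => disc (K i) (O i)) atTop atTop) :
    ∃ φ : ℕ → ℕ, StrictMono φ ∧ ∃ ν, IsProbabilityMeasure ν ∧ WeakTo (fun i => μ (φ i)) ν := by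
  obtain ⟨C₀, ℓ₀, hNE⟩ := exists_NE (n := n) F hk hkn
  have h1 := seq_eq h
  obtain ⟨φ, hφ, ν, hν, hW⟩ := H11.exists_subseq_fam (n := n) hn3 (C₀ := C₀) (ℓ₀ := ℓ₀)
      (fun i => T.mkD (isDatum (h i).1))
      (fun i => hNE (K i) (h i).1.real (h i).1.deg (hFK i)) hdisc
  refine ⟨φ, hφ, ν, hν, ?_⟩
  rw [h1]
  exact hW

theorem criterion_fam (hn3 : 3 ≤ n) {k : ℕ} (hk : Odd k) (hkn : Module.finrank ℚ F * k = n)
    (hFK : ∀ i, Nonempty (F →+* K i)) (h : ∀ i, PacketMeas (K i) (O i) (σ i) (μ i))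
    (hdisc : Tendsto (fun i => disc (K i) (O i)) atTop atTop) {m : Measure (X n)}
    (hm : IsInvProb m) :
    (WeakTo μ m ↔ ∀ p : Fin n → ℝ, IsMult p → ∀ L ⊆ Stab p, IsCompact L → ∀ ε > 0,
      ∃ V, IsOpen V ∧ L ⊆ V ∧ ∀ᶠ i in atTop, μ i V ≤ ε) := by
  obtain ⟨C₀, ℓ₀, hNE⟩ := exists_NE (n := n) F hk hkn
  have h1 := seq_eq h
  rw [h1]
  have h2 := H11.criterion_fam (n := n) hn3 (C₀ := C₀) (ℓ₀ := ℓ₀)
    (fun i => T.mkD (isDatum (h i).1))
    (fun i => hNE (K i) (h i).1.real (h i).1.deg (hFK i)) hdisc (m := m) hm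
  refine Iff.trans h2 ?_
  refine forall_congr' fun p => imp_congr Iff.rfl ?_
  rw [stab_eq]
  exact Iff.rfl

/-- **All weak limits are algebraic.** -/
theorem algebraic_fam (hn3 : 3 ≤ n) {k : ℕ} (hk : Odd k) (hkn : Module.finrank ℚ F * k = n)
    (hFK : ∀ i, Nonempty (F →+* K i)) (h : ∀ i, PacketMeas (K i) (O i) (σ i) (μ i))
    (hdisc : Tendsto (fun i => disc (K i) (O i)) atTop atTop) {m : Measure (X n)}
    (hm : IsInvProb m) (ν : Measure (X n)) [IsFiniteMeasure ν]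
    (hν : ∀ f : C_c(X n, ℝ), Tendsto (fun i => ∫ x, f x ∂μ i) atTop (𝓝 (∫ x, f x ∂ν))) :
    WeakTo μ ν ∧ IsProbabilityMeasure ν ∧
      (∃ κ : Measure (X n), Comb IsMult κ ∧ ν = ν (RM n)ᶜ • m + κ) ∧
      ∀ (p : Fin n → ℝ) (f : Polynomial ℤ) (l : ℕ), f.Monic → Irreducible f →
        (∀ j, Polynomial.aeval (p j) f = 0) → 1 < f.natDegree → l.Prime → f.natDegree * l = n →
        (∀ i, ∃ a ∈ O i, ∀ j, σ i j a = p j) → Comb (fun q => q = p) ν := by
  obtain ⟨C₀, ℓ₀, hNE⟩ := exists_NE (n := n) F hk hkn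
  have hNE' : ∀ i, H11.NE C₀ ℓ₀ (T.mkD (isDatum (h i).1)).K := fun i =>
    hNE (K i) (h i).1.real (h i).1.deg (hFK i)
  have hsg : ∀ i, ∀ g ∈ H11.W n, (μ i).map (tr g) = μ i := by
    rintro i g ⟨w, hw⟩
    exact packetMeas_sign (h i) w g hw
  have h1 := seq_eq h
  have key := fun (ν' : Measure (Vale.Agent.P007.X n)) (_ : IsFiniteMeasure ν') =>
      H11.limit_props_fam (n := n) hn3 (C₀ := C₀) (ℓ₀ := ℓ₀)
        (fun i => T.mkD (isDatum (h i).1)) hNE' hdisc ν'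
  obtain ⟨h2, h3, h4⟩ := key ν ‹IsFiniteMeasure ν› (by rw [h1] at hν; exact hν)
  have hW : H11.SInv (n := n) ν := fun g hg => by
    have key2 := fun (ν' : Measure (Vale.Agent.P007.X n)) (_ : IsFiniteMeasure ν') =>
      H11.map_of_limit (n := n) (μ := μ) ν'
    exact key2 ν ‹IsFiniteMeasure ν› hν (g := g) fun i => hsg i g hg
  refine ⟨⟨hν, fun ε hε => ?_⟩, h2, ?_, ?_⟩
  · obtain ⟨C, hC, hCe⟩ := H11.tightness_fam (n := n) hn3 (C₀ := C₀) (ℓ₀ := ℓ₀)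
      (fun i => T.mkD (isDatum (h i).1)) hNE' hdisc ε hε
    refine ⟨C, hC, ?_⟩
    rw [h1]
    exact hCe
  · have key3 := fun (ν' : Measure (Vale.Agent.P007.X n)) (_ : IsProbabilityMeasure ν') =>
      H11.structure_dec_gen (n := n) hn3 (by omega) ν' (m := m)
    obtain ⟨κ, hκ, hνκ⟩ := key3 ν h2 h3 h4 hW hm
    refine ⟨κ, comb_of hκ, ?_⟩
    rw [RM_eq]
    exact hνκ
  · intro p f l hf hfi hroot hf1 hl hln hp
    have hY : ν (Vale.Agent.P007.Yd (n := n) p)ᶜ = 0 := by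
      have key2 := fun (ν' : Measure (Vale.Agent.P007.X n)) (_ : IsProbabilityMeasure ν') =>
        H11.null_of_limit (n := n) (μ := fun i => (T.mkD (isDatum (h i).1)).packetMeas)
          (fun i => packetMeas_prob _) ν'
      refine key2 ν h2 (by rw [h1] at hν; exact hν) (Vale.Agent.P007.isClosed_Yd p) fun i => ?_
      obtain ⟨a, ha, hap⟩ := hp i
      refine packetMeas_null _ (Vale.Agent.P007.isClosed_Yd p).measurableSet ?_
      rintro S ⟨x, hx, rfl⟩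
      have h5 := orb_subset_Yd (T.mkD (isDatum (h i).1)) hx ⟨a, ha⟩
      have h6 : (fun j => (T.mkD (isDatum (h i).1)).σ j ((⟨a, ha⟩ : (T.mkD (isDatum (h i).1)).O) :
          𝓞 (T.mkD (isDatum (h i).1)).K)) = p := funext fun j => hap j
      rw [h6] at h5
      exact h5
    have key3 := fun (ν' : Measure (Vale.Agent.P007.X n)) (_ : IsProbabilityMeasure ν') =>
      H11.structure_prime_gen (n := n) hn3 (by omega) ν' (m := m) (p := p) (f := f) (k := l)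
    exact comb_of (key3 ν h2 h3 h4 hW hm hf hfi hroot hf1 hl hln hY)

end Seq

end Vale.Agent.P007.F
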