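import Vale.Agent.P007.H11.RReg

/-!
Quadratic fields without exceptional zeros: a lower bound for `Δ_{E,1}` on all larger scales.
-/

set_option autoImplicit false

open NumberField Filter Topology

namespace Vale.Agent.P007.H11

open Vale.Agent.P007 Vale.Agent.P007.Z Vale.Agent.P007.Z.CStep
open Vale.Agent.P007.F (Reg)

namespace RDel305

/-- the values of `(s - 1) ζ(s)` near `s = 1` -/
theorem exists_near (E : Type) [Field E] [NumberField E] :
    ∃ u : ℝ, 1 < u ∧ ∀ s : ℝ, 1 < s → s < u →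
      dedekindZeta_residue E * Real.exp (-1) ≤ (s - 1) * ‖dedekindZeta E (s : ℂ)‖ := by
  have hρ0 : 0 < dedekindZeta_residue E := dedekindZeta_residue_pos E
  have h1 := (tendsto_sub_one_mul_dedekindZeta_nhdsGT E).norm
  have h2 : ‖((dedekindZeta_residue E : ℝ) : ℂ)‖ = dedekindZeta_residue E := by
    rw [Complex.norm_real, Real.norm_eq_abs, abs_of_pos hρ0]
  rw [h2] at h1
  have h3 : Set.Ioi (dedekindZeta_residue E * Real.exp (-1)) ∈ 𝓝 (dedekindZeta_residue E) := by
    refine Ioi_mem_nhds ?_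
    have h4 : Real.exp (-1) < 1 := Real.exp_lt_one_iff.2 (by norm_num)
    nlinarith
  have h4 := h1 h3
  rw [mem_map, mem_nhdsGT_iff_exists_Ioo_subset] at h4
  obtain ⟨u, hu, hu2⟩ := h4
  refine ⟨u, hu, fun s hs hsu => ?_⟩
  have hs0 : 0 < s - 1 := by linarith
  have h5 : s ∈ Set.Ioo (1 : ℝ) u := ⟨hs, hsu⟩
  have h6 := hu2 h5
  rw [Set.mem_preimage, Set.mem_Ioi] at h6
  have h10 : ‖((s : ℂ) - 1) * dedekindZeta E (s : ℂ)‖ = (s - 1) * ‖dedekindZeta E (s : ℂ)‖ := by
    rw [norm_mul]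
    congr 1
    rw [← Complex.ofReal_one, ← Complex.ofReal_sub, Complex.norm_real, Real.norm_eq_abs,
      abs_of_pos hs0]
  rw [h10] at h6
  exact h6.le

theorem exists_le_all {d : List ℝ} (hd : ∀ x ∈ d, 0 < x) :
    ∃ e : ℝ, 0 < e ∧ e ≤ 1 ∧ ∀ x ∈ d, e ≤ x := by
  induction d with
  | nil => exact ⟨1, one_pos, le_refl _, fun x hx => absurd hx List.not_mem_nil⟩
  | cons a t ih =>
    obtain ⟨e, he, he1, h⟩ := ih fun x hx => hd x (List.mem_cons_of_mem _ hx)
    refine ⟨min a e, lt_min (hd a List.mem_cons_self) he, (min_le_right _ _).trans he1,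
      fun x hx => ?_⟩
    rcases List.mem_cons.1 hx with rfl | hx
    · exact min_le_left _ _
    · exact (min_le_right _ _).trans (h x hx)

theorem model_ge {d : List ℝ} (hd : ∀ x ∈ d, 0 < x) (η : ℝ) :
    -Real.log η + (d.map Real.log).sum ≤ model 1 d η := by
  unfold model
  rw [Nat.cast_one, one_mul]
  have h := List.sum_le_sum (l := d) (f := Real.log) (g := fun x => Real.log (max η x))
    fun x hx => Real.log_le_log (hd x hx) (le_max_right _ _)
  linarith

theorem model_eq_of_le {d : List ℝ} {e : ℝ} (h : ∀ x ∈ d, e ≤ x) :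
    model 1 d e = -Real.log e + (d.map Real.log).sum := by
  unfold model
  rw [Nat.cast_one, one_mul]
  congr 2
  exact List.map_congr_left fun x hx => by rw [max_eq_right (h x hx)]

end RDel305

open RDel305

/-- **[R2]** Regularity on the scale `log D` gives the lower bound for `Δ_{E,1}` on all larger
scales. -/
theorem reg_del (c : ℝ) (hc : 0 < c) : ∃ B ℓ₀ : ℝ, ∀ (E : Type) [Field E] [NumberField E]
    [IsTotallyReal E], Module.finrank ℚ E = 2 → ∀ D : ℝ, ℓ₀ ≤ Real.log D →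
    |(discr E : ℝ)| ≤ D → Reg c E D → ∀ ℓ : ℝ, Real.log D ≤ ℓ → ∀ η : ℝ, 0 < η → η ≤ 1 →
      -Real.log η - B ≤ Del E (1 : DirichletCharacter ℂ 1) ℓ η := by
  obtain ⟨C, ℓ₀, hℓ₀, hZ⟩ := exists_ZForm 2 1
  refine ⟨17 + 3 * C - Real.log c, ℓ₀, fun E _ _ _ h2 D hD hdisc hreg ℓ hℓ η hη hη1 => ?_⟩
  have hD0 : 0 < Real.log D := by linarith
  have hℓ0 : 0 < ℓ := by linarith
  have hdE : Real.log |(discr E : ℝ)| ≤ Real.log D := by
    refine Real.log_le_log ?_ hdisc
    rw [abs_pos]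
    exact_mod_cast discr_ne_zero E
  have hone : Odd (orderOf (1 : DirichletCharacter ℂ 1)) := by
    rw [orderOf_one]
    exact odd_one
  have hZ1 : ∀ l : ℝ, Real.log D ≤ l → ZOne E (1 : DirichletCharacter ℂ 1) l C := by
    intro l hl
    refine hZ E h2.le 1 1 hone l (hD.trans hl) (by linarith) ?_
    rw [Nat.cast_one, Real.log_one]
    linarith
  obtain ⟨δ, d, -, -, -, h1, hb⟩ := hZ1 ℓ hℓ
  obtain ⟨rfl, hpos⟩ := h1 rfl
  -- the values at one point
  obtain ⟨u, hu, hnear⟩ := exists_near E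
  obtain ⟨e, he, he1, hed⟩ := exists_le_all hpos
  set ε : ℝ := min e ((u - 1) / 2) with hε
  have hε0 : 0 < ε := lt_min he (by linarith)
  have hεe : ε ≤ e := min_le_left _ _
  have hεu : ε ≤ (u - 1) / 2 := min_le_right _ _
  have hεℓ : ε / ℓ ≤ ε := div_le_self hε0.le (by linarith)
  have hεℓ0 : 0 < ε / ℓ := by positivity
  have h3 := hnear (1 + ε / ℓ) (by linarith) (by linarith)
  rw [add_sub_cancel_left] at h3
  have hρ : 0 < dedekindZeta_residue E := dedekindZeta_residue_pos E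
  have hz := zeta_pos E (s := 1 + ε / ℓ) (by linarith)
  have h4 := Real.log_le_log (by positivity) h3
  rw [Real.log_mul hρ.ne' (Real.exp_pos _).ne', Real.log_exp, Real.log_mul hεℓ0.ne' hz.ne',
    Real.log_div hε0.ne' hℓ0.ne'] at h4
  have h5 := (abs_le.1 (abs_log_zeta_sub_PS E (s := 1 + ε / ℓ) (by linarith))).2
  rw [h2, Nat.cast_ofNat] at h5
  have h6 := (abs_le.1 (hb ε hε0 (hεe.trans he1))).2
  rw [N.Del_one E hℓ0 hε0, model_eq_of_le fun x hx => hεe.trans (hed x hx)] at h6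
  -- the scale `log D`
  have h7 := ZOne.le (hZ1 (Real.log D) le_rfl) (η := Real.log D / ℓ) (by positivity)
    (by rw [div_le_one hℓ0]; exact hℓ)
  have e1 : Real.log D / ℓ / Real.log D = 1 / ℓ := by
    field_simp
  rw [N.Del_one E hD0 (by positivity), e1, Real.log_div hD0.ne' hℓ0.ne'] at h7
  have hs : 1 < 1 + 1 / Real.log D := by
    have : 0 < 1 / Real.log D := by positivity
    linarith
  have h8 := (abs_le.1 (abs_log_zeta_sub_PS E hs)).1
  rw [h2, Nat.cast_ofNat] at h8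
  have hz' := zeta_pos E hs
  unfold Reg at hreg
  have h9 := Real.log_le_log (by positivity) hreg
  rw [Real.log_mul hc.ne' hz'.ne', Real.log_mul hρ.ne' hD0.ne'] at h9
  -- the conclusion
  have h10 := (abs_le.1 (hb η hη hη1)).1
  have h11 := model_ge hpos η
  linarith

end Vale.Agent.P007.H11
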