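import Mathlib.GroupTheory.Sylow
import Mathlib.GroupTheory.Transfer
import Mathlib.Data.Nat.Factorization.Basic

/-!
# Families of subgroups and a subgroup of index two
-/

set_option autoImplicit false

namespace Vale.Agent.P007.H11

open Subgroup MulAction
open scoped Pointwise

section Grp

variable {G : Type} [Group G] [Finite G] (𝓑 : Set (Subgroup G))

omit [Finite G] in
/-- The cyclic subgroup generated by a conjugate. -/
theorem zpowers_conj (c g : G) :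
    zpowers (c * g * c⁻¹) = (zpowers g).map (MulAut.conj c).toMonoidHom := by
  rw [MonoidHom.map_zpowers]
  rfl

variable {𝓑}

omit [Finite G] in
theorem zp_conj (b2 : ∀ H ∈ 𝓑, ∀ g : G, H.map (MulAut.conj g).toMonoidHom ∈ 𝓑) (c g : G) :
    zpowers (c * g * c⁻¹) ∈ 𝓑 ↔ zpowers g ∈ 𝓑 := by
  constructor
  · intro h
    have h1 := b2 _ h c⁻¹
    rw [← zpowers_conj] at h1
    have h2 : c⁻¹ * (c * g * c⁻¹) * c⁻¹⁻¹ = g := by group
    rwa [h2] at h1
  · intro h
    rw [zpowers_conj]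
    exact b2 _ h c

omit [Finite G] in
theorem zp_pow (b1 : ∀ H' H : Subgroup G, H' ≤ H → H ∈ 𝓑 → H' ∈ 𝓑) {g : G} (h : zpowers g ∈ 𝓑)
    (k : ℕ) : zpowers (g ^ k) ∈ 𝓑 :=
  b1 _ _ (zpowers_le.2 (pow_mem (mem_zpowers g) k)) h

/-- A cyclic group is bounded if its subgroup of an odd index is. -/
theorem zp_odd (b3 : ∀ (H' H : Subgroup G) (d : ℕ), H' ≤ H → IsCyclic H → d.Prime → Odd d →
    H'.relIndex H = d → H' ∈ 𝓑 → H ∈ 𝓑) :
    ∀ m : ℕ, Odd m → ∀ g : G, zpowers (g ^ m) ∈ 𝓑 → zpowers g ∈ 𝓑 := by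
  intro m
  induction m using Nat.strong_induction_on with
  | _ m ih =>
    intro hm g hg
    rcases eq_or_ne m 1 with h1 | h1
    · rwa [h1, pow_one] at hg
    obtain ⟨d, hd, hdm⟩ := Nat.exists_prime_and_dvd h1
    obtain ⟨m', rfl⟩ := hdm
    have hodd := Nat.odd_mul.1 hm
    have hm' : m' < d * m' := by
      have := hd.two_le
      have : 0 < m' := hodd.2.pos
      nlinarith
    rw [pow_mul] at hg
    have h2 : zpowers (g ^ d) ∈ 𝓑 := ih m' hm' hodd.2 (g ^ d) hg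
    by_cases hdvd : d ∣ orderOf g
    · refine b3 (zpowers (g ^ d)) (zpowers g) d (zpowers_le.2 (pow_mem (mem_zpowers g) d))
        inferInstance hd hodd.1 ?_ h2
      have h3 := Subgroup.relIndex_mul_relIndex ⊥ (zpowers (g ^ d)) (zpowers g) bot_le
        (zpowers_le.2 (pow_mem (mem_zpowers g) d))
      rw [Subgroup.relIndex_bot_left, Subgroup.relIndex_bot_left, Nat.card_zpowers,
        Nat.card_zpowers, orderOf_pow, Nat.gcd_eq_right hdvd] at h3
      obtain ⟨k, hk⟩ := hdvd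
      have hpos : 0 < orderOf g := orderOf_pos g
      rw [hk, Nat.mul_div_cancel_left k hd.pos] at h3
      have hk0 : 0 < k := by
        rcases Nat.eq_zero_or_pos k with h | h
        · rw [h] at hk
          omega
        · exact h
      exact Nat.eq_of_mul_eq_mul_left hk0 (by rw [h3, mul_comm])
    · have h3 : (orderOf g).Coprime d := ((Nat.Prime.coprime_iff_not_dvd hd).2 hdvd).symm
      have h4 : zpowers g ≤ zpowers (g ^ d) := by
        rw [zpowers_le]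
        obtain ⟨k, hk⟩ : ∃ k : ℕ, (g ^ d) ^ k = g := exists_pow_eq_self_of_coprime h3.symm
        have h5 : (g ^ d) ^ k ∈ zpowers (g ^ d) := pow_mem (mem_zpowers (g ^ d)) k
        rw [hk] at h5
        exact h5
      have h5 : zpowers g = zpowers (g ^ d) :=
        le_antisymm h4 (zpowers_le.2 (pow_mem (mem_zpowers g) d))
      rw [h5]
      exact h2

/-- The odd part of the order. -/
theorem exists_two_part (g : G) : ∃ m : ℕ, Odd m ∧ IsPGroup 2 (zpowers (g ^ m)) := by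
  have hpos : 0 < orderOf g := orderOf_pos g
  obtain ⟨k, m, hm, hk⟩ := Nat.exists_eq_two_pow_mul_odd hpos.ne'
  refine ⟨m, hm, ?_⟩
  have h1 : orderOf (g ^ m) ∣ 2 ^ k := by
    refine orderOf_dvd_of_pow_eq_one ?_
    rw [← pow_mul, mul_comm m, ← hk, pow_orderOf_eq_one]
  obtain ⟨j, -, hj⟩ := (Nat.dvd_prime_pow Nat.prime_two).1 h1
  exact IsPGroup.of_card (n := j) (by rw [Nat.card_zpowers, hj])

/-- A `2`-element is conjugate into the Sylow subgroup. -/
theorem exists_conj_mem (P : Sylow 2 G) {x : G} (hx : IsPGroup 2 (zpowers x)) :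
    ∃ c : G, c * x * c⁻¹ ∈ P := by
  obtain ⟨Q, hQ⟩ := hx.exists_le_sylow
  obtain ⟨c, hc⟩ := MulAction.exists_smul_eq G Q P
  refine ⟨c, ?_⟩
  have h1 : x ∈ Q := hQ (mem_zpowers x)
  have h2 : (MulAut.conj c) x ∈ (MulAut.conj c) • (Q : Subgroup G) :=
    Subgroup.smul_mem_pointwise_smul x (MulAut.conj c) (Q : Subgroup G) h1
  have h3 : (P : Subgroup G) = (MulAut.conj c) • (Q : Subgroup G) := by
    rw [← hc]
    rfl
  change c * x * c⁻¹ ∈ (P : Subgroup G)
  rw [h3]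
  exact h2

open Classical in
/-- The sign of an element: `1` if the cyclic group is bounded. -/
noncomputable def sg (𝓑 : Set (Subgroup G)) (g : G) : ℤˣ := if zpowers g ∈ 𝓑 then 1 else -1

omit [Finite G] in
theorem sg_eq_one {g : G} : sg 𝓑 g = 1 ↔ zpowers g ∈ 𝓑 := by
  unfold sg
  split_ifs with h
  · simp [h]
  · simp only [h, iff_false]
    decide

omit [Finite G] in
theorem sg_eq {g h : G} (H : zpowers g ∈ 𝓑 ↔ zpowers h ∈ 𝓑) : sg 𝓑 g = sg 𝓑 h := by
  by_cases h1 : zpowers g ∈ 𝓑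
  · rw [sg_eq_one.2 h1, sg_eq_one.2 (H.1 h1)]
  · unfold sg
    rw [if_neg h1, if_neg fun h2 => h1 (H.2 h2)]

omit [Finite G] in
theorem sg_mul_self (g : G) : sg 𝓑 g * sg 𝓑 g = 1 := by
  unfold sg
  split_ifs <;> decide

/-- The group lemma, from the two facts on `2`-groups. -/
theorem group_lemma_of (b0 : ⊥ ∈ 𝓑) (b1 : ∀ H' H : Subgroup G, H' ≤ H → H ∈ 𝓑 → H' ∈ 𝓑)
    (b2 : ∀ H ∈ 𝓑, ∀ g : G, H.map (MulAut.conj g).toMonoidHom ∈ 𝓑)
    (b3 : ∀ (H' H : Subgroup G) (d : ℕ), H' ≤ H → IsCyclic H → d.Prime → Odd d →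
      H'.relIndex H = d → H' ∈ 𝓑 → H ∈ 𝓑)
    (b7 : ∀ H : Subgroup G, (∀ σ ∈ H, Subgroup.zpowers σ ∈ 𝓑) → H ∈ 𝓑)
    (h1 : ∀ P R₀ : Subgroup G, IsPGroup 2 P → P ∉ 𝓑 → R₀ ∈ 𝓑 → R₀ ≤ P →
      ∃ R ∈ 𝓑, R₀ ≤ R ∧ R ≤ P ∧ R.relIndex P = 2)
    (h2 : ∀ P R R' : Subgroup G, R ≤ P → R' ≤ P → R.relIndex P = 2 → R'.relIndex P = 2 →
      R ≠ R' → R ∈ 𝓑 → R' ∈ 𝓑 → P ∈ 𝓑) :
    (⊤ : Subgroup G) ∈ 𝓑 ∨ ∃ N : Subgroup G, N.index = 2 ∧ N ∈ 𝓑 ∧ ∀ H ∈ 𝓑, H ≤ N := by
  classical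
  obtain ⟨P⟩ : Nonempty (Sylow 2 G) := inferInstance
  by_cases hP : (P : Subgroup G) ∈ 𝓑
  · left
    refine b7 ⊤ fun g _ => ?_
    obtain ⟨m, hm, h3⟩ := exists_two_part g
    obtain ⟨c, hc⟩ := exists_conj_mem P h3
    have h4 : zpowers (c * g ^ m * c⁻¹) ∈ 𝓑 := b1 _ _ (zpowers_le.2 hc) hP
    exact zp_odd b3 m hm g ((zp_conj b2 c _).1 h4)
  right
  obtain ⟨M, hM, -, hMP, hidx⟩ := h1 P ⊥ P.isPGroup' hP b0 bot_le
  -- on the Sylow subgroup
  have hx : ∀ x ∈ (P : Subgroup G), (zpowers x ∈ 𝓑 ↔ x ∈ M) := by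
    intro x hxP
    constructor
    · intro h
      by_contra hxM
      obtain ⟨R, hR, hxR, hRP, hRi⟩ := h1 P (zpowers x) P.isPGroup' hP h (zpowers_le.2 hxP)
      refine hP (h2 P M R hMP hRP hidx hRi ?_ hM hR)
      rintro rfl
      exact hxM (hxR (mem_zpowers x))
    · intro h
      exact b1 _ _ (zpowers_le.2 h) hM
  have hidx' : (M.subgroupOf P).index = 2 := hidx
  have hmul : ∀ x y : G, x ∈ (P : Subgroup G) → y ∈ (P : Subgroup G) →
      (x * y ∈ M ↔ (x ∈ M ↔ y ∈ M)) := by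
    intro x y hx hy
    exact mul_mem_iff_of_index_two hidx' (a := ⟨x, hx⟩) (b := ⟨y, hy⟩)
  -- squares
  have hsq : ∀ g : G, zpowers (g ^ 2) ∈ 𝓑 := by
    intro g
    obtain ⟨m, hm, h3⟩ := exists_two_part g
    obtain ⟨c, hc⟩ := exists_conj_mem P h3
    have h4 : (c * g ^ m * c⁻¹) * (c * g ^ m * c⁻¹) ∈ M := by
      rw [hmul _ _ hc hc]
    have h5 : zpowers (c * (g ^ 2) ^ m * c⁻¹) ∈ 𝓑 := by
      have h6 : c * (g ^ 2) ^ m * c⁻¹ = (c * g ^ m * c⁻¹) * (c * g ^ m * c⁻¹) := by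
        have h7 : (g ^ 2) ^ m = g ^ m * g ^ m := by
          rw [← pow_mul, ← pow_add]
          congr 1
          ring
        rw [h7]
        group
      rw [h6]
      exact b1 _ _ (zpowers_le.2 h4) hM
    exact zp_odd b3 m hm _ ((zp_conj b2 c _).1 h5)
  have hpow : ∀ (g : G) (k : ℕ), sg 𝓑 (g ^ k) = sg 𝓑 g ^ k := by
    intro g k
    rcases Nat.even_or_odd k with hk | hk
    · obtain ⟨j, rfl⟩ := hk
      have h3 : zpowers (g ^ (j + j)) ∈ 𝓑 := by
        have h4 : g ^ (j + j) = (g ^ 2) ^ j := by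
          rw [← pow_mul]
          congr 1
          ring
        rw [h4]
        exact zp_pow b1 (hsq g) j
      rw [sg_eq_one.2 h3, pow_add, ← mul_pow, sg_mul_self, one_pow]
    · have h3 : sg 𝓑 (g ^ k) = sg 𝓑 g := sg_eq ⟨zp_odd b3 k hk g, fun h => zp_pow b1 h k⟩
      obtain ⟨j, rfl⟩ := hk
      rw [h3, pow_succ, pow_mul, sq, sg_mul_self, one_pow, one_mul]
  have hconj : ∀ c g : G, sg 𝓑 (c⁻¹ * g * c) = sg 𝓑 g := by
    intro c g
    have h3 := sg_eq (zp_conj b2 c⁻¹ g)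
    rw [inv_inv] at h3
    exact h3
  -- the homomorphism on `P`
  let f : P →* ℤˣ :=
    { toFun := fun x => sg 𝓑 (x : G)
      map_one' := by
        rw [sg_eq_one, OneMemClass.coe_one, zpowers_one_eq_bot]
        exact b0
      map_mul' := fun x y => by
        have h3 := hmul x y x.2 y.2
        have h4 := hx (x * y : G) (mul_mem x.2 y.2)
        have h5 := hx x x.2
        have h6 := hx y y.2
        change sg 𝓑 ((x : G) * (y : G)) = sg 𝓑 (x : G) * sg 𝓑 (y : G)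
        unfold sg
        rw [h4, h5, h6, h3]
        by_cases hxm : (x : G) ∈ M <;> by_cases hym : (y : G) ∈ M <;> simp [hxm, hym] }
  have hodd : Odd (P : Subgroup G).index := by
    rw [← Nat.not_even_iff_odd, even_iff_two_dvd]
    exact P.not_dvd_index
  have htr : ∀ g : G, MonoidHom.transfer f g = sg 𝓑 g := by
    intro g
    have : Fintype (Quotient (MulAction.orbitRel (zpowers g) (G ⧸ (P : Subgroup G)))) :=
      Fintype.ofFinite _
    rw [MonoidHom.transfer_eq_prod_quotient_orbitRel_zpowers_quot]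
    have h3 : ∀ q : Quotient (MulAction.orbitRel (zpowers g) (G ⧸ (P : Subgroup G))),
        f ⟨q.out.out⁻¹ * g ^ Function.minimalPeriod (g • ·) q.out * q.out.out,
            QuotientGroup.out_conj_pow_minimalPeriod_mem P g q.out⟩ =
          sg 𝓑 g ^ Function.minimalPeriod (g • ·) q.out := by
      intro q
      change sg 𝓑 (q.out.out⁻¹ * g ^ Function.minimalPeriod (g • ·) q.out * q.out.out) = _
      rw [hconj, hpow]
    rw [Finset.prod_congr rfl fun q _ => h3 q, Finset.prod_pow_eq_pow_sum]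
    have h4 := index_eq_sum_minimalPeriod (P : Subgroup G) g
    rw [← h4]
    obtain ⟨j, hj⟩ := hodd
    rw [hj, pow_succ, pow_mul, sq, sg_mul_self, one_pow, one_mul]
  refine ⟨(MonoidHom.transfer f).ker, ?_, ?_, ?_⟩
  · obtain ⟨x, hxP, hxM⟩ : ∃ x ∈ (P : Subgroup G), x ∉ M := by
      by_contra hcon
      push Not at hcon
      have h3 : (P : Subgroup G) ≤ M := hcon
      rw [relIndex_eq_one.2 h3] at hidx
      omega
    have h3 : MonoidHom.transfer f x = -1 := by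
      rw [htr]
      unfold sg
      rw [if_neg fun h => hxM ((hx x hxP).1 h)]
    rw [index_ker]
    have h4 : (MonoidHom.transfer f).range = ⊤ := by
      rw [eq_top_iff]
      intro u _
      rcases Int.units_eq_one_or u with rfl | rfl
      · exact one_mem _
      · exact ⟨x, h3⟩
    rw [h4]
    simp
  · refine b7 _ fun g hg => ?_
    rw [MonoidHom.mem_ker, htr, sg_eq_one] at hg
    exact hg
  · intro H hH g hg
    rw [MonoidHom.mem_ker, htr, sg_eq_one]
    exact b1 _ _ (zpowers_le.2 hg) hH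

end Grp

end Vale.Agent.P007.H11
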