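import Vale.Agent.P007.H11.QDefs

/-! Block A6a: `2`-groups. A family of subgroups closed under the steps (b2), (b4), (b5), (b6) which
does not contain a `2`-group `P` contains a subgroup of index two of `P`. -/

set_option autoImplicit false
namespace Vale.Agent.P007.H11.Grp2

/-- products in a pair of groups of index two -/
theorem mul_mem_iff {G : Type} [Group G] {A B : Subgroup G} (h : A.relIndex B = 2) {a b : G}
    (ha : a ∈ B) (hb : b ∈ B) : a * b ∈ A ↔ (a ∈ A ↔ b ∈ A) := by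
  have h1 := Subgroup.mul_mem_iff_of_index_two (H := A.subgroupOf B) h (a := ⟨a, ha⟩) (b := ⟨b, hb⟩)
  simpa [Subgroup.mem_subgroupOf] using h1

theorem card_of_relIndex {G : Type} [Group G] {A B : Subgroup G} (hle : A ≤ B)
    (h : A.relIndex B = 2) : Nat.card B = 2 * Nat.card A := by
  have h1 := Subgroup.relIndex_mul_relIndex ⊥ A B bot_le hle
  rw [Subgroup.relIndex_bot_left, Subgroup.relIndex_bot_left, h] at h1
  omega

theorem relIndex_of_card {G : Type} [Group G] [Finite G] {A B : Subgroup G} (hle : A ≤ B)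
    (h : Nat.card B = 2 * Nat.card A) : A.relIndex B = 2 := by
  have h1 := Subgroup.relIndex_mul_relIndex ⊥ A B bot_le hle
  rw [Subgroup.relIndex_bot_left, Subgroup.relIndex_bot_left, h] at h1
  have h2 : 0 < Nat.card A := Nat.card_pos
  exact Nat.eq_of_mul_eq_mul_left h2 (by rw [h1, mul_comm])

theorem relIndex_of_elt {G : Type} [Group G] {A B : Subgroup G} {x : G}
    (hx : x ∈ B) (hxA : x ∉ A) (h : ∀ g ∈ B, g ∉ A → x⁻¹ * g ∈ A) : A.relIndex B = 2 := by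
  refine Subgroup.index_eq_two_iff'.2 ⟨⟨x⁻¹, B.inv_mem hx⟩, ?_⟩
  rintro ⟨b, hb⟩
  simp only [Subgroup.mem_subgroupOf, MulMemClass.mk_mul_mk]
  by_cases hbA : b ∈ A
  · exact Or.inr ⟨hbA, fun h1 => hxA (by
      have h2 := A.mul_mem h1 (A.inv_mem hbA)
      rw [mul_inv_cancel_right] at h2
      exact A.inv_mem_iff.1 h2)⟩
  · exact Or.inl ⟨h b hb hbA, hbA⟩

/-- the third group -/
def third {G : Type} [Group G] {A A' B : Subgroup G} (h : A.relIndex B = 2)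
    (h' : A'.relIndex B = 2) : Subgroup G where
  carrier := {g | g ∈ B ∧ (g ∈ A ↔ g ∈ A')}
  mul_mem' := by
    rintro a b ⟨ha, ha'⟩ ⟨hb, hb'⟩
    exact ⟨B.mul_mem ha hb, by rw [mul_mem_iff h ha hb, mul_mem_iff h' ha hb, ha', hb']⟩
  one_mem' := ⟨B.one_mem, by simp only [A.one_mem, A'.one_mem]⟩
  inv_mem' := by
    rintro a ⟨ha, ha'⟩
    exact ⟨B.inv_mem ha, by rw [A.inv_mem_iff, A'.inv_mem_iff, ha']⟩

theorem mem_third {G : Type} [Group G] {A A' B : Subgroup G} (h : A.relIndex B = 2)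
    (h' : A'.relIndex B = 2) {g : G} : g ∈ third h h' ↔ g ∈ B ∧ (g ∈ A ↔ g ∈ A') := Iff.rfl

theorem exists_not_mem {G : Type} [Group G] [Finite G] {A A' : Subgroup G}
    (h : Nat.card A = Nat.card A') (hne : A ≠ A') : ∃ x ∈ A, x ∉ A' := by
  by_contra hcon
  push Not at hcon
  exact hne (Subgroup.eq_of_le_of_card_ge hcon h.ge)

/-- two different groups of index two give a four group -/
theorem v4_of_two {G : Type} [Group G] [Finite G] {A A' B : Subgroup G} (hA : A ≤ B) (hA' : A' ≤ B)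
    (h : A.relIndex B = 2) (h' : A'.relIndex B = 2) (hne : A ≠ A') :
    V4 (A ⊓ A') A A' (third h h') B := by
  have c := card_of_relIndex hA h
  have c' := card_of_relIndex hA' h'
  obtain ⟨x, hx, hx'⟩ := exists_not_mem (A := A) (A' := A') (by omega) hne
  obtain ⟨y, hy, hy'⟩ := exists_not_mem (A := A') (A' := A) (by omega) hne.symm
  have hxB := hA hx
  have hyB := hA' hy
  have h1 : (A ⊓ A').relIndex A = 2 := by
    refine relIndex_of_elt hx (fun h1 => hx' h1.2) ?_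
    intro g hg hg'
    have hgA' : g ∉ A' := fun h1 => hg' ⟨hg, h1⟩
    refine Subgroup.mem_inf.2 ⟨A.mul_mem (A.inv_mem hx) hg, ?_⟩
    rw [mul_mem_iff h' (B.inv_mem hxB) (hA hg), A'.inv_mem_iff]
    exact ⟨fun h1 => absurd h1 hx', fun h1 => absurd h1 hgA'⟩
  have h2 : (A ⊓ A').relIndex A' = 2 := by
    refine relIndex_of_elt hy (fun h1 => hy' h1.1) ?_
    intro g hg hg'
    have hgA : g ∉ A := fun h1 => hg' ⟨h1, hg⟩
    refine Subgroup.mem_inf.2 ⟨?_, A'.mul_mem (A'.inv_mem hy) hg⟩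
    rw [mul_mem_iff h (B.inv_mem hyB) (hA' hg), A.inv_mem_iff]
    exact ⟨fun h1 => absurd h1 hy', fun h1 => absurd h1 hgA⟩
  have hzA : x * y ∉ A := by
    rw [mul_mem_iff h hxB hyB]
    exact fun h1 => hy' (h1.1 hx)
  have hzA' : x * y ∉ A' := by
    rw [mul_mem_iff h' hxB hyB]
    exact fun h1 => hx' (h1.2 hy)
  have hz : x * y ∈ third h h' :=
    ⟨B.mul_mem hxB hyB, fun h1 => absurd h1 hzA, fun h1 => absurd h1 hzA'⟩
  have hle3 : A ⊓ A' ≤ third h h' := fun g hg => ⟨hA hg.1, fun _ => hg.2, fun _ => hg.1⟩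
  have h3 : (A ⊓ A').relIndex (third h h') = 2 := by
    refine relIndex_of_elt hz (fun h1 => hzA h1.1) ?_
    intro g hg hg'
    have hgA : g ∉ A := fun h1 => hg' ⟨h1, hg.2.1 h1⟩
    have hgA' : g ∉ A' := fun h1 => hg' ⟨hg.2.2 h1, h1⟩
    refine Subgroup.mem_inf.2 ⟨?_, ?_⟩
    · rw [mul_mem_iff h (B.inv_mem hz.1) hg.1, A.inv_mem_iff]
      exact ⟨fun h1 => absurd h1 hzA, fun h1 => absurd h1 hgA⟩
    · rw [mul_mem_iff h' (B.inv_mem hz.1) hg.1, A'.inv_mem_iff]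
      exact ⟨fun h1 => absurd h1 hzA', fun h1 => absurd h1 hgA'⟩
  have c1 := card_of_relIndex inf_le_left h1
  have c2 := card_of_relIndex inf_le_right h2
  have c3 := card_of_relIndex hle3 h3
  exact
    { le₁ := inf_le_left
      le₂ := inf_le_right
      le₃ := hle3
      le₁' := hA
      le₂' := hA'
      le₃' := fun g hg => hg.1
      card₁ := c1
      card₂ := c2
      card₃ := c3
      card' := by omega
      cover := by
        intro g hg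
        by_cases hgA : g ∈ A
        · exact Or.inl hgA
        by_cases hgA' : g ∈ A'
        · exact Or.inr (Or.inl hgA')
        · exact Or.inr (Or.inr ⟨hg, fun h1 => absurd h1 hgA, fun h1 => absurd h1 hgA'⟩)
      inf₁₂ := fun g hg hg' => ⟨hg, hg'⟩
      inf₁₃ := fun g hg hg' => ⟨hg, hg'.2.1 hg⟩
      inf₂₃ := fun g hg hg' => ⟨hg'.2.2 hg, hg⟩ }

/-- the next group in a `2`-group -/
theorem exists_succ {G : Type} [Group G] [Finite G] {P R : Subgroup G} (hP : IsPGroup 2 P)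
    (hle : R ≤ P) (hne : R ≠ P) : ∃ M : Subgroup G, R ≤ M ∧ M ≤ P ∧ R.relIndex M = 2 := by
  have : Fact (Nat.Prime 2) := ⟨Nat.prime_two⟩
  obtain ⟨n, hn⟩ := hP.exists_card_eq
  have hdvd : Nat.card R ∣ 2 ^ n := hn ▸ Subgroup.card_dvd_of_le hle
  obtain ⟨m, hm, hRm⟩ := (Nat.dvd_prime_pow Nat.prime_two).1 hdvd
  have hmn : m < n := by
    rcases lt_or_eq_of_le hm with h | h
    · exact h
    · subst h
      exact absurd (Subgroup.eq_of_le_of_card_ge hle (by rw [hn, hRm])) hne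
  obtain ⟨K, hK, hRK⟩ := Sylow.exists_subgroup_card_pow_succ (G := P) (p := 2) (n := m)
    (hn ▸ pow_dvd_pow 2 hmn) (H := R.subgroupOf P)
    (by rw [← hRm]; exact Nat.card_congr (Subgroup.subgroupOfEquivOfLe hle).toEquiv)
  have h1 : R ≤ K.map P.subtype := by
    rw [← Subgroup.map_subgroupOf_eq_of_le hle]
    exact Subgroup.map_mono hRK
  refine ⟨K.map P.subtype, h1, Subgroup.map_subtype_le K, relIndex_of_card h1 ?_⟩
  rw [Subgroup.card_subtype, hK, hRm, pow_succ, mul_comm]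

/-- a character with kernel `R`, if `M'' / R` is cyclic of order four -/
theorem exists_char4 {G : Type} [Group G] [Finite G] {R M' M'' : Subgroup G} (hRM : R ≤ M')
    (hMM : M' ≤ M'') (h1 : R.relIndex M' = 2) (h2 : M'.relIndex M'' = 2)
    (hn : ∀ y ∈ M'', ∀ r ∈ R, y * r * y⁻¹ ∈ R) {x : G} (hx : x ∈ M'') (hxx : x * x ∉ R) :
    ∃ ψ : M'' →* ℂˣ, (∀ h : M'', ψ h ^ 4 = 1) ∧ (∃ h : M'', ψ h ^ 2 ≠ 1) ∧
      (∀ h : M'', ψ h = 1 ↔ (h : G) ∈ R) ∧ (∀ h : M'', ψ h ^ 2 = 1 ↔ (h : G) ∈ M') := by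
  set N : Subgroup M'' := R.subgroupOf M'' with hN
  have : N.Normal := ⟨fun n hnn g => hn g g.2 n hnn⟩
  have hcard : Nat.card (M'' ⧸ N) = 4 := by
    have h3 := Subgroup.relIndex_mul_relIndex R M' M'' hRM hMM
    rw [h1, h2] at h3
    exact h3.symm
  set xb : M'' ⧸ N := ((⟨x, hx⟩ : M'') : M'' ⧸ N) with hxb
  have hx2 : xb ^ 2 ≠ 1 := by
    intro h3
    apply hxx
    have h4 : ((⟨x, hx⟩ * ⟨x, hx⟩ : M'') : M'' ⧸ N) = 1 := by
      rw [QuotientGroup.mk_mul, ← pow_two]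
      exact h3
    exact (QuotientGroup.eq_one_iff (N := N) (⟨x, hx⟩ * ⟨x, hx⟩ : M'')).1 h4
  have hord : orderOf xb = 4 := by
    have : Fact (Nat.Prime 2) := ⟨Nat.prime_two⟩
    have h3 : orderOf xb = 2 ^ (1 + 1) := by
      refine orderOf_eq_prime_pow (by simpa using hx2) ?_
      have h4 : xb ^ Nat.card (M'' ⧸ N) = 1 := pow_card_eq_one'
      rw [hcard] at h4
      exact h4
    rw [h3]
    norm_num
  have : IsCyclic (M'' ⧸ N) := isCyclic_of_orderOf_eq_card xb (by rw [hord, hcard])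
  have hcard' : Nat.card (M'' ⧸ N) = Nat.card (rootsOfUnity 4 ℂ) := by
    rw [Complex.card_rootsOfUnity, hcard]
  let e : M'' ⧸ N ≃* rootsOfUnity 4 ℂ := mulEquivOfCyclicCardEq hcard'
  set ψ : M'' →* ℂˣ :=
    (rootsOfUnity 4 ℂ).subtype.comp (e.toMonoidHom.comp (QuotientGroup.mk' N)) with hψ
  have hψ1 : ∀ h : M'', ψ h = 1 ↔ (h : G) ∈ R := by
    intro h
    have h3 : ψ h = ((e (h : M'' ⧸ N) : rootsOfUnity 4 ℂ) : ℂˣ) := rfl
    rw [h3]
    constructor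
    · intro h4
      have h5 : e (h : M'' ⧸ N) = 1 := Subtype.ext h4
      have h6 : (h : M'' ⧸ N) = 1 := by
        rw [← e.map_one] at h5
        exact e.injective h5
      exact (QuotientGroup.eq_one_iff h).1 h6
    · intro h4
      have h5 : (h : M'' ⧸ N) = 1 := (QuotientGroup.eq_one_iff h).2 h4
      rw [h5, map_one]
      rfl
  have hψ4 : ∀ h : M'', ψ h ^ 4 = 1 := fun h => (mem_rootsOfUnity 4 _).1 (e (h : M'' ⧸ N)).2
  have hψx : ψ ⟨x, hx⟩ ^ 2 ≠ 1 := by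
    rw [pow_two, ← map_mul]
    exact fun h3 => hxx ((hψ1 _).1 h3)
  have hM' : ∀ h : M'', (h : G) ∈ M' → ψ h ^ 2 = 1 := by
    intro h hh
    rw [pow_two, ← map_mul, hψ1]
    exact (mul_mem_iff h1 hh hh).2 Iff.rfl
  have hxM' : x ∉ M' := fun h3 => hψx (hM' ⟨x, hx⟩ h3)
  refine ⟨ψ, hψ4, ⟨_, hψx⟩, hψ1, fun h => ⟨fun h3 => ?_, hM' h⟩⟩
  by_contra hh
  have h4 : x⁻¹ * (h : G) ∈ M' := by
    rw [mul_mem_iff h2 (M''.inv_mem hx) h.2, M'.inv_mem_iff]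
    exact ⟨fun h5 => absurd h5 hxM', fun h5 => absurd h5 hh⟩
  have h5 := hM' (⟨x, hx⟩⁻¹ * h) h4
  rw [map_mul, map_inv, mul_pow, inv_pow, h3, mul_one, inv_eq_one] at h5
  exact hψx h5

/-- `R ∪ x R` -/
def two {G : Type} [Group G] {R M'' : Subgroup G} (hn : ∀ y ∈ M'', ∀ r ∈ R, y * r * y⁻¹ ∈ R)
    {x : G} (hx : x ∈ M'') (hxx : x * x ∈ R) : Subgroup G where
  carrier := {g | g ∈ R ∨ x⁻¹ * g ∈ R}
  mul_mem' := by
    rintro a b (ha | ha) (hb | hb)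
    · exact Or.inl (R.mul_mem ha hb)
    · refine Or.inr ?_
      have h1 := hn x⁻¹ (M''.inv_mem hx) a ha
      have h2 := R.mul_mem h1 hb
      have h3 : x⁻¹ * a * x⁻¹⁻¹ * (x⁻¹ * b) = x⁻¹ * (a * b) := by group
      rwa [h3] at h2
    · refine Or.inr ?_
      rw [← mul_assoc]
      exact R.mul_mem ha hb
    · refine Or.inl ?_
      have h1 := hn x hx _ ha
      have h2 := R.mul_mem (R.mul_mem h1 hxx) hb
      have h3 : x * (x⁻¹ * a) * x⁻¹ * (x * x) * (x⁻¹ * b) = a * b := by group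
      rwa [h3] at h2
  one_mem' := Or.inl R.one_mem
  inv_mem' := by
    rintro a (ha | ha)
    · exact Or.inl (R.inv_mem ha)
    · refine Or.inr ?_
      have h1 := hn x⁻¹ (M''.inv_mem hx) _ (R.inv_mem ha)
      have h2 := R.mul_mem h1 (R.inv_mem hxx)
      have h3 : x⁻¹ * (x⁻¹ * a)⁻¹ * x⁻¹⁻¹ * (x * x)⁻¹ = x⁻¹ * a⁻¹ := by group
      rwa [h3] at h2

theorem mem_two {G : Type} [Group G] {R M'' : Subgroup G}
    (hn : ∀ y ∈ M'', ∀ r ∈ R, y * r * y⁻¹ ∈ R)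
    {x : G} (hx : x ∈ M'') (hxx : x * x ∈ R) {g : G} :
    g ∈ two hn hx hxx ↔ g ∈ R ∨ x⁻¹ * g ∈ R := Iff.rfl

end Vale.Agent.P007.H11.Grp2

namespace Vale.Agent.P007.H11

open Grp2

/-- block A6a -/
theorem index_two {G : Type} [Group G] [Finite G] (𝓑 : Set (Subgroup G))
    (_b1 : ∀ H' H : Subgroup G, H' ≤ H → H ∈ 𝓑 → H' ∈ 𝓑)
    (b2 : ∀ H ∈ 𝓑, ∀ g : G, H.map (MulAut.conj g).toMonoidHom ∈ 𝓑)
    (b4 : ∀ (M M' M'' : Subgroup G) (ψ : M'' →* ℂˣ), (∀ h : M'', ψ h ^ 4 = 1) →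
      (∃ h : M'', ψ h ^ 2 ≠ 1) → (∀ h : M'', ψ h = 1 ↔ (h : G) ∈ M) →
      (∀ h : M'', ψ h ^ 2 = 1 ↔ (h : G) ∈ M') → M ≤ M' → M' ≤ M'' → M ∈ 𝓑 → M' ∈ 𝓑)
    (b5 : ∀ M M₁ M₂ M₃ M' : Subgroup G, V4 M M₁ M₂ M₃ M' → M ∈ 𝓑 →
      M₁ ∈ 𝓑 ∨ M₂ ∈ 𝓑 ∨ M₃ ∈ 𝓑)
    (b6 : ∀ M M₁ M₂ M₃ M' : Subgroup G, V4 M M₁ M₂ M₃ M' → M₁ ∈ 𝓑 → M₂ ∈ 𝓑 → M' ∈ 𝓑)
    (P R₀ : Subgroup G) (hP : IsPGroup 2 P) (hPB : P ∉ 𝓑) (hR₀ : R₀ ∈ 𝓑) (hRP₀ : R₀ ≤ P) :
    ∃ R ∈ 𝓑, R₀ ≤ R ∧ R ≤ P ∧ R.relIndex P = 2 := by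
  obtain ⟨R, ⟨⟨hR, hR0, hRP⟩, hmax⟩⟩ := Set.Finite.exists_maximal
    (s := {R : Subgroup G | R ∈ 𝓑 ∧ R₀ ≤ R ∧ R ≤ P}) (Set.toFinite _) ⟨R₀, hR₀, le_rfl, hRP₀⟩
  have hbig : ∀ X : Subgroup G, R ≤ X → X ≤ P → Nat.card X = 2 * Nat.card R → X ∉ 𝓑 := by
    intro X hRX hXP hc hX
    have h1 : X = R := le_antisymm (hmax ⟨hX, hR0.trans hRX, hXP⟩ hRX) hRX
    rw [h1] at hc
    have h2 : 0 < Nat.card R := Nat.card_pos
    omega
  have hne : R ≠ P := fun h => hPB (h ▸ hR)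
  obtain ⟨M', hRM, hMP, h1⟩ := exists_succ hP hRP hne
  have c1 := card_of_relIndex hRM h1
  have hM' : M' ∉ 𝓑 := hbig M' hRM hMP c1
  by_cases hM'P : M' = P
  · exact ⟨R, hR, hR0, hRP, hM'P ▸ h1⟩
  exfalso
  obtain ⟨M'', hMM, hM''P, h2⟩ := exists_succ hP hMP hM'P
  have c2 := card_of_relIndex hMM h2
  by_cases hconj : ∀ y ∈ M'', R.map (MulAut.conj y).toMonoidHom = R
  · have hn : ∀ y ∈ M'', ∀ r ∈ R, y * r * y⁻¹ ∈ R := by
      intro y hy r hr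
      rw [← hconj y hy]
      exact ⟨r, hr, rfl⟩
    by_cases hcyc : ∃ x ∈ M'', x * x ∉ R
    · obtain ⟨x, hx, hxx⟩ := hcyc
      obtain ⟨ψ, hψ4, hψ2, hψ1, hψM⟩ := exists_char4 hRM hMM h1 h2 hn hx hxx
      exact hM' (b4 R M' M'' ψ hψ4 hψ2 hψ1 hψM hRM hMM hR)
    · push Not at hcyc
      obtain ⟨x, hx, hxM'⟩ : ∃ x ∈ M'', x ∉ M' := by
        by_contra hcon
        push Not at hcon
        have h3 := Subgroup.card_le_of_le (H := M'') (K := M') hcon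
        have h4 : 0 < Nat.card M' := Nat.card_pos
        omega
      have hxx := hcyc x hx
      set M₂ := two hn hx hxx with hM₂
      have hxM₂ : x ∈ M₂ := Or.inr (by rw [inv_mul_cancel]; exact R.one_mem)
      have hRM₂ : R ≤ M₂ := fun g hg => Or.inl hg
      have hM₂M'' : M₂ ≤ M'' := by
        rintro g (hg | hg)
        · exact hMM (hRM hg)
        · have h3 := M''.mul_mem hx (hMM (hRM hg))
          rwa [mul_inv_cancel_left] at h3
      have h3 : R.relIndex M₂ = 2 := by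
        refine relIndex_of_elt hxM₂ (fun h3 => hxM' (hRM h3)) ?_
        intro g hg hgR
        exact hg.resolve_left hgR
      have c3 := card_of_relIndex hRM₂ h3
      have h4 : M₂.relIndex M'' = 2 := relIndex_of_card hM₂M'' (by omega)
      have hne2 : M' ≠ M₂ := fun h5 => hxM' (h5 ▸ hxM₂)
      have hV := v4_of_two hMM hM₂M'' h2 h4 hne2
      have c4 := hV.card₁
      have c5 := hV.card₃
      have hinf : R = M' ⊓ M₂ := Subgroup.eq_of_le_of_card_ge (le_inf hRM hRM₂) (by omega)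
      have hle3 := hV.le₃
      rw [← hinf] at hV hle3
      rcases b5 _ _ _ _ _ hV hR with h5 | h5 | h5
      · exact hM' h5
      · exact hbig _ hRM₂ (hM₂M''.trans hM''P) c3 h5
      · exact hbig _ hle3 (hV.le₃'.trans hM''P) hV.card₃ h5
  · push Not at hconj
    obtain ⟨y, hy, hyR⟩ := hconj
    have hle : R.map (MulAut.conj y).toMonoidHom ≤ M' := by
      rintro _ ⟨r, hr, rfl⟩
      change y * r * y⁻¹ ∈ M'
      have hrM : r ∈ M' := hRM hr
      rw [mul_mem_iff h2 (M''.mul_mem hy (hMM hrM)) (M''.inv_mem hy),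
        mul_mem_iff h2 hy (hMM hrM), M'.inv_mem_iff]
      exact ⟨fun h3 => h3.2 hrM, fun h3 => ⟨fun _ => hrM, fun _ => h3⟩⟩
    have hcard : Nat.card (R.map (MulAut.conj y).toMonoidHom) = Nat.card R :=
      Subgroup.card_map_of_injective (MulAut.conj y).injective
    have h3 : (R.map (MulAut.conj y).toMonoidHom).relIndex M' = 2 :=
      relIndex_of_card hle (by omega)
    exact hM' (b6 _ _ _ _ _ (v4_of_two hRM hle h1 h3 (Ne.symm hyR)) hR (b2 R hR y))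

/-- two bounded groups of index two -/
theorem two_index_two {G : Type} [Group G] [Finite G] (𝓑 : Set (Subgroup G))
    (b6 : ∀ M M₁ M₂ M₃ M' : Subgroup G, V4 M M₁ M₂ M₃ M' → M₁ ∈ 𝓑 → M₂ ∈ 𝓑 → M' ∈ 𝓑)
    (P R R' : Subgroup G) (hR : R ∈ 𝓑) (hR' : R' ∈ 𝓑) (hRP : R ≤ P) (hRP' : R' ≤ P)
    (h : R.relIndex P = 2) (h' : R'.relIndex P = 2) (hne : R ≠ R') : P ∈ 𝓑 :=
  b6 _ _ _ _ _ (v4_of_two hRP hRP' h h' hne) hR hR'

end Vale.Agent.P007.H11
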