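import Vale.Agent.P007.H11.QMain
import Vale.Agent.P007.H11.QGrp
import Vale.Agent.P007.H11.QGrp2

/-!
# The group lemma, in the form used by `QMain`
-/

set_option autoImplicit false

namespace Vale.Agent.P007.H11

theorem groupStmt : GroupStmt := by
  intro G _ _ 𝓑 b0 b1 b2 b3 b4 b5 b6 b7
  exact group_lemma_of b0 b1 b2 b3 b7 (fun P R₀ hP hPB hR₀ hle =>
    index_two 𝓑 b1 b2 b4 b5 b6 P R₀ hP hPB hR₀ hle)
    (fun P R R' hRP hRP' h h' hne hR hR' => two_index_two 𝓑 b6 P R R' hR hR' hRP hRP' h h' hne)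

end Vale.Agent.P007.H11
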