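import Vale.Agent.P007.Bdl.B3

/-!
# P007-Q, block A3 (helper98): counting function of the Frobenius elements

`exists_nu`: for `p` unramified in the Galois field `L` there is `ν ≥ 0` on the Galois group,
carried by the Frobenius elements over `p`, with `aE (L^H) p * |H| = ∑_{σ ∈ H} ν σ`.
-/

set_option autoImplicit false

open NumberField

namespace Vale.Agent.P007.H11

open Vale.Agent.P007 Vale.Agent.P007.Z

namespace Nu98

section basic

variable (L : Type) [Field L] [NumberField L] (p : ℕ)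

/-- `σ` is a Frobenius at `Q` -/
def Fr (Q : Ideal (𝓞 L)) (σ : L ≃ₐ[ℚ] L) : Prop :=
  ∀ x : 𝓞 L, RingOfIntegers.mapRingEquiv σ.toRingEquiv x - x ^ p ∈ Q

variable {L p}

theorem liesOver (hp : p.Prime) {E : Type} [Field E] [NumberField E] {Q : Ideal (𝓞 E)}
    (hQ : Q.IsMaximal) (hpQ : (p : 𝓞 E) ∈ Q) : Q.LiesOver (Ideal.span {(p : ℤ)}) := by
  rw [Ideal.liesOver_span_iff hQ.ne_top (Nat.prime_iff_prime_int.mp hp)]
  exact_mod_cast hpQ

/-- the inertia group is trivial -/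
theorem inertia_trivial [IsGalois ℚ L] (hp : p.Prime) (hD : ¬ (p : ℤ) ∣ discr L)
    {Q : Ideal (𝓞 L)} (hQ : Q.IsMaximal) (hpQ : (p : 𝓞 L) ∈ Q) {σ : L ≃ₐ[ℚ] L}
    (hσ : ∀ x : 𝓞 L, σ • x - x ∈ Q) : σ = 1 := by
  have hpI : Prime (p : ℤ) := Nat.prime_iff_prime_int.mp hp
  have hunr := (not_dvd_discr_iff_isUnramifiedIn L (𝓞 L) hpI).mp hD
  have hover := liesOver hp hQ hpQ
  set 𝔭 : Ideal ℤ := Ideal.span {(p : ℤ)} with h𝔭
  have h𝔭max : 𝔭.IsMaximal := by
    rw [h𝔭]
    have : Fact p.Prime := ⟨hp⟩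
    exact Int.ideal_span_isMaximal_of_prime p
  have he : Ideal.ramificationIdxIn 𝔭 (𝓞 L) = 1 := by
    rw [Ideal.ramificationIdxIn_eq_ramificationIdx 𝔭 Q (L ≃ₐ[ℚ] L)]
    exact hunr.ramificationIdx_eq_one hover
  have h1 := Ideal.card_inertia_eq_ramificationIdxIn (G := L ≃ₐ[ℚ] L) 𝔭 Q
  rw [he] at h1
  have h2 : σ ∈ Q.inertia (L ≃ₐ[ℚ] L) := hσ
  have h3 : Q.inertia (L ≃ₐ[ℚ] L) = ⊥ := Subgroup.card_eq_one.mp h1
  rw [h3, Subgroup.mem_bot] at h2
  exact h2

theorem fr_unique [IsGalois ℚ L] (hp : p.Prime) (hD : ¬ (p : ℤ) ∣ discr L)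
    {Q : Ideal (𝓞 L)} (hQ : Q.IsMaximal) (hpQ : (p : 𝓞 L) ∈ Q) {σ τ : L ≃ₐ[ℚ] L}
    (hσ : Fr L p Q σ) (hτ : Fr L p Q τ) : σ = τ := by
  have h1 : ∀ x : 𝓞 L, (σ * τ⁻¹) • x - x ∈ Q := by
    intro x
    have h2 : σ • (τ⁻¹ • x) - (τ⁻¹ • x) ^ p ∈ Q := hσ (τ⁻¹ • x)
    have h3 : τ • (τ⁻¹ • x) - (τ⁻¹ • x) ^ p ∈ Q := hτ (τ⁻¹ • x)
    rw [smul_inv_smul] at h3
    have h4 := sub_mem h2 h3
    rw [mul_smul]
    have e : σ • (τ⁻¹ • x) - (τ⁻¹ • x) ^ p - (x - (τ⁻¹ • x) ^ p) = σ • (τ⁻¹ • x) - x := by ring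
    rwa [e] at h4
  exact mul_inv_eq_one.mp (inertia_trivial hp hD hQ hpQ h1)

/-- a Frobenius in `H` if the prime below has norm `p` -/
theorem fr_of_norm (hp : p.Prime) (H : Subgroup (L ≃ₐ[ℚ] L)) {Q : Ideal (𝓞 L)}
    (hQ : Q.IsMaximal) (hpQ : (p : 𝓞 L) ∈ Q)
    (hn : Ideal.absNorm (Q.under (𝓞 (IntermediateField.fixedField H))) = p) :
    ∃ σ ∈ H, Fr L p Q σ := by
  have hQbot : Q ≠ ⊥ := by
    rintro rfl
    rw [Ideal.mem_bot] at hpQ
    exact hp.ne_zero (by exact_mod_cast hpQ)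
  have hfin : Finite (𝓞 L ⧸ Q) := Ideal.finiteQuotientOfFreeOfNeBot Q hQbot
  have := invariantFixed L H
  have := smulCommFixed L H
  obtain ⟨σ, hσ⟩ := IsArithFrobAt.exists_of_isInvariant (𝓞 (IntermediateField.fixedField H))
    H Q
  have hcard : Nat.card (𝓞 (IntermediateField.fixedField H) ⧸
      Q.under (𝓞 (IntermediateField.fixedField H))) = p := by
    rw [← Submodule.cardQuot_apply, ← Ideal.absNorm_apply]
    exact hn
  refine ⟨σ.1, σ.2, fun x => ?_⟩
  have h2 := hσ x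
  rw [hcard] at h2
  exact h2

/-- conversely -/
theorem norm_of_fr (hp : p.Prime) (H : Subgroup (L ≃ₐ[ℚ] L)) {Q : Ideal (𝓞 L)}
    (hQ : Q.IsMaximal) (hpQ : (p : 𝓞 L) ∈ Q) {σ : L ≃ₐ[ℚ] L} (hσH : σ ∈ H) (hσ : Fr L p Q σ) :
    Ideal.absNorm (Q.under (𝓞 (IntermediateField.fixedField H))) = p := by
  have hfix : ∀ x : L, x ∈ IntermediateField.fixedField H → σ x = x := fun x hx =>
    (IntermediateField.mem_fixedField_iff H x).mp hx σ hσH
  set F := IntermediateField.fixedField H with hF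
  set P : Ideal (𝓞 F) := Q.under (𝓞 F) with hPdef
  have hPprime : P.IsPrime := inferInstance
  have hpP : (p : 𝓞 F) ∈ P := by
    rw [hPdef, Ideal.under_def, Ideal.mem_comap, map_natCast]
    exact hpQ
  have hPbot : P ≠ ⊥ := by
    intro h
    rw [h, Ideal.mem_bot] at hpP
    exact hp.ne_zero (by exact_mod_cast hpP)
  have hPmax : P.IsMaximal := hPprime.isMaximal hPbot
  have hfin : Finite (𝓞 F ⧸ P) := Ideal.finiteQuotientOfFreeOfNeBot P hPbot
  have hpow : ∀ y : 𝓞 F ⧸ P, y ^ p = y := by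
    intro y
    obtain ⟨x, rfl⟩ := Ideal.Quotient.mk_surjective y
    rw [← map_pow, Ideal.Quotient.eq, hPdef, Ideal.under_def, Ideal.mem_comap, map_sub, map_pow]
    have h1 := hσ (algebraMap (𝓞 F) (𝓞 L) x)
    have h2 : RingOfIntegers.mapRingEquiv σ.toRingEquiv (algebraMap (𝓞 F) (𝓞 L) x) =
        algebraMap (𝓞 F) (𝓞 L) x := by
      apply RingOfIntegers.ext
      exact hfix _ (x : F).2
    rw [h2] at h1
    have h3 := neg_mem h1
    rwa [neg_sub] at h3
  let _ : Field (𝓞 F ⧸ P) := Ideal.Quotient.field P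
  have hle : Nat.card (𝓞 F ⧸ P) ≤ p := by
    classical
    have := Fintype.ofFinite (𝓞 F ⧸ P)
    rw [Nat.card_eq_fintype_card, ← Finset.card_univ]
    have h1 : (Polynomial.X ^ p - Polynomial.X : Polynomial (𝓞 F ⧸ P)).natDegree = p :=
      FiniteField.X_pow_card_sub_X_natDegree_eq _ hp.one_lt
    have h2 : (Polynomial.X ^ p - Polynomial.X : Polynomial (𝓞 F ⧸ P)) ≠ 0 := by
      intro h
      rw [h, Polynomial.natDegree_zero] at h1
      exact hp.ne_zero h1.symm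
    have h3 : (Finset.univ : Finset (𝓞 F ⧸ P)).val ⊆
        (Polynomial.X ^ p - Polynomial.X : Polynomial (𝓞 F ⧸ P)).roots := by
      intro y _
      rw [Polynomial.mem_roots h2, Polynomial.IsRoot.def]
      simp [hpow y]
    have h4 := Polynomial.card_le_degree_of_subset_roots h3
    rwa [h1] at h4
  have h5 : Ideal.absNorm P = Nat.card (𝓞 F ⧸ P) := by
    rw [Ideal.absNorm_apply, Submodule.cardQuot_apply]
  rw [← h5] at hle
  have h6 : Ideal.absNorm P ∣ p ^ Module.finrank ℤ (𝓞 F) := by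
    rw [← Ideal.absNorm_span_natCast]
    apply Ideal.absNorm_dvd_absNorm_of_le
    rw [Ideal.span_singleton_le_iff_mem]
    exact hpP
  obtain ⟨k, -, hk⟩ := (Nat.dvd_prime_pow hp).mp h6
  have hk0 : k ≠ 0 := by
    rintro rfl
    rw [pow_zero] at hk
    exact hPprime.ne_top (Ideal.absNorm_eq_one_iff.mp hk)
  have hk1 : k ≤ 1 := by
    rw [hk] at hle
    by_contra hcon
    push Not at hcon
    have : p ^ 2 ≤ p ^ k := Nat.pow_le_pow_right hp.pos hcon
    have h7 : p ^ 2 ≤ p := this.trans hle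
    have h8 := hp.two_le
    nlinarith only [hle, this, h8]
  have : k = 1 := by lia
  rw [hk, this, pow_one]

/-- the number of primes over a prime of norm `p` of the fixed field -/
theorem ncard_over [IsGalois ℚ L] (hp : p.Prime) (hD : ¬ (p : ℤ) ∣ discr L)
    (H : Subgroup (L ≃ₐ[ℚ] L)) {P : Ideal (𝓞 (IntermediateField.fixedField H))}
    (hP : Ideal.absNorm P = p) :
    (P.primesOver (𝓞 L)).ncard * Ideal.inertiaDegIn (Ideal.span {(p : ℤ)}) (𝓞 L) =
      Nat.card H := by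
  have hPmax := isMaximal_of_absNorm_prime _ hp hP
  obtain ⟨Q, hQ, hQP⟩ := Ideal.exists_maximal_ideal_liesOver_of_isIntegral (S := 𝓞 L) P
  have hunder : Q.under (𝓞 (IntermediateField.fixedField H)) = P := (Ideal.LiesOver.over).symm
  have hpP := mem_of_absNorm _ hP
  have hpQ : (p : 𝓞 L) ∈ Q := by
    have h1 := hpP
    rw [← hunder, Ideal.under_def, Ideal.mem_comap, map_natCast] at h1
    exact h1
  have hoQ := liesOver hp hQ hpQ
  have hoP := liesOver hp hPmax hpP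
  have h𝔭max : (Ideal.span {(p : ℤ)}).IsMaximal := by
    have : Fact p.Prime := ⟨hp⟩
    exact Int.ideal_span_isMaximal_of_prime p
  have hf : Ideal.inertiaDegIn (Ideal.span {(p : ℤ)}) (𝓞 L) = Q.inertiaDeg ℤ :=
    Ideal.inertiaDegIn_eq_inertiaDeg _ Q (L ≃ₐ[ℚ] L)
  have h1 : P.inertiaDeg ℤ = 1 := by
    have h1 := Ideal.pow_inertiaDeg p P
    rw [hP] at h1
    exact Nat.pow_right_injective hp.two_le (by simpa using h1)
  have h2 : Q.inertiaDeg ℤ =
      P.inertiaDeg ℤ * Q.inertiaDeg (𝓞 (IntermediateField.fixedField H)) :=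
    Ideal.inertiaDeg_tower (R := ℤ) P Q
  have hG : IsGaloisGroup H (𝓞 (IntermediateField.fixedField H)) (𝓞 L) :=
    { faithful := ⟨fun {h h'} hh => by
        have hh' : ∀ x : 𝓞 L, (h.1⁻¹ * h'.1) • x = x := by
          intro x
          have := hh x
          rw [mul_smul]
          have h3 : h.1 • x = h'.1 • x := this
          rw [← h3, inv_smul_smul]
        have h4 : h.1⁻¹ * h'.1 = 1 := inertia_trivial hp hD hQ hpQ fun x => by
          rw [hh' x, sub_self]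
          exact zero_mem _
        exact Subtype.ext (inv_mul_eq_one.mp h4)⟩
      commutes := smulCommFixed L H
      isInvariant := invariantFixed L H }
  have h3 := Ideal.ncard_primesOver_mul_card_inertia_mul_finrank (G := H) P Q
  have h4 : Nat.card (Q.inertia H) = 1 := by
    rw [Subgroup.card_eq_one, eq_bot_iff]
    intro h hh
    rw [Subgroup.mem_bot]
    exact Subtype.ext (inertia_trivial hp hD hQ hpQ fun x => hh x)
  rw [h4, mul_one] at h3
  rw [hf, h2, h1, one_mul, h3]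

end basic

end Nu98

open Nu98 in
/-- **A3** -/
theorem exists_nu (L : Type) [Field L] [NumberField L] [IsGalois ℚ L] (p : ℕ) (hp : p.Prime)
    (hD : ¬ (p : ℤ) ∣ discr L) :
    ∃ ν : (L ≃ₐ[ℚ] L) → ℝ, (∀ σ, 0 ≤ ν σ) ∧
      (∀ σ, ν σ ≠ 0 → ∃ Q : Ideal (𝓞 L), Q.IsMaximal ∧ (p : 𝓞 L) ∈ Q ∧
        ∀ x : 𝓞 L, RingOfIntegers.mapRingEquiv σ.toRingEquiv x - x ^ p ∈ Q) ∧
      ∀ H : Subgroup (L ≃ₐ[ℚ] L), (aE (IntermediateField.fixedField H) p : ℝ) * Nat.card H =
        ∑ σ : (L ≃ₐ[ℚ] L), (H : Set (L ≃ₐ[ℚ] L)).indicator ν σ := by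
  classical
  have hfinT : {Q : Ideal (𝓞 L) | Q.IsMaximal ∧ (p : 𝓞 L) ∈ Q}.Finite :=
    (Ring.HasFiniteQuotients.finite_setOfPred_mem (p : 𝓞 L)
      (by exact_mod_cast hp.ne_zero)).subset fun Q hQ => hQ.2
  obtain ⟨T, hT⟩ : ∃ T : Finset (Ideal (𝓞 L)), ∀ Q, Q ∈ T ↔ Q.IsMaximal ∧ (p : 𝓞 L) ∈ Q :=
    ⟨hfinT.toFinset, fun Q => by simp⟩
  set f : ℕ := Ideal.inertiaDegIn (Ideal.span {(p : ℤ)}) (𝓞 L) with hf
  refine ⟨fun σ => (f : ℝ) * ((T.filter fun Q => Fr L p Q σ).card : ℝ),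
    fun σ => by positivity, fun σ hσ => ?_, fun H => ?_⟩
  · have h1 : (T.filter fun Q => Fr L p Q σ).card ≠ 0 := by
      intro h0
      apply hσ
      show (f : ℝ) * ((T.filter fun Q => Fr L p Q σ).card : ℝ) = 0
      rw [h0, Nat.cast_zero, mul_zero]
    obtain ⟨Q, hQ⟩ := Finset.card_pos.mp (Nat.pos_of_ne_zero h1)
    rw [Finset.mem_filter, hT] at hQ
    exact ⟨Q, hQ.1.1, hQ.1.2, hQ.2⟩
  · obtain ⟨A, hAm⟩ : ∃ A : Finset (Ideal (𝓞 (IntermediateField.fixedField H))),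
        ∀ P, P ∈ A ↔ Ideal.absNorm P = p :=
      ⟨(Ideal.finite_setOfPred_absNorm_eq p).toFinset, fun P => by simp⟩
    have haE : aE (IntermediateField.fixedField H) p = A.card := Nat.subtype_card A hAm
    set n : Ideal (𝓞 L) → ℕ := fun Q =>
      Ideal.absNorm (Q.under (𝓞 (IntermediateField.fixedField H))) with hn
    -- the right hand side
    have key : ∑ σ : (L ≃ₐ[ℚ] L), (H : Set (L ≃ₐ[ℚ] L)).indicator
        (fun σ => (f : ℝ) * ((T.filter fun Q => Fr L p Q σ).card : ℝ)) σ =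
        (f : ℝ) * ((T.filter fun Q => n Q = p).card : ℝ) := by
      have e1 : ∀ σ : (L ≃ₐ[ℚ] L), (H : Set (L ≃ₐ[ℚ] L)).indicator
          (fun σ => (f : ℝ) * ((T.filter fun Q => Fr L p Q σ).card : ℝ)) σ =
          ∑ Q ∈ T, if σ ∈ H ∧ Fr L p Q σ then (f : ℝ) else 0 := by
        intro σ
        by_cases hσ : σ ∈ H
        · rw [Set.indicator_of_mem hσ, ← Finset.sum_filter, Finset.sum_const, nsmul_eq_mul,
            mul_comm]
          congr 2
          simp [hσ]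
        · rw [Set.indicator_of_notMem hσ]
          symm
          refine Finset.sum_eq_zero fun Q _ => ?_
          rw [if_neg fun h => hσ h.1]
      rw [Finset.sum_congr rfl fun σ _ => e1 σ, Finset.sum_comm]
      have e2 : ∀ Q ∈ T, (∑ σ : (L ≃ₐ[ℚ] L), if σ ∈ H ∧ Fr L p Q σ then (f : ℝ) else 0) =
          if n Q = p then (f : ℝ) else 0 := by
        intro Q hQ
        rw [hT] at hQ
        by_cases h : n Q = p
        · obtain ⟨τ, hτH, hτ⟩ := fr_of_norm hp H hQ.1 hQ.2 h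
          rw [if_pos h, Finset.sum_eq_single τ]
          · rw [if_pos ⟨hτH, hτ⟩]
          · intro σ _ hne
            rw [if_neg]
            rintro ⟨-, hσ⟩
            exact hne (fr_unique hp hD hQ.1 hQ.2 hσ hτ)
          · intro h'
            exact absurd (Finset.mem_univ τ) h'
        · rw [if_neg h]
          refine Finset.sum_eq_zero fun σ _ => ?_
          rw [if_neg]
          rintro ⟨hσH, hσ⟩
          exact h (norm_of_fr hp H hQ.1 hQ.2 hσH hσ)
      rw [Finset.sum_congr rfl e2, ← Finset.sum_filter, Finset.sum_const, nsmul_eq_mul, mul_comm]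
    rw [key, haE]
    -- the left hand side
    have h1 : (T.filter fun Q => n Q = p).card = ∑ P ∈ A, (P.primesOver (𝓞 L)).ncard := by
      rw [Finset.card_eq_sum_card_fiberwise
        (f := fun Q : Ideal (𝓞 L) => Q.under (𝓞 (IntermediateField.fixedField H))) (t := A)]
      · refine Finset.sum_congr rfl fun P hP => ?_
        rw [hAm] at hP
        have hpP := mem_of_absNorm _ hP
        have hPmax := isMaximal_of_absNorm_prime _ hp hP
        rw [← Set.ncard_coe_finset]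
        congr 1
        ext Q
        simp only [Finset.coe_filter, Finset.mem_filter, hT, Set.mem_ofPred_eq]
        constructor
        · rintro ⟨⟨⟨hQ, hpQ⟩, hnQ⟩, hQP⟩
          exact ⟨hQ.isPrime, ⟨hQP.symm⟩⟩
        · rintro ⟨hQ, hQP⟩
          have hunder : Q.under (𝓞 (IntermediateField.fixedField H)) = P :=
            (Ideal.LiesOver.over).symm
          have hpQ : (p : 𝓞 L) ∈ Q := by
            have h1 := hpP
            rw [← hunder, Ideal.under_def, Ideal.mem_comap, map_natCast] at h1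
            exact h1
          have hQbot : Q ≠ ⊥ := by
            rintro rfl
            rw [Ideal.mem_bot] at hpQ
            exact hp.ne_zero (by exact_mod_cast hpQ)
          refine ⟨⟨⟨hQ.isMaximal hQbot, hpQ⟩, ?_⟩, hunder⟩
          show Ideal.absNorm (Q.under (𝓞 (IntermediateField.fixedField H))) = p
          rw [hunder, hP]
      · intro Q hQ
        rw [Finset.mem_coe, Finset.mem_filter] at hQ
        rw [Finset.mem_coe, hAm]
        exact hQ.2
    rw [h1, Nat.cast_sum, Finset.mul_sum]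
    have h2 : ∀ P ∈ A, (f : ℝ) * ((P.primesOver (𝓞 L)).ncard : ℝ) = (Nat.card H : ℝ) := by
      intro P hP
      rw [hAm] at hP
      rw [← ncard_over hp hD H hP, Nat.cast_mul, mul_comm]
    rw [Finset.sum_congr rfl h2, Finset.sum_const, nsmul_eq_mul]

end Vale.Agent.P007.H11
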