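import Vale.Agent.P007.H11.QTS
import Vale.Agent.P007.H11.QNu
import Vale.Agent.P007.H11.RelExc

/-! The steps with the four group. -/

set_option autoImplicit false

open NumberField

namespace Vale.Agent.P007.H11

open Vale.Agent.P007 Vale.Agent.P007.Z Vale.Agent.P007.Z.CStep

theorem cf_one1 (E : Type) [Field E] [NumberField E] (p : Nat.Primes) :
    cf E (1 : DirichletCharacter ℂ 1) p = (aE E p : ℝ) := by
  have h1 : (1 : DirichletCharacter ℂ 1) ((p : ℕ) : ZMod 1) = 1 := by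
    have : ((p : ℕ) : ZMod 1) = 1 := Subsingleton.elim _ _
    rw [this]
    simp
  unfold cf
  rw [h1, Complex.one_re, one_mul]

theorem exists_mod (N : ℕ) (A : ℝ) : ∃ C ℓ₀ : ℝ, 0 ≤ C ∧ 1 ≤ ℓ₀ ∧ ∀ (L : Type) [Field L]
    [NumberField L] [IsTotallyReal L], Module.finrank ℚ L ≤ N → ∀ ℓ : ℝ, ℓ₀ ≤ ℓ →
    Real.log |(discr L : ℝ)| ≤ A * ℓ → ∀ E : IntermediateField ℚ L, ∃ d : List ℝ,
      (∀ x ∈ d, 0 < x ∧ x ≤ 1) ∧ ∀ η : ℝ, 0 < η → η ≤ 1 →
        |Del E (1 : DirichletCharacter ℂ 1) ℓ η - model 1 d η| ≤ C := by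
  obtain ⟨C, ℓ₀, hℓ₀, h⟩ := exists_ZForm N |A|
  refine ⟨|C|, ℓ₀, abs_nonneg _, hℓ₀, ?_⟩
  intro L _ _ _ hN ℓ hℓ hd E
  have hℓ0 : 0 ≤ ℓ := by linarith
  have hA : Real.log |(discr L : ℝ)| ≤ |A| * ℓ :=
    hd.trans (mul_le_mul_of_nonneg_right (le_abs_self _) hℓ0)
  obtain ⟨δ, d, -, -, hdd, h1, h2⟩ := h E ((finrank_sub_le L E).trans hN) 1 1
    (by rw [orderOf_one]; exact odd_one) ℓ hℓ ((log_discr_le L E).trans hA)
    (by rw [Nat.cast_one, Real.log_one]; positivity)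
  obtain ⟨rfl, hpos⟩ := h1 rfl
  exact ⟨d, fun x hx => ⟨hpos x hx, (hdd x hx).2⟩, fun η hη hη1 =>
    (h2 η hη hη1).trans (le_abs_self _)⟩

section Count

variable {L : Type} [Field L] [NumberField L] [IsGalois ℚ L]

theorem v4_count {M M₁ M₂ M₃ M' : Subgroup (L ≃ₐ[ℚ] L)} (h : V4 M M₁ M₂ M₃ M') (p : ℕ)
    (hp : p.Prime) (hD : ¬ (p : ℤ) ∣ discr L) :
    2 * (aE (IntermediateField.fixedField M') p : ℝ) +
      (aE (IntermediateField.fixedField M) p : ℝ) =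
      (aE (IntermediateField.fixedField M₁) p : ℝ) + (aE (IntermediateField.fixedField M₂) p : ℝ) +
        (aE (IntermediateField.fixedField M₃) p : ℝ) := by
  obtain ⟨ν, -, -, hν⟩ := exists_nu L p hp hD
  have h0 := hν M
  have h1 := hν M₁
  have h2 := hν M₂
  have h3 := hν M₃
  have h4 := hν M'
  rw [h.card₁] at h1
  rw [h.card₂] at h2
  rw [h.card₃] at h3
  rw [h.card'] at h4
  push_cast at h1 h2 h3 h4
  have key : (∑ σ : (L ≃ₐ[ℚ] L), (M' : Set (L ≃ₐ[ℚ] L)).indicator ν σ) +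
      2 * ∑ σ : (L ≃ₐ[ℚ] L), (M : Set (L ≃ₐ[ℚ] L)).indicator ν σ =
      (∑ σ : (L ≃ₐ[ℚ] L), (M₁ : Set (L ≃ₐ[ℚ] L)).indicator ν σ) +
      (∑ σ : (L ≃ₐ[ℚ] L), (M₂ : Set (L ≃ₐ[ℚ] L)).indicator ν σ) +
      ∑ σ : (L ≃ₐ[ℚ] L), (M₃ : Set (L ≃ₐ[ℚ] L)).indicator ν σ := by
    rw [Finset.mul_sum, ← Finset.sum_add_distrib, ← Finset.sum_add_distrib,
      ← Finset.sum_add_distrib]
    refine Finset.sum_congr rfl fun σ _ => ?_
    by_cases m0 : σ ∈ M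
    · have m1 := h.le₁ m0
      have m2 := h.le₂ m0
      have m3 := h.le₃ m0
      have m4 := h.le₁' m1
      rw [Set.indicator_of_mem (show σ ∈ (M' : Set (L ≃ₐ[ℚ] L)) from m4),
        Set.indicator_of_mem (show σ ∈ (M : Set (L ≃ₐ[ℚ] L)) from m0),
        Set.indicator_of_mem (show σ ∈ (M₁ : Set (L ≃ₐ[ℚ] L)) from m1),
        Set.indicator_of_mem (show σ ∈ (M₂ : Set (L ≃ₐ[ℚ] L)) from m2),
        Set.indicator_of_mem (show σ ∈ (M₃ : Set (L ≃ₐ[ℚ] L)) from m3)]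
      ring
    · rw [Set.indicator_of_notMem (show σ ∉ (M : Set (L ≃ₐ[ℚ] L)) from m0)]
      by_cases m1 : σ ∈ M₁
      · have m2 : σ ∉ M₂ := fun m => m0 (h.inf₁₂ σ m1 m)
        have m3 : σ ∉ M₃ := fun m => m0 (h.inf₁₃ σ m1 m)
        rw [Set.indicator_of_mem (show σ ∈ (M' : Set (L ≃ₐ[ℚ] L)) from h.le₁' m1),
          Set.indicator_of_mem (show σ ∈ (M₁ : Set (L ≃ₐ[ℚ] L)) from m1),
          Set.indicator_of_notMem (show σ ∉ (M₂ : Set (L ≃ₐ[ℚ] L)) from m2),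
          Set.indicator_of_notMem (show σ ∉ (M₃ : Set (L ≃ₐ[ℚ] L)) from m3)]
        ring
      · rw [Set.indicator_of_notMem (show σ ∉ (M₁ : Set (L ≃ₐ[ℚ] L)) from m1)]
        by_cases m2 : σ ∈ M₂
        · have m3 : σ ∉ M₃ := fun m => m0 (h.inf₂₃ σ m2 m)
          rw [Set.indicator_of_mem (show σ ∈ (M' : Set (L ≃ₐ[ℚ] L)) from h.le₂' m2),
            Set.indicator_of_mem (show σ ∈ (M₂ : Set (L ≃ₐ[ℚ] L)) from m2),
            Set.indicator_of_notMem (show σ ∉ (M₃ : Set (L ≃ₐ[ℚ] L)) from m3)]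
          ring
        · rw [Set.indicator_of_notMem (show σ ∉ (M₂ : Set (L ≃ₐ[ℚ] L)) from m2)]
          by_cases m3 : σ ∈ M₃
          · rw [Set.indicator_of_mem (show σ ∈ (M' : Set (L ≃ₐ[ℚ] L)) from h.le₃' m3),
              Set.indicator_of_mem (show σ ∈ (M₃ : Set (L ≃ₐ[ℚ] L)) from m3)]
            ring
          · have m4 : σ ∉ M' := fun m => by
              rcases h.cover σ m with k | k | k
              · exact m1 k
              · exact m2 k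
              · exact m3 k
            rw [Set.indicator_of_notMem (show σ ∉ (M' : Set (L ≃ₐ[ℚ] L)) from m4),
              Set.indicator_of_notMem (show σ ∉ (M₃ : Set (L ≃ₐ[ℚ] L)) from m3)]
            ring
  rw [← h0, ← h1, ← h2, ← h3, ← h4] at key
  have hc : (0 : ℝ) < Nat.card M := by exact_mod_cast Nat.card_pos
  have key2 : (Nat.card M : ℝ) * (2 * (aE (IntermediateField.fixedField M') p : ℝ) +
      (aE (IntermediateField.fixedField M) p : ℝ)) = (Nat.card M : ℝ) *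
      ((aE (IntermediateField.fixedField M₁) p : ℝ) + (aE (IntermediateField.fixedField M₂) p : ℝ) +
        (aE (IntermediateField.fixedField M₃) p : ℝ)) := by linarith
  exact mul_left_cancel₀ hc.ne' key2

end Count

/-- the difference of `Del` at two scales -/
noncomputable def Dd {L : Type} [Field L] [NumberField L] (H : Subgroup (L ≃ₐ[ℚ] L)) (ℓ η η' : ℝ) :
    ℝ :=
  Del (IntermediateField.fixedField H) (1 : DirichletCharacter ℂ 1) ℓ η -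
    Del (IntermediateField.fixedField H) (1 : DirichletCharacter ℂ 1) ℓ η'

section Diff

variable {L : Type} [Field L] [NumberField L] [IsGalois ℚ L]

theorem v4_diff {M M₁ M₂ M₃ M' : Subgroup (L ≃ₐ[ℚ] L)} (h : V4 M M₁ M₂ M₃ M') {N : ℕ}
    (hN : Module.finrank ℚ L ≤ N) {A ℓ η η' : ℝ} (hℓ : 1 ≤ ℓ)
    (hd : Real.log |(discr L : ℝ)| ≤ A * ℓ) (hη : 0 < η) (hηη : η ≤ η') (hη' : η' ≤ 1) :
    Dd M₁ ℓ η η' + Dd M₂ ℓ η η' + Dd M₃ ℓ η η' ≤
        2 * Dd M' ℓ η η' + Dd M ℓ η η' + 3 * N * A ∧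
      2 * Dd M' ℓ η η' + Dd M ℓ η η' ≤
        Dd M₁ ℓ η η' + Dd M₂ ℓ η η' + Dd M₃ ℓ η η' + 3 * N * A := by
  classical
  have hℓ0 : 0 < ℓ := by linarith
  set D : ℤ := discr L with hDdef
  have hD0 : D ≠ 0 := discr_ne_zero L
  set r : Nat.Primes → ℝ := fun p => if ((p : ℕ) : ℤ) ∣ D then 1 else 0 with hr
  have hbr : BddC r := bddC_ind _
  have hr0 : ∀ p, 0 ≤ r p := fun p => by
    rw [hr]
    beta_reduce
    split_ifs
    · exact zero_le_one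
    · exact le_rfl
  have hR : TSm ℓ η r - TSm ℓ η' r ≤ A := by
    have h1 := TSm_dvd_le hℓ hD0 hη (hηη.trans hη')
    have h2 : Real.log |(D : ℝ)| / ℓ ≤ A := by
      rw [div_le_iff₀ hℓ0]
      exact hd
    have h3 : 0 ≤ TSm ℓ η' r := TSm_nonneg hℓ (hη.trans_le hηη) hη' hr0
    have h4 : TSm ℓ η r = TSm ℓ η (fun p => if ((p : ℕ) : ℤ) ∣ D then 1 else 0) := rfl
    linarith
  have hA0 : 0 ≤ A := by
    have h1 := TSm_anti hbr hr0 hℓ hη hηη hη'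
    linarith
  have ha : ∀ (H : Subgroup (L ≃ₐ[ℚ] L)) (p : Nat.Primes),
      (aE (IntermediateField.fixedField H) p : ℝ) ≤ N := fun H p => by
    exact_mod_cast (aE_le _ p p.2).trans ((finrank_sub_le L _).trans hN)
  have ha0 : ∀ (H : Subgroup (L ≃ₐ[ℚ] L)) (p : Nat.Primes),
      (0 : ℝ) ≤ (aE (IntermediateField.fixedField H) p : ℝ) := fun H p => Nat.cast_nonneg _
  have hN0 : (0 : ℝ) ≤ N := Nat.cast_nonneg _
  set c : Subgroup (L ≃ₐ[ℚ] L) → Nat.Primes → ℝ := fun H =>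
    cf (IntermediateField.fixedField H) (1 : DirichletCharacter ℂ 1) with hc
  have hb : ∀ H, BddC (c H) := fun H => bddC_cf _ _
  have hcp : ∀ H p, c H p = (aE (IntermediateField.fixedField H) p : ℝ) := fun H p =>
    cf_one1 _ p
  have hη1 := hηη.trans hη'
  have hη0' := hη.trans_le hηη
  have e1 : ∀ ε, 0 < ε → ε ≤ 1 → TSm ℓ ε (fun p => c M₁ p + c M₂ p + c M₃ p) =
      TSm ℓ ε (c M₁) + TSm ℓ ε (c M₂) + TSm ℓ ε (c M₃) := fun ε h1 h2 => by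
    rw [TSm_add ((hb M₁).add (hb M₂)) (hb M₃) hℓ h1 h2, TSm_add (hb M₁) (hb M₂) hℓ h1 h2]
  have e2 : ∀ ε, 0 < ε → ε ≤ 1 → TSm ℓ ε (fun p => 2 * c M' p + c M p) =
      2 * TSm ℓ ε (c M') + TSm ℓ ε (c M) := fun ε h1 h2 => by
    rw [TSm_add ((hb M').const_mul 2) (hb M) hℓ h1 h2, TSm_const_mul]
  have e3 : ∀ ε, 0 < ε → ε ≤ 1 → TSm ℓ ε (fun p => (c M₁ p + c M₂ p + c M₃ p) + (3 * N) * r p) =
      (TSm ℓ ε (c M₁) + TSm ℓ ε (c M₂) + TSm ℓ ε (c M₃)) + (3 * N) * TSm ℓ ε r :=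
    fun ε h1 h2 => by
      rw [TSm_add (((hb M₁).add (hb M₂)).add (hb M₃)) (hbr.const_mul _) hℓ h1 h2, e1 ε h1 h2,
        TSm_const_mul]
  have e4 : ∀ ε, 0 < ε → ε ≤ 1 → TSm ℓ ε (fun p => (2 * c M' p + c M p) + (3 * N) * r p) =
      (2 * TSm ℓ ε (c M') + TSm ℓ ε (c M)) + (3 * N) * TSm ℓ ε r := fun ε h1 h2 => by
    rw [TSm_add (((hb M').const_mul 2).add (hb M)) (hbr.const_mul _) hℓ h1 h2, e2 ε h1 h2,
      TSm_const_mul]
  have hDd : ∀ H, Dd H ℓ η η' = TSm ℓ η (c H) - TSm ℓ η' (c H) := fun H => rfl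
  have hRN : (3 * N : ℝ) * (TSm ℓ η r - TSm ℓ η' r) ≤ 3 * N * A :=
    mul_le_mul_of_nonneg_left hR (by positivity)
  rw [hDd, hDd, hDd, hDd, hDd]
  constructor
  · have h5 := TSd_mono (ℓ := ℓ) (((hb M₁).add (hb M₂)).add (hb M₃))
      ((((hb M').const_mul 2).add (hb M)).add (hbr.const_mul (3 * N))) (fun p => by
        rw [hcp, hcp, hcp, hcp, hcp]
        by_cases hpD : ((p : ℕ) : ℤ) ∣ D
        · have : r p = 1 := if_pos hpD
          rw [this]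
          linarith [ha M₁ p, ha M₂ p, ha M₃ p, ha0 M' p, ha0 M p]
        · have : r p = 0 := if_neg hpD
          rw [this]
          have h6 := v4_count h p p.2 hpD
          linarith) hℓ hη hηη hη'
    rw [e1 η hη hη1, e1 η' hη0' hη', e4 η hη hη1, e4 η' hη0' hη'] at h5
    linarith
  · have h5 := TSd_mono (ℓ := ℓ) (((hb M').const_mul 2).add (hb M))
      ((((hb M₁).add (hb M₂)).add (hb M₃)).add (hbr.const_mul (3 * N))) (fun p => by
        rw [hcp, hcp, hcp, hcp, hcp]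
        by_cases hpD : ((p : ℕ) : ℤ) ∣ D
        · have : r p = 1 := if_pos hpD
          rw [this]
          linarith [ha0 M₁ p, ha0 M₂ p, ha0 M₃ p, ha M' p, ha M p]
        · have : r p = 0 := if_neg hpD
          rw [this]
          have h6 := v4_count h p p.2 hpD
          linarith) hℓ hη hηη hη'
    rw [e2 η hη hη1, e2 η' hη0' hη', e3 η hη hη1, e3 η' hη0' hη'] at h5
    linarith

theorem Del_nonneg1 (E : Type) [Field E] [NumberField E] {ℓ η : ℝ} (hℓ : 1 ≤ ℓ) (hη : 0 < η)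
    (hη1 : η ≤ 1) : 0 ≤ Del E (1 : DirichletCharacter ℂ 1) ℓ η := by
  have h : ∀ p, 0 ≤ cf E (1 : DirichletCharacter ℂ 1) p := fun p => by
    rw [cf_one1]
    exact Nat.cast_nonneg _
  exact TSm_nonneg hℓ hη hη1 h

omit [IsGalois ℚ L] in
theorem Dd_le_Sc (H : Subgroup (L ≃ₐ[ℚ] L)) {N : ℕ}
    (hN : Module.finrank ℚ L ≤ N) {ℓ η η' : ℝ} (hℓ : 1 ≤ ℓ)
    (hη : 0 < η) (hηη : η ≤ η') (hη' : η' ≤ 1) :
    Dd H ℓ η η' ≤ N * Sc (IntermediateField.fixedField H) (fun _ => True) ℓ η := by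
  have h1 := Del_le_Sc (IntermediateField.fixedField H) hℓ hη (hηη.trans hη')
  have h2 := Del_nonneg1 (IntermediateField.fixedField H) hℓ (hη.trans_le hηη) hη'
  have h3 : (Module.finrank ℚ (IntermediateField.fixedField H) : ℝ) ≤ N := by
    exact_mod_cast (finrank_sub_le L _).trans hN
  have h4 : 0 ≤ Sc (IntermediateField.fixedField H) (fun _ => True) ℓ η := by
    rw [FinalAux.Sc_eq]
    exact tsum_nonneg fun p => FinalAux.tm_nonneg _ hℓ hη (hηη.trans hη') p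
  have h5 := mul_le_mul_of_nonneg_right h3 h4
  unfold Dd
  linarith

end Diff

theorem v4a (N : ℕ) (A : ℝ) : ∃ A' ℓ₁ : ℝ, ∀ (L : Type) [Field L] [NumberField L]
    [IsTotallyReal L] [IsGalois ℚ L], Module.finrank ℚ L ≤ N → ∀ ℓ : ℝ, ℓ₁ ≤ ℓ →
    Real.log |(discr L : ℝ)| ≤ A * ℓ → ∀ η : ℝ, 0 < η → η ≤ 1 →
    ∀ M M₁ M₂ M₃ M' : Subgroup (L ≃ₐ[ℚ] L), V4 M M₁ M₂ M₃ M' →
      Sc (IntermediateField.fixedField M) (fun _ => True) ℓ η ≤ A →
      Sc (IntermediateField.fixedField M₁) (fun _ => True) ℓ η ≤ A' ∨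
      Sc (IntermediateField.fixedField M₂) (fun _ => True) ℓ η ≤ A' ∨
      Sc (IntermediateField.fixedField M₃) (fun _ => True) ℓ η ≤ A' := by
  obtain ⟨C, ℓ₀, hC, hℓ₀, hmod⟩ := exists_mod N A
  refine ⟨19 * C + 4 * N * |A|, ℓ₀, ?_⟩
  intro L _ _ _ _ hN ℓ hℓ hd η hη hη1 M M₁ M₂ M₃ M' hV hM
  have hℓ1 : 1 ≤ ℓ := hℓ₀.trans hℓ
  have hN0 : (0 : ℝ) ≤ N := Nat.cast_nonneg _
  have q : ∀ H : Subgroup (L ≃ₐ[ℚ] L), ∃ x : ℝ, η ≤ x ∧ x ≤ 1 ∧
      Del (IntermediateField.fixedField H) (1 : DirichletCharacter ℂ 1) ℓ x ≤ C ∧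
      Real.log x - Real.log η - 2 * C ≤ Dd H ℓ η x := by
    intro H
    obtain ⟨d, hd1, hd2⟩ := hmod L hN ℓ hℓ hd (IntermediateField.fixedField H)
    obtain ⟨x, h1, h2, h3, h4⟩ := quant (D := fun ε =>
      Del (IntermediateField.fixedField H) (1 : DirichletCharacter ℂ 1) ℓ ε) hd1 hd2 hη hη1
    exact ⟨x, h1, h2, h3, h4 η le_rfl h1⟩
  have s : ∀ (H : Subgroup (L ≃ₐ[ℚ] L)) (ε ε' : ℝ), 0 < ε → ε ≤ ε' → ε' ≤ 1 →
      Dd H ℓ ε ε' ≤ Real.log ε' - Real.log ε + 2 * C := by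
    intro H ε ε' h1 h2 h3
    obtain ⟨d, hd1, hd2⟩ := hmod L hN ℓ hℓ hd (IntermediateField.fixedField H)
    exact slope_le (D := fun ε =>
      Del (IntermediateField.fixedField H) (1 : DirichletCharacter ℂ 1) ℓ ε) le_rfl hd2 h1 h2 h3
  have hAA := le_abs_self A
  -- the main estimate
  have main : ∀ x : ℝ, η ≤ x → x ≤ 1 →
      (∀ H ∈ ({M₁, M₂, M₃} : Set (Subgroup (L ≃ₐ[ℚ] L))), Real.log x - Real.log η - 4 * C ≤
        Dd H ℓ η x) → Real.log x - Real.log η ≤ 16 * C + 4 * N * |A| := by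
    intro x hx hx1 h
    have h1 := h M₁ (by simp)
    have h2 := h M₂ (by simp)
    have h3 := h M₃ (by simp)
    have h4 := (v4_diff hV hN hℓ1 hd hη hx hx1).1
    have h5 := s M' η x hη hx hx1
    have h6 := Dd_le_Sc M hN hℓ1 hη hx hx1
    have h7 : (N : ℝ) * Sc (IntermediateField.fixedField M) (fun _ => True) ℓ η ≤ N * |A| :=
      mul_le_mul_of_nonneg_left (hM.trans hAA) hN0
    have h8 : 3 * (N : ℝ) * A ≤ 3 * N * |A| := mul_le_mul_of_nonneg_left hAA (by positivity)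
    linarith
  obtain ⟨x₁, a1, b1, c1, d1⟩ := q M₁
  obtain ⟨x₂, a2, b2, c2, d2⟩ := q M₂
  obtain ⟨x₃, a3, b3, c3, d3⟩ := q M₃
  -- the smallest of the three
  have fin : ∀ (x : ℝ) (H : Subgroup (L ≃ₐ[ℚ] L)), η ≤ x → x ≤ 1 →
      x ≤ x₁ → x ≤ x₂ → x ≤ x₃ →
      Del (IntermediateField.fixedField H) (1 : DirichletCharacter ℂ 1) ℓ x ≤ C →
      Sc (IntermediateField.fixedField H) (fun _ => True) ℓ η ≤ 19 * C + 4 * N * |A| := by
    intro x H hx hx1 y1 y2 y3 hC'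
    have hx0 : 0 < x := hη.trans_le hx
    have tr : ∀ (J : Subgroup (L ≃ₐ[ℚ] L)) (y : ℝ), x ≤ y → y ≤ 1 →
        Real.log y - Real.log η - 2 * C ≤ Dd J ℓ η y →
        Real.log x - Real.log η - 4 * C ≤ Dd J ℓ η x := by
      intro J y h1 h2 h3
      have h4 := s J x y hx0 h1 h2
      have h5 : Dd J ℓ η y = Dd J ℓ η x + Dd J ℓ x y := by
        unfold Dd
        ring
      linarith
    have h1 := main x hx hx1 (by
      rintro J hJ
      rcases hJ with rfl | rfl | rfl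
      · exact tr _ x₁ y1 b1 d1
      · exact tr _ x₂ y2 b2 d2
      · exact tr _ x₃ y3 b3 d3)
    have h2 := s H η x hη hx hx1
    have h3 := FinalAux.Sc_le_Del (IntermediateField.fixedField H) hℓ1 hη hη1
    unfold Dd at h2
    linarith
  rcases le_total x₁ x₂ with h12 | h12
  · rcases le_total x₁ x₃ with h13 | h13
    · exact Or.inl (fin x₁ M₁ a1 b1 le_rfl h12 h13 c1)
    · exact Or.inr (Or.inr (fin x₃ M₃ a3 b3 h13 (h13.trans h12) le_rfl c3))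
  · rcases le_total x₂ x₃ with h23 | h23
    · exact Or.inr (Or.inl (fin x₂ M₂ a2 b2 h12 le_rfl h23 c2))
    · exact Or.inr (Or.inr (fin x₃ M₃ a3 b3 (h23.trans h12) h23 le_rfl c3))

theorem v4b (N : ℕ) (A : ℝ) : ∃ A' ℓ₁ : ℝ, ∀ (L : Type) [Field L] [NumberField L]
    [IsTotallyReal L] [IsGalois ℚ L], Module.finrank ℚ L ≤ N → ∀ ℓ : ℝ, ℓ₁ ≤ ℓ →
    Real.log |(discr L : ℝ)| ≤ A * ℓ → ∀ η : ℝ, 0 < η → η ≤ 1 →
    ∀ M M₁ M₂ M₃ M' : Subgroup (L ≃ₐ[ℚ] L), V4 M M₁ M₂ M₃ M' →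
      Sc (IntermediateField.fixedField M₁) (fun _ => True) ℓ η ≤ A →
      Sc (IntermediateField.fixedField M₂) (fun _ => True) ℓ η ≤ A →
      Sc (IntermediateField.fixedField M') (fun _ => True) ℓ η ≤ A' := by
  obtain ⟨C, ℓ₀, hC, hℓ₀, hmod⟩ := exists_mod N A
  refine ⟨9 * C + 5 * N * |A|, ℓ₀, ?_⟩
  intro L _ _ _ _ hN ℓ hℓ hd η hη hη1 M M₁ M₂ M₃ M' hV hM₁ hM₂
  have hℓ1 : 1 ≤ ℓ := hℓ₀.trans hℓ
  have hN0 : (0 : ℝ) ≤ N := Nat.cast_nonneg _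
  have hAA := le_abs_self A
  obtain ⟨d, hd1, hd2⟩ := hmod L hN ℓ hℓ hd (IntermediateField.fixedField M')
  obtain ⟨x, h1, h2, h3, h4⟩ := quant (D := fun ε =>
    Del (IntermediateField.fixedField M') (1 : DirichletCharacter ℂ 1) ℓ ε) hd1 hd2 hη hη1
  have h5 : Real.log x - Real.log η - 2 * C ≤ Dd M' ℓ η x := h4 η le_rfl h1
  have s : ∀ (H : Subgroup (L ≃ₐ[ℚ] L)),
      Dd H ℓ η x ≤ Real.log x - Real.log η + 2 * C := by
    intro H
    obtain ⟨d, hd1, hd2⟩ := hmod L hN ℓ hℓ hd (IntermediateField.fixedField H)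
    exact slope_le (D := fun ε =>
      Del (IntermediateField.fixedField H) (1 : DirichletCharacter ℂ 1) ℓ ε) le_rfl hd2 hη h1 h2
  have e1 := (v4_diff hV hN hℓ1 hd hη h1 h2).2
  have e2 := Dd_le_Sc M₁ hN hℓ1 hη h1 h2
  have e3 := Dd_le_Sc M₂ hN hℓ1 hη h1 h2
  have e4 := s M₃
  have e5 := s M'
  have e6 : (N : ℝ) * Sc (IntermediateField.fixedField M₁) (fun _ => True) ℓ η ≤ N * |A| :=
    mul_le_mul_of_nonneg_left (hM₁.trans hAA) hN0
  have e7 : (N : ℝ) * Sc (IntermediateField.fixedField M₂) (fun _ => True) ℓ η ≤ N * |A| :=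
    mul_le_mul_of_nonneg_left (hM₂.trans hAA) hN0
  have e8 : 3 * (N : ℝ) * A ≤ 3 * N * |A| := mul_le_mul_of_nonneg_left hAA (by positivity)
  have e9 : 0 ≤ Dd M ℓ η x := by
    have h6 : 0 ≤ TSm ℓ η (cf (IntermediateField.fixedField M) (1 : DirichletCharacter ℂ 1)) -
        TSm ℓ x (cf (IntermediateField.fixedField M) (1 : DirichletCharacter ℂ 1)) :=
      sub_nonneg.2 (TSm_anti (bddC_cf _ _) (fun p => by
        rw [cf_one1]
        exact Nat.cast_nonneg _) hℓ1 hη h1 h2)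
    exact h6
  have h6 := FinalAux.Sc_le_Del (IntermediateField.fixedField M') hℓ1 hη hη1
  have h7 : Dd M' ℓ η x = Del (IntermediateField.fixedField M') (1 : DirichletCharacter ℂ 1) ℓ η -
    Del (IntermediateField.fixedField M') (1 : DirichletCharacter ℂ 1) ℓ x := rfl
  linarith

end Vale.Agent.P007.H11
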