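import Vale.Agent.P007.H11.Rigid
import Vale.Agent.P007.H11.Orb
import Mathlib.Dynamics.Ergodic.RadonNikodym
import Mathlib.MeasureTheory.Measure.Haar.Basic

/-! A closed orbit of the centralizer of a diagonal matrix carries at most one invariant
probability measure. -/

set_option autoImplicit false

open MeasureTheory Matrix Filter Topology ProbabilityTheory
open scoped ENNReal

namespace Vale.Agent.P007.H11

open Vale.Agent.P007 Vale.Agent.P007.Koopman Vale.Agent.P007.Mautner Vale.Agent.P007.R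
  Vale.Agent.P007.R.Blk

variable {n : ℕ}

/-- the centralizer of `diag(p)` as a subgroup -/
def cenSub (p : Fin n → ℝ) : Subgroup (G n) where
  carrier := {h | h.1 * diagonal p = diagonal p * h.1}
  mul_mem' := fun ha hb => zo_comm_mul ha hb
  one_mem' := zo_comm_one
  inv_mem' := fun ha => zo_comm_inv ha

theorem isClosed_cenSub (p : Fin n → ℝ) : IsClosed (cenSub p : Set (G n)) := by
  have h1 : Continuous fun g : G n => (g : Matrix (Fin n) (Fin n) ℝ) :=
    Matrix.SpecialLinearGroup.isClosedEmbedding_val.continuous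
  exact isClosed_eq (h1.matrix_mul continuous_const) (continuous_const.matrix_mul h1)

/-- A function which is invariant under a transitive action is constant. -/
theorem const_aux {H Z : Type} [Group H] [MeasurableSpace H] [MeasurableMul H] (lam : Measure H)
    [lam.IsMulLeftInvariant] [SFinite lam] (hlam : lam ≠ 0) [MeasurableSpace Z] (act : Z → H → Z)
    (hact : Measurable fun q : Z × H => act q.1 q.2)
    (hmul : ∀ z h k, act (act z h) k = act z (h * k))
    {ρ : Measure Z} [SFinite ρ] (x : Z) (hρ : ∀ᵐ z ∂ρ, ∃ h, z = act x h) (hρ0 : ρ ≠ 0)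
    {f : Z → ℝ≥0∞} (hfm : Measurable f) (hinv : ∀ h, ∀ᵐ z ∂ρ, f (act z h) = f z) :
    ∃ c : ℝ≥0∞, ∀ᵐ z ∂ρ, f z = c := by
  have hms : MeasurableSet {q : Z × H | f (act q.1 q.2) = f q.1} :=
    measurableSet_eq_fun (hfm.comp hact) (hfm.comp measurable_fst)
  have hswap : ∀ᵐ z ∂ρ, ∀ᵐ h ∂lam, f (act z h) = f z :=
    (Measure.ae_ae_comm (p := fun z h => f (act z h) = f z) hms).2
      (Filter.Eventually.of_forall hinv)
  have hne : NeBot (ae ρ) := ae_neBot.2 hρ0
  have hne' : NeBot (ae lam) := ae_neBot.2 hlam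
  obtain ⟨z₀, ⟨h₀, hz₀⟩, hz₀'⟩ := (hρ.and hswap).exists
  refine ⟨f z₀, ?_⟩
  filter_upwards [hρ, hswap] with z hz hz'
  obtain ⟨k, hk⟩ := hz
  have h1 : z = act z₀ (h₀⁻¹ * k) := by
    rw [hk, hz₀, hmul, mul_inv_cancel_left]
  have h6 : ∀ᵐ h ∂lam, f (act z₀ ((h₀⁻¹ * k) * h)) = f z₀ :=
    (measurePreserving_mul_left lam (h₀⁻¹ * k)).quasiMeasurePreserving.ae hz₀'
  obtain ⟨h, h7, h8⟩ := (h6.and hz').exists
  rw [← h8, ← h7]
  congr 1
  rw [← hmul, ← h1]

/-- An absolutely continuous invariant measure on an orbit is a multiple. -/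
theorem exists_const {p : Fin n → ℝ} {x : X n} {κ ρ : Measure (X n)} [IsFiniteMeasure κ]
    [IsFiniteMeasure ρ] (hac : κ ≪ ρ) (hρ : ∀ᵐ z ∂ρ, z ∈ ZO p x) (hρ0 : ρ ≠ 0)
    (h1 : ∀ h : G n, h.1 * diagonal p = diagonal p * h.1 → κ.map (tr h) = κ)
    (h2 : ∀ h : G n, h.1 * diagonal p = diagonal p * h.1 → ρ.map (tr h) = ρ) :
    ∃ c : ℝ≥0∞, κ = c • ρ := by
  have hlc : LocallyCompactSpace (cenSub p) :=
    (isClosed_cenSub p).isClosedEmbedding_subtypeVal.locallyCompactSpace
  let _ : MeasurableSpace (cenSub p) := borel _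
  have hB : BorelSpace (cenSub p) := ⟨rfl⟩
  have hsc : SecondCountableTopology (cenSub p) :=
    Topology.IsEmbedding.subtypeVal.secondCountableTopology
  have hmm : MeasurableMul (cenSub p) := inferInstance
  have hact : Measurable fun q : X n × cenSub p => tr (q.2 : G n) q.1 :=
    (continuous_tr_uncurry.comp
      (continuous_fst.prodMk (continuous_subtype_val.comp continuous_snd))).measurable
  have hinv : ∀ h : cenSub p, ∀ᵐ z ∂ρ, κ.rnDeriv ρ (tr (h : G n) z) = κ.rnDeriv ρ z := by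
    intro h
    have h3 : MeasurePreserving (tr (h : G n) : X n → X n) κ κ :=
      ⟨(continuous_tr _).measurable, h1 h h.2⟩
    have h4 : MeasurePreserving (tr (h : G n) : X n → X n) ρ ρ :=
      ⟨(continuous_tr _).measurable, h2 h h.2⟩
    exact h3.rnDeriv_comp_aeEq h4
  obtain ⟨c, hc⟩ := const_aux (Measure.haar : Measure (cenSub p)) (NeZero.ne _)
    (fun z (h : cenSub p) => tr (h : G n) z) hact (fun z h k => tr_tr _ _ z) x
    (by
      filter_upwards [hρ] with z hz
      obtain ⟨k, hk, rfl⟩ := hz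
      exact ⟨⟨k, hk⟩, rfl⟩) hρ0 (Measure.measurable_rnDeriv κ ρ) hinv
  refine ⟨c, ?_⟩
  have h5 : ρ.withDensity (κ.rnDeriv ρ) = κ := Measure.withDensity_rnDeriv_eq κ ρ hac
  rw [← h5, withDensity_congr_ae hc, withDensity_const]

theorem homog_unique {p : Fin n → ℝ} {x : X n} (hx : IsClosed (ZO p x)) {κ κ' : Measure (X n)} [IsProbabilityMeasure κ] [IsProbabilityMeasure κ'] (h1 : κ (ZO p x) = 1) (h1' : κ' (ZO p x) = 1) (h2 : ∀ h : G n, h.1 * diagonal p = diagonal p * h.1 → κ.map (tr h) = κ) (h2' : ∀ h : G n, h.1 * diagonal p = diagonal p * h.1 → κ'.map (tr h) = κ') : κ = κ' := by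
  have hm : MeasurableSet (ZO p x) := hx.measurableSet
  have hae : ∀ᵐ z ∂κ, z ∈ ZO p x := by
    rw [ae_iff]
    exact (prob_compl_eq_zero_iff hm).2 h1
  have hae' : ∀ᵐ z ∂κ', z ∈ ZO p x := by
    rw [ae_iff]
    exact (prob_compl_eq_zero_iff hm).2 h1'
  have hρ : ∀ᵐ z ∂(κ + κ'), z ∈ ZO p x := ae_add_measure_iff.2 ⟨hae, hae'⟩
  have hρu : (κ + κ') Set.univ = 2 := by
    rw [Measure.add_apply, measure_univ, measure_univ, one_add_one_eq_two]
  have hρ0 : κ + κ' ≠ 0 := by
    intro h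
    rw [h] at hρu
    simp at hρu
  have hρi : ∀ h : G n, h.1 * diagonal p = diagonal p * h.1 →
      (κ + κ').map (tr h) = κ + κ' := by
    intro h hh
    rw [Measure.map_add _ _ (continuous_tr h).measurable, h2 h hh, h2' h hh]
  obtain ⟨c, hc⟩ := exists_const (κ := κ) (Measure.absolutelyContinuous_of_le
    (Measure.le_add_right le_rfl)) hρ hρ0 h2 hρi
  obtain ⟨c', hc'⟩ := exists_const (κ := κ') (Measure.absolutelyContinuous_of_le
    (Measure.le_add_left le_rfl)) hρ hρ0 h2' hρi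
  have e1 : c * 2 = 1 := by
    have h := congrArg (fun ν : Measure (X n) => ν Set.univ) hc
    simp only [measure_univ, Measure.smul_apply, smul_eq_mul] at h
    rw [hρu] at h
    exact h.symm
  have e2 : c' * 2 = 1 := by
    have h := congrArg (fun ν : Measure (X n) => ν Set.univ) hc'
    simp only [measure_univ, Measure.smul_apply, smul_eq_mul] at h
    rw [hρu] at h
    exact h.symm
  have e3 : c = c' := by
    rw [ENNReal.eq_inv_of_mul_eq_one_left e1, ENNReal.eq_inv_of_mul_eq_one_left e2]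
  calc κ = c • (κ + κ') := hc
    _ = c' • (κ + κ') := by rw [e3]
    _ = κ' := hc'.symm

end Vale.Agent.P007.H11
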