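import Vale.Agent.P007.H11.LimFam
import Vale.Agent.P007.H11.Uniq

/-! Equidistribution in the closed orbits, for fields of prime degree over a fixed subfield. -/

set_option autoImplicit false

open MeasureTheory Matrix NumberField Filter Topology
open scoped ENNReal nonZeroDivisors CompactlySupported

namespace Vale.Agent.P007.H11

open Vale.Agent.P007 Vale.Agent.P007.Koopman Vale.Agent.P007.R

variable {n : ℕ}

theorem isClosed_diff_ZO {p : Fin n → ℝ} {x : X n} (hx : x ∈ Yd p) :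
    IsClosed ((Yd p : Set (X n)) \ ZO p x) := by
  refine (isOpenQuotientMap_pt.isQuotientMap.isClosed_preimage).mp ?_
  have hc : Continuous fun g : G n => (g : Matrix (Fin n) (Fin n) ℝ) * diagonal p *
      ((g⁻¹ : G n) : Matrix (Fin n) (Fin n) ℝ) := by
    have h1 : Continuous fun g : G n => (g : Matrix (Fin n) (Fin n) ℝ) :=
      Matrix.SpecialLinearGroup.isClosedEmbedding_val.continuous
    have h2 : Continuous fun g : G n => ((g⁻¹ : G n) : Matrix (Fin n) (Fin n) ℝ) :=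
      h1.comp continuous_inv
    exact (h1.matrix_mul continuous_const).matrix_mul h2
  have hinj : Function.Injective (castM (n := n)) :=
    (IsClosedEmbedding.matrix_map (m := Fin n) (n := Fin n)
      Int.isClosedEmbedding_coe_real).injective
  have e : (pt : G n → X n) ⁻¹' ((Yd p : Set (X n)) \ ZO p x) =
      {g : G n | (g : Matrix (Fin n) (Fin n) ℝ) * diagonal p *
        ((g⁻¹ : G n) : Matrix (Fin n) (Fin n) ℝ) ∈ castM '' (ZCs p x)ᶜ} := by
    ext g
    have h0 : pt g ∈ ZO p x ↔ (g : Matrix (Fin n) (Fin n) ℝ) * diagonal p *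
        ((g⁻¹ : G n) : Matrix (Fin n) (Fin n) ℝ) ∈ castM '' (ZCs p x) := by
      have h1 := congrArg (fun S : Set (G n) => g ∈ S) (preimage_ZO hx)
      exact iff_of_eq h1
    constructor
    · rintro ⟨h1, h2⟩
      obtain ⟨N, hN⟩ := (stab_iff p g).1 (pt_mem_Yd.1 h1)
      refine ⟨N, fun hN' => h2 (h0.2 ⟨N, hN', hN⟩), hN⟩
    · rintro ⟨N, hN, hNg⟩
      refine ⟨pt_mem_Yd.2 ((stab_iff p g).2 ⟨N, hNg⟩), fun h2 => ?_⟩
      obtain ⟨M, hM, hMg⟩ := h0.1 h2
      exact hN (hinj (hNg.trans hMg.symm) ▸ hM)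
  rw [e]
  exact (isClosed_image_castM _).preimage hc

/-- invariance of limits along an ultrafilter -/
theorem map_of_ultra {μ : ℕ → Measure (X n)} (ν : Measure (X n)) [IsFiniteMeasure ν]
    {U : Ultrafilter ℕ}
    (hν : ∀ f : C_c(X n, ℝ), Tendsto (fun i => ∫ x, f x ∂(μ i)) U (𝓝 (∫ x, f x ∂ν)))
    {g : G n} (hg : ∀ i, (μ i).map (tr g) = μ i) : ν.map (tr g) = ν := by
  have hfin : IsFiniteMeasure (ν.map (tr g)) :=
    Measure.isFiniteMeasure_map ν (tr g)
  refine ext_cc fun f => ?_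
  have hfc : ∀ κ : Measure (X n), AEStronglyMeasurable (fun x => f x) κ := fun κ =>
    f.continuous.aestronglyMeasurable
  rw [integral_map (measurable_tr g).aemeasurable (hfc _)]
  obtain ⟨f', hf'⟩ := exists_comp f g
  have h1 := hν f'
  simp only [hf'] at h1
  refine tendsto_nhds_unique h1 ?_
  refine (hν f).congr fun i => ?_
  conv_lhs => rw [← hg i]
  rw [integral_map (measurable_tr g).aemeasurable (hfc _)]

/-- the masses of a clopen part of a closed set carrying all the measures converge -/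
theorem mass_lim {U : Ultrafilter ℕ} {μ : ℕ → Measure (X n)}
    (hμ : ∀ i, IsProbabilityMeasure (μ i)) {ν : Measure (X n)} [IsProbabilityMeasure ν]
    (hν : ∀ f : C_c(X n, ℝ), Tendsto (fun i => ∫ x, f x ∂μ i) U (𝓝 (∫ x, f x ∂ν)))
    {Y Z : Set (X n)} (hZ : MeasurableSet Z)
    {V₁ V₂ : Set (X n)} (h1 : IsOpen V₁) (h2 : IsOpen V₂) (h1Z : Z ⊆ V₁) (h2Z : Y \ Z ⊆ V₂)
    (h12 : Disjoint V₁ V₂) (hm : ∀ i, μ i Yᶜ = 0) (hn : ν Yᶜ = 0) :
    Tendsto (fun i => (μ i Z).toReal) U (𝓝 (ν Z).toReal) := by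
  -- `V₁` has the mass of `Z`, `V₂` the mass of `Y \ Z`
  have key : ∀ κ : Measure (X n), IsProbabilityMeasure κ → κ Yᶜ = 0 →
      κ V₁ = ENNReal.ofReal (κ Z).toReal ∧ κ V₂ = ENNReal.ofReal (1 - (κ Z).toReal) := by
    intro κ hκ h0
    have e1 : κ V₁ = κ Z := by
      refine le_antisymm ?_ (measure_mono h1Z)
      have : V₁ ⊆ Z ∪ Yᶜ := by
        intro x hx
        by_cases hxY : x ∈ Y
        · left
          by_contra hxZ
          exact Set.disjoint_left.1 h12 hx (h2Z ⟨hxY, hxZ⟩)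
        · exact Or.inr hxY
      calc κ V₁ ≤ κ (Z ∪ Yᶜ) := measure_mono this
        _ ≤ κ Z + κ Yᶜ := measure_union_le _ _
        _ = κ Z := by rw [h0, add_zero]
    have e2 : κ V₂ = κ Zᶜ := by
      refine le_antisymm ?_ ?_
      · refine measure_mono fun x hx hxZ => ?_
        exact Set.disjoint_left.1 h12 (h1Z hxZ) hx
      · have : Zᶜ ⊆ V₂ ∪ Yᶜ := by
          intro x hx
          by_cases hxY : x ∈ Y
          · exact Or.inl (h2Z ⟨hxY, hx⟩)
          · exact Or.inr hxY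
        calc κ Zᶜ ≤ κ (V₂ ∪ Yᶜ) := measure_mono this
          _ ≤ κ V₂ + κ Yᶜ := measure_union_le _ _
          _ = κ V₂ := by rw [h0, add_zero]
    refine ⟨by rw [e1, ENNReal.ofReal_toReal (measure_ne_top κ Z)], ?_⟩
    rw [e2, prob_compl_eq_one_sub hZ, ENNReal.ofReal_sub _ ENNReal.toReal_nonneg,
      ENNReal.ofReal_toReal (measure_ne_top κ Z), ENNReal.ofReal_one]
  have hle1 : ∀ κ : Measure (X n), IsProbabilityMeasure κ → (κ Z).toReal ≤ 1 := fun κ hκ => by
    have h3 := prob_le_one (μ := κ) (s := Z)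
    have h4 := ENNReal.toReal_mono ENNReal.one_ne_top h3
    simpa using h4
  rw [Metric.tendsto_nhds]
  intro ε hε
  by_contra hcon
  rw [← Ultrafilter.eventually_not] at hcon
  have hor : ∀ᶠ i in (U : Filter ℕ), (μ i Z).toReal ≤ (ν Z).toReal - ε ∨
      (ν Z).toReal + ε ≤ (μ i Z).toReal := by
    filter_upwards [hcon] with i hi
    rw [Real.dist_eq, not_lt, le_abs] at hi
    rcases hi with h | h
    · right; linarith
    · left; linarith
  rw [Ultrafilter.eventually_or] at hor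
  rcases hor with h | h
  · -- too small
    have hc : 0 ≤ (ν Z).toReal - ε := by
      obtain ⟨i, hi⟩ := h.exists
      exact ENNReal.toReal_nonneg.trans hi
    have h3 := open_le hμ hν h1 hc (h.mono fun i hi => by
      rw [(key _ (hμ i) (hm i)).1]
      exact ENNReal.ofReal_le_ofReal hi)
    rw [(key ν inferInstance hn).1, ENNReal.ofReal_le_ofReal_iff hc] at h3
    linarith
  · have hc : 0 ≤ 1 - (ν Z).toReal - ε := by
      obtain ⟨i, hi⟩ := h.exists
      have := hle1 _ (hμ i)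
      linarith
    have h3 := open_le hμ hν h2 hc (h.mono fun i hi => by
      rw [(key _ (hμ i) (hm i)).2]
      exact ENNReal.ofReal_le_ofReal (by linarith))
    rw [(key ν inferInstance hn).2, ENNReal.ofReal_le_ofReal_iff hc] at h3
    linarith

/-- the set integrals converge -/
theorem integral_lim_of {U : Ultrafilter ℕ} {μ : ℕ → Measure (X n)} {ν : Measure (X n)} [IsProbabilityMeasure ν]
    (hν : ∀ f : C_c(X n, ℝ), Tendsto (fun i => ∫ x, f x ∂μ i) U (𝓝 (∫ x, f x ∂ν)))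
    {Y Z : Set (X n)} (hZ : MeasurableSet Z) (χ : C(X n, ℝ)) (h1 : ∀ x ∈ Z, χ x = 1)
    (h2 : ∀ x ∈ Y \ Z, χ x = 0) (hm : ∀ i, μ i Yᶜ = 0) (hn : ν Yᶜ = 0) (f : C_c(X n, ℝ)) :
    Tendsto (fun i => ∫ x in Z, f x ∂μ i) U (𝓝 (∫ x in Z, f x ∂ν)) := by
  let F : C_c(X n, ℝ) := ⟨⟨fun x => χ x * f x, χ.continuous.mul f.continuous⟩,
    f.hasCompactSupport.mul_left⟩
  have key : ∀ κ : Measure (X n), κ Yᶜ = 0 → ∫ x in Z, f x ∂κ = ∫ x, F x ∂κ := by
    intro κ h0
    rw [← integral_indicator hZ]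
    refine integral_congr_ae ?_
    have hY : ∀ᵐ x ∂κ, x ∈ Y := by
      rw [ae_iff]; exact h0
    filter_upwards [hY] with x hx
    change Z.indicator (fun x => f x) x = χ x * f x
    by_cases hxZ : x ∈ Z
    · rw [Set.indicator_of_mem hxZ, h1 x hxZ, one_mul]
    · rw [Set.indicator_of_notMem hxZ, h2 x ⟨hx, hxZ⟩, zero_mul]
  rw [key ν hn]
  exact (hν F).congr fun i => (key (μ i) (hm i)).symm

/-- limits in prime relative degree: invariance under the centralizer -/
theorem rel_limit (hn3 : 3 ≤ n) {C₀ ℓ₀ : ℝ} (D : ℕ → Datum n) (hNE : ∀ i, NE C₀ ℓ₀ (D i).K)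
    (hdisc : Tendsto (fun i => (D i).disc) atTop atTop)
    (hsg : ∀ i, ∀ g ∈ W n, (D i).packetMeas.map (tr g) = (D i).packetMeas)
    {p : Fin n → ℝ} {f : Polynomial ℤ} {k : ℕ}
    (hf : f.Monic) (hfi : Irreducible f) (hroot : ∀ j, Polynomial.aeval (p j) f = 0)
    (hf1 : 1 < f.natDegree) (hk : k.Prime) (hkn : f.natDegree * k = n)
    (hY : ∀ i, (D i).packetMeas (Yd p)ᶜ = 0) {m : Measure (X n)} (hm : IsInvProb m)
    (U : Ultrafilter ℕ) (hU : (U : Filter ℕ) ≤ atTop) :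
    ∃ ν : Measure (X n), IsProbabilityMeasure ν ∧ ν (Yd p)ᶜ = 0 ∧
      (∀ h : G n, h.1 * diagonal p = diagonal p * h.1 → ν.map (tr h) = ν) ∧
      ∀ f : C_c(X n, ℝ), Tendsto (fun i => ∫ x, f x ∂(D i).packetMeas) U (𝓝 (∫ x, f x ∂ν)) := by
  obtain ⟨ν, h1, h2, h3, h4⟩ := exists_limit_fam hn3 D hNE hdisc U hU
  have hprob : ∀ i, IsProbabilityMeasure (D i).packetMeas := fun i => packetMeas_prob (D i)
  have hW : SInv ν := fun g hg => map_of_ultra ν h4 fun i => hsg i g hg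
  have hYν : ν (Yd p)ᶜ = 0 := by
    have h5 := open_le hprob h4 (isClosed_Yd p).isOpen_compl (c := 0) le_rfl
      (Eventually.of_forall fun i => by rw [hY i]; exact zero_le)
    rw [ENNReal.ofReal_zero] at h5
    exact le_antisymm h5 zero_le
  obtain ⟨κ, hκ, hνκ⟩ := decomposition_gen hn3 (by omega) ν h2 h3 hm
  have hH := homog_of_prime (by omega) ν hκ hνκ hf hfi hroot hf1 hk hkn hYν
  exact ⟨ν, h1, hYν, fun h hh => inv_centralizer hH hW hh, h4⟩

/-- the normalised restriction of an invariant measure to an orbit is homogeneous -/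
theorem hom1_of_inv {p : Fin n → ℝ} {ν : Measure (X n)} [IsFiniteMeasure ν]
    (hi : ∀ h : G n, h.1 * diagonal p = diagonal p * h.1 → ν.map (tr h) = ν) {x : X n}
    (hx : x ∈ Yd p) (h0 : ν (ZO p x) ≠ 0) :
    Hom1 p ((ν (ZO p x))⁻¹ • ν.restrict (ZO p x)) ∧
      ((ν (ZO p x))⁻¹ • ν.restrict (ZO p x)) (ZO p x) = 1 := by
  have h1 : ((ν (ZO p x))⁻¹ • ν.restrict (ZO p x)) (ZO p x) = 1 := by
    rw [Measure.smul_apply, Measure.restrict_apply_self, smul_eq_mul]
    exact ENNReal.inv_mul_cancel h0 (measure_ne_top _ _)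
  refine ⟨⟨⟨?_⟩, ⟨x, hx, isClosed_ZO hx, h1⟩, fun h hh => ?_⟩, h1⟩
  · rw [Measure.smul_apply, Measure.restrict_apply_univ, smul_eq_mul]
    exact ENNReal.inv_mul_cancel h0 (measure_ne_top _ _)
  · rw [Measure.map_smul, map_restrict (hi h hh) (isClosed_ZO hx).measurableSet]
    rw [ZO_preimage p x hh]
    exact Filter.EventuallyEq.rfl

/-- **Equidistribution in a closed orbit.** -/
theorem rel_equi (hn3 : 3 ≤ n) {C₀ ℓ₀ : ℝ} (D : ℕ → Datum n) (hNE : ∀ i, NE C₀ ℓ₀ (D i).K)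
    (hdisc : Tendsto (fun i => (D i).disc) atTop atTop)
    (hsg : ∀ i, ∀ g ∈ W n, (D i).packetMeas.map (tr g) = (D i).packetMeas)
    {p : Fin n → ℝ} {f : Polynomial ℤ} {k : ℕ}
    (hf : f.Monic) (hfi : Irreducible f) (hroot : ∀ j, Polynomial.aeval (p j) f = 0)
    (hf1 : 1 < f.natDegree) (hk : k.Prime) (hkn : f.natDegree * k = n)
    (hY : ∀ i, (D i).packetMeas (Yd p)ᶜ = 0) {m : Measure (X n)} (hm : IsInvProb m)
    {x : X n} (hx : x ∈ Yd p) :
    (∃ κ : Measure (X n), Hom1 p κ ∧ κ (ZO p x) = 1 ∧ ∀ F : C_c(X n, ℝ),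
      Tendsto (fun i => ∫ y in ZO p x, F y ∂(D i).packetMeas -
        ((D i).packetMeas (ZO p x)).toReal * ∫ y, F y ∂κ) atTop (𝓝 0)) ∨
      Tendsto (fun i => ((D i).packetMeas (ZO p x)).toReal) atTop (𝓝 0) := by
  have hprob : ∀ i, IsProbabilityMeasure (D i).packetMeas := fun i => packetMeas_prob (D i)
  have hcl := isClosed_ZO hx
  have hcl' := isClosed_diff_ZO hx
  have hdisj : Disjoint ((Yd p : Set (X n)) \ ZO p x) (ZO p x) := Set.disjoint_sdiff_left
  have : TopologicalSpace.MetrizableSpace (X n) :=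
    TopologicalSpace.metrizableSpace_of_t3_secondCountable _
  obtain ⟨χ, hχ0, hχ1, hχ⟩ := exists_continuous_zero_one_of_isClosed hcl' hcl hdisj
  have hV : Disjoint {y | (1 / 2 : ℝ) < χ y} {y | χ y < (1 / 2 : ℝ)} := by
    refine Set.disjoint_left.2 fun y h1 h2 => ?_
    change (1 / 2 : ℝ) < χ y at h1
    change χ y < (1 / 2 : ℝ) at h2
    exact lt_asymm h1 h2
  have hlim := rel_limit hn3 D hNE hdisc hsg hf hfi hroot hf1 hk hkn hY hm
  have hmass : ∀ U : Ultrafilter ℕ, ∀ ν : Measure (X n), IsProbabilityMeasure ν →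
      ν (Yd p)ᶜ = 0 → (∀ f : C_c(X n, ℝ), Tendsto (fun i => ∫ x, f x ∂(D i).packetMeas) U
        (𝓝 (∫ x, f x ∂ν))) →
      Tendsto (fun i => ((D i).packetMeas (ZO p x)).toReal) U (𝓝 (ν (ZO p x)).toReal) := by
    intro U ν hν h0 h4
    exact mass_lim hprob h4 hcl.measurableSet
      (isOpen_lt continuous_const χ.continuous) (isOpen_lt χ.continuous continuous_const)
      (fun y hy => by
        change (1 / 2 : ℝ) < χ y
        rw [hχ1 hy]
        norm_num) (fun y hy => by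
        change χ y < (1 / 2 : ℝ)
        rw [hχ0 hy]
        norm_num) hV hY h0
  by_cases hex : ∃ κ : Measure (X n), Hom1 p κ ∧ κ (ZO p x) = 1
  · left
    obtain ⟨κ, hκ, hκ1⟩ := hex
    refine ⟨κ, hκ, hκ1, fun F => ?_⟩
    rw [tendsto_iff_ultrafilter]
    intro U hU
    obtain ⟨ν, hν, h0, hi, h4⟩ := hlim U hU
    have e1 := hmass U ν hν h0 h4
    have e2 := integral_lim_of h4 hcl.measurableSet χ (fun y hy => hχ1 hy)
      (fun y hy => hχ0 hy) hY h0 F
    have e3 : ν.restrict (ZO p x) = ν (ZO p x) • κ := by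
      by_cases hz : ν (ZO p x) = 0
      · rw [hz, zero_smul, Measure.restrict_eq_zero]
        exact hz
      · obtain ⟨h5, h6⟩ := hom1_of_inv hi hx hz
        have := h5.1
        have := hκ.1
        have h7 := homog_unique hcl h6 hκ1 h5.2.2 hκ.2.2
        rw [← h7, smul_smul, ENNReal.mul_inv_cancel hz (measure_ne_top _ _), one_smul]
    have e4 : ∫ y in ZO p x, F y ∂ν = (ν (ZO p x)).toReal * ∫ y, F y ∂κ := by
      rw [e3, integral_smul_measure, smul_eq_mul]
    have e5 := e2.sub (e1.mul_const (∫ y, F y ∂κ))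
    rw [e4, sub_self] at e5
    exact e5
  · right
    rw [tendsto_iff_ultrafilter]
    intro U hU
    obtain ⟨ν, hν, h0, hi, h4⟩ := hlim U hU
    have e1 := hmass U ν hν h0 h4
    have hz : ν (ZO p x) = 0 := by
      by_contra hz
      exact hex ⟨_, hom1_of_inv hi hx hz⟩
    rw [hz] at e1
    simpa using e1

end Vale.Agent.P007.H11
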