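import Vale.Agent.P007.H11.MainFam
import Vale.Agent.P007.H11.RelEq
import Vale.Agent.P007.H11.FieldOf

/-! Equidistribution relative to a fixed subfield, in terms of the definitions of `StmtF`, `Defs` and
`Defs2`. -/

set_option autoImplicit false

open MeasureTheory Matrix NumberField Filter Topology
open scoped ENNReal nonZeroDivisors CompactlySupported

namespace Vale.Agent.P007.F

variable {n : ℕ}

theorem homog_of (p : Fin n → ℝ) (κ : Measure (X n)) (h : Homog p κ) :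
    H11.Hom1 (n := n) p κ := by
  obtain ⟨h1, h2, ⟨x, hx, hxc, hx1⟩⟩ := h
  refine ⟨h1, ⟨x, ?_, hxc, hx1⟩, fun k hk => h2 k hk⟩
  rw [stab_eq] at hx
  exact hx

/-- the homogeneous measure of a closed orbit is unique -/
theorem homog_unique {p : Fin n → ℝ} {x : X n} {κ κ' : Measure (X n)} (hx : x ∈ Stab p)
    (h : Homog p κ) (h' : Homog p κ') (h1 : κ (orbC p x) = 1) (h1' : κ' (orbC p x) = 1) :
    κ = κ' := by
  rw [stab_eq] at hx
  have h2 := h.1
  have h3 := h'.1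
  have key := fun (κ κ' : Measure (Vale.Agent.P007.X n)) (_ : IsProbabilityMeasure κ)
    (_ : IsProbabilityMeasure κ') => H11.homog_unique (n := n) (p := p) (x := x)
      (H11.isClosed_ZO hx) (κ := κ) (κ' := κ')
  exact key κ κ' h2 h3 h1 h1' h.2.1 h'.2.1

section Seq

variable {K : ℕ → Type} [∀ i, Field (K i)] [∀ i, NumberField (K i)]
  {O : ∀ i, Subring (𝓞 (K i))} {σ : ∀ i, Fin n ≃ (K i →+* ℝ)} {μ : ℕ → Measure (X n)}

/-- **Equidistribution relative to a fixed subfield.** -/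
theorem relative {f : Polynomial ℤ} {l : ℕ} (hf : f.Monic) (hfi : Irreducible f)
    (hf1 : 1 < f.natDegree) (hl : l.Prime) (hodd : Odd l) (hln : f.natDegree * l = n)
    {p : Fin n → ℝ} (hroot : ∀ j, Polynomial.aeval (p j) f = 0)
    (h : ∀ i, PacketMeas (K i) (O i) (σ i) (μ i))
    (hp : ∀ i, ∃ a ∈ O i, ∀ j, σ i j a = p j)
    (hdisc : Tendsto (fun i => disc (K i) (O i)) atTop atTop) :
    (∀ i, μ i (Stab p) = 1) ∧
    (∀ ε > 0, ∃ C : Set (X n), IsCompact C ∧ ∀ᶠ i in atTop, μ i Cᶜ ≤ ε) ∧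
    ∀ x ∈ Stab p, IsClosed (orbC p x) ∧
      ((∃ κ, Homog p κ ∧ κ (orbC p x) = 1 ∧ ∀ F : C_c(X n, ℝ),
        Tendsto (fun i => ∫ y in orbC p x, F y ∂μ i - (μ i (orbC p x)).toReal * ∫ y, F y ∂κ)
          atTop (𝓝 0)) ∨
        Tendsto (fun i => (μ i (orbC p x)).toReal) atTop (𝓝 0)) := by
  have hl3 : 3 ≤ l := by
    have := hl.two_le
    rcases hodd with ⟨q, hq⟩
    omega
  have hn3 : 3 ≤ n := by nlinarith
  obtain ⟨F, iF, iN, hFd, hFK⟩ := H11.exists_field f hf hfi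
  have hFK' : ∀ i, Nonempty (F →+* K i) := by
    intro i
    obtain ⟨a, -, ha⟩ := hp i
    refine hFK (K i) a ?_
    have j : Fin n := ⟨0, by omega⟩
    apply (σ i j).injective
    rw [map_zero, ← hroot j, ← ha j, Polynomial.aeval_def, Polynomial.aeval_def,
      Polynomial.hom_eval₂]
    congr 1
    exact RingHom.ext_int _ _
  obtain ⟨C₀, ℓ₀, hNE⟩ := exists_NE (n := n) F hodd (by rw [hFd]; exact hln)
  have hNE' : ∀ i, H11.NE C₀ ℓ₀ (T.mkD (isDatum (h i).1)).K := fun i =>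
    hNE (K i) (h i).1.real (h i).1.deg (hFK' i)
  have h1 := seq_eq h
  have hsg : ∀ i, ∀ g ∈ H11.W n, ((T.mkD (isDatum (h i).1)).packetMeas).map
      (Vale.Agent.P007.tr g) = (T.mkD (isDatum (h i).1)).packetMeas := by
    rintro i g ⟨w, hw⟩
    have h2 := packetMeas_sign (h i) w g hw
    rw [congrFun h1 i] at h2
    exact h2
  have hY : ∀ i, (T.mkD (isDatum (h i).1)).packetMeas (Vale.Agent.P007.Yd (n := n) p)ᶜ = 0 := by
    intro i
    obtain ⟨a, ha, hap⟩ := hp i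
    refine packetMeas_null _ (Vale.Agent.P007.isClosed_Yd p).measurableSet ?_
    rintro S ⟨x, hx, rfl⟩
    have h5 := orb_subset_Yd (T.mkD (isDatum (h i).1)) hx ⟨a, ha⟩
    have h6 : (fun j => (T.mkD (isDatum (h i).1)).σ j ((⟨a, ha⟩ : (T.mkD (isDatum (h i).1)).O) :
        𝓞 (T.mkD (isDatum (h i).1)).K)) = p := funext fun j => hap j
    rw [h6] at h5
    exact h5
  obtain ⟨m, hm, -⟩ := exists_isInvProb n (by omega)
  refine ⟨fun i => ?_, fun ε hε => ?_, fun x hx => ?_⟩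
  · rw [stab_eq]
    have hpr : IsProbabilityMeasure (T.mkD (isDatum (h i).1)).packetMeas :=
      packetMeas_prob (T.mkD (isDatum (h i).1))
    have h2 := (prob_compl_eq_zero_iff (μ := (T.mkD (isDatum (h i).1)).packetMeas)
      (Vale.Agent.P007.isClosed_Yd (n := n) p).measurableSet).1 (hY i)
    rw [congrFun h1 i]
    exact h2
  · obtain ⟨C, hC, hCe⟩ := H11.tightness_fam (n := n) hn3 (C₀ := C₀) (ℓ₀ := ℓ₀)
      (fun i => T.mkD (isDatum (h i).1)) hNE' hdisc ε hε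
    refine ⟨C, hC, ?_⟩
    rw [h1]
    exact hCe
  · rw [stab_eq] at hx
    refine ⟨H11.isClosed_ZO (n := n) (p := p) hx, ?_⟩
    have h2 := H11.rel_equi (n := n) hn3 (C₀ := C₀) (ℓ₀ := ℓ₀) (fun i => T.mkD (isDatum (h i).1))
      hNE' hdisc hsg hf hfi hroot hf1 hl hln hY (m := m) hm (x := x) hx
    rw [h1]
    rcases h2 with ⟨κ, h3, h4, h5⟩ | h3
    · exact Or.inl ⟨κ, homog_iff p κ h3, h4, h5⟩
    · exact Or.inr h3

end Seq

end Vale.Agent.P007.F
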