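import Vale.Agent.P007.H11.RelEq
import Vale.Agent.P007.H11.LimFam2

/-! Equidistribution in the closed orbits, for orders of prime degree over a fixed subfield. -/

set_option autoImplicit false

open MeasureTheory Matrix NumberField Filter Topology
open scoped ENNReal nonZeroDivisors CompactlySupported

namespace Vale.Agent.P007.H11.O2

open Vale.Agent.P007 Vale.Agent.P007.Koopman Vale.Agent.P007.R

variable {n : ℕ}

/-- limits in prime relative degree: invariance under the centralizer -/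
theorem rel_limit (hn3 : 3 ≤ n) {C₀ ℓ₀ : ℝ} (D : ℕ → Datum n) (hNE : ∀ i, NEQ C₀ ℓ₀ (D i))
    (hdisc : Tendsto (fun i => (D i).disc) atTop atTop)
    (hsg : ∀ i, ∀ g ∈ W n, (D i).packetMeas.map (tr g) = (D i).packetMeas)
    {p : Fin n → ℝ} {f : Polynomial ℤ} {k : ℕ}
    (hf : f.Monic) (hfi : Irreducible f) (hroot : ∀ j, Polynomial.aeval (p j) f = 0)
    (hf1 : 1 < f.natDegree) (hk : k.Prime) (hkn : f.natDegree * k = n)
    (hY : ∀ i, (D i).packetMeas (Yd p)ᶜ = 0) {m : Measure (X n)} (hm : IsInvProb m)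
    (U : Ultrafilter ℕ) (hU : (U : Filter ℕ) ≤ atTop) :
    ∃ ν : Measure (X n), IsProbabilityMeasure ν ∧ ν (Yd p)ᶜ = 0 ∧
      (∀ h : G n, h.1 * diagonal p = diagonal p * h.1 → ν.map (tr h) = ν) ∧
      ∀ f : C_c(X n, ℝ), Tendsto (fun i => ∫ x, f x ∂(D i).packetMeas) U (𝓝 (∫ x, f x ∂ν)) := by
  obtain ⟨ν, h1, h2, h3, h4⟩ := exists_limit_fam hn3 D hNE hdisc U hU
  have hprob : ∀ i, IsProbabilityMeasure (D i).packetMeas := fun i => packetMeas_prob (D i)
  have hW : SInv ν := fun g hg => map_of_ultra ν h4 fun i => hsg i g hg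
  have hYν : ν (Yd p)ᶜ = 0 := by
    have h5 := open_le hprob h4 (isClosed_Yd p).isOpen_compl (c := 0) le_rfl
      (Eventually.of_forall fun i => by rw [hY i]; exact zero_le)
    rw [ENNReal.ofReal_zero] at h5
    exact le_antisymm h5 zero_le
  obtain ⟨κ, hκ, hνκ⟩ := decomposition_gen hn3 (by omega) ν h2 h3 hm
  have hH := homog_of_prime (by omega) ν hκ hνκ hf hfi hroot hf1 hk hkn hYν
  exact ⟨ν, h1, hYν, fun h hh => inv_centralizer hH hW hh, h4⟩

/-- **Equidistribution in a closed orbit.** -/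
theorem rel_equi (hn3 : 3 ≤ n) {C₀ ℓ₀ : ℝ} (D : ℕ → Datum n) (hNE : ∀ i, NEQ C₀ ℓ₀ (D i))
    (hdisc : Tendsto (fun i => (D i).disc) atTop atTop)
    (hsg : ∀ i, ∀ g ∈ W n, (D i).packetMeas.map (tr g) = (D i).packetMeas)
    {p : Fin n → ℝ} {f : Polynomial ℤ} {k : ℕ}
    (hf : f.Monic) (hfi : Irreducible f) (hroot : ∀ j, Polynomial.aeval (p j) f = 0)
    (hf1 : 1 < f.natDegree) (hk : k.Prime) (hkn : f.natDegree * k = n)
    (hY : ∀ i, (D i).packetMeas (Yd p)ᶜ = 0) {m : Measure (X n)} (hm : IsInvProb m)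
    {x : X n} (hx : x ∈ Yd p) :
    (∃ κ : Measure (X n), Hom1 p κ ∧ κ (ZO p x) = 1 ∧ ∀ F : C_c(X n, ℝ),
      Tendsto (fun i => ∫ y in ZO p x, F y ∂(D i).packetMeas -
        ((D i).packetMeas (ZO p x)).toReal * ∫ y, F y ∂κ) atTop (𝓝 0)) ∨
      Tendsto (fun i => ((D i).packetMeas (ZO p x)).toReal) atTop (𝓝 0) := by
  have hprob : ∀ i, IsProbabilityMeasure (D i).packetMeas := fun i => packetMeas_prob (D i)
  have hcl := isClosed_ZO hx
  have hcl' := isClosed_diff_ZO hx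
  have hdisj : Disjoint ((Yd p : Set (X n)) \ ZO p x) (ZO p x) := Set.disjoint_sdiff_left
  have : TopologicalSpace.MetrizableSpace (X n) :=
    TopologicalSpace.metrizableSpace_of_t3_secondCountable _
  obtain ⟨χ, hχ0, hχ1, hχ⟩ := exists_continuous_zero_one_of_isClosed hcl' hcl hdisj
  have hV : Disjoint {y | (1 / 2 : ℝ) < χ y} {y | χ y < (1 / 2 : ℝ)} := by
    refine Set.disjoint_left.2 fun y h1 h2 => ?_
    change (1 / 2 : ℝ) < χ y at h1
    change χ y < (1 / 2 : ℝ) at h2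
    exact lt_asymm h1 h2
  have hlim := rel_limit hn3 D hNE hdisc hsg hf hfi hroot hf1 hk hkn hY hm
  have hmass : ∀ U : Ultrafilter ℕ, ∀ ν : Measure (X n), IsProbabilityMeasure ν →
      ν (Yd p)ᶜ = 0 → (∀ f : C_c(X n, ℝ), Tendsto (fun i => ∫ x, f x ∂(D i).packetMeas) U
        (𝓝 (∫ x, f x ∂ν))) →
      Tendsto (fun i => ((D i).packetMeas (ZO p x)).toReal) U (𝓝 (ν (ZO p x)).toReal) := by
    intro U ν hν h0 h4
    exact mass_lim hprob h4 hcl.measurableSet
      (isOpen_lt continuous_const χ.continuous) (isOpen_lt χ.continuous continuous_const)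
      (fun y hy => by
        change (1 / 2 : ℝ) < χ y
        rw [hχ1 hy]
        norm_num) (fun y hy => by
        change χ y < (1 / 2 : ℝ)
        rw [hχ0 hy]
        norm_num) hV hY h0
  by_cases hex : ∃ κ : Measure (X n), Hom1 p κ ∧ κ (ZO p x) = 1
  · left
    obtain ⟨κ, hκ, hκ1⟩ := hex
    refine ⟨κ, hκ, hκ1, fun F => ?_⟩
    rw [tendsto_iff_ultrafilter]
    intro U hU
    obtain ⟨ν, hν, h0, hi, h4⟩ := hlim U hU
    have e1 := hmass U ν hν h0 h4
    have e2 := integral_lim_of h4 hcl.measurableSet χ (fun y hy => hχ1 hy)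
      (fun y hy => hχ0 hy) hY h0 F
    have e3 : ν.restrict (ZO p x) = ν (ZO p x) • κ := by
      by_cases hz : ν (ZO p x) = 0
      · rw [hz, zero_smul, Measure.restrict_eq_zero]
        exact hz
      · obtain ⟨h5, h6⟩ := hom1_of_inv hi hx hz
        have := h5.1
        have := hκ.1
        have h7 := homog_unique hcl h6 hκ1 h5.2.2 hκ.2.2
        rw [← h7, smul_smul, ENNReal.mul_inv_cancel hz (measure_ne_top _ _), one_smul]
    have e4 : ∫ y in ZO p x, F y ∂ν = (ν (ZO p x)).toReal * ∫ y, F y ∂κ := by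
      rw [e3, integral_smul_measure, smul_eq_mul]
    have e5 := e2.sub (e1.mul_const (∫ y, F y ∂κ))
    rw [e4, sub_self] at e5
    exact e5
  · right
    rw [tendsto_iff_ultrafilter]
    intro U hU
    obtain ⟨ν, hν, h0, hi, h4⟩ := hlim U hU
    have e1 := hmass U ν hν h0 h4
    have hz : ν (ZO p x) = 0 := by
      by_contra hz
      exact hex ⟨_, hom1_of_inv hi hx hz⟩
    rw [hz] at e1
    simpa using e1

end Vale.Agent.P007.H11.O2
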