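import Vale.Agent.P007.H11.Limits
import Mathlib.Analysis.InnerProductSpace.MeanErgodic

/-! Invariance from recurrence modulo a subgroup which preserves the measure. -/

set_option autoImplicit false

open MeasureTheory Matrix Filter Topology ProbabilityTheory
open scoped ENNReal CompactlySupported

namespace Vale.Agent.P007.H11

open Vale.Agent.P007 Vale.Agent.P007.Koopman Vale.Agent.P007.Mautner Vale.Agent.P007.R
  Vale.Agent.P007.R.Blk

/-! ### the mean ergodic theorem -/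

section erg

variable {α : Type*} [MeasurableSpace α] {μ : Measure α} {T : α → α}

theorem toLp_iterate (hT : MeasurePreserving T μ μ) {f : α → ℝ} (hf : MemLp f 2 μ) (k : ℕ) :
    (Lp.compMeasurePreservingₗᵢ ℝ T hT : Lp ℝ 2 μ →ₗᵢ[ℝ] Lp ℝ 2 μ)^[k] (hf.toLp f) =
      (hf.comp_measurePreserving (hT.iterate k)).toLp (f ∘ T^[k]) := by
  induction k with
  | zero => rfl
  | succ k ih =>
    rw [Function.iterate_succ_apply', ih]
    change Lp.compMeasurePreserving T hT _ = _
    rw [Lp.toLp_compMeasurePreserving]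
    congr 1

theorem toLp_sum (hT : MeasurePreserving T μ μ) {f : α → ℝ} (hf : MemLp f 2 μ) (N : ℕ) :
    ∃ h : MemLp (fun x => ∑ k ∈ Finset.range N, f (T^[k] x)) 2 μ,
      ∑ k ∈ Finset.range N, (Lp.compMeasurePreservingₗᵢ ℝ T hT : Lp ℝ 2 μ →ₗᵢ[ℝ] Lp ℝ 2 μ)^[k]
        (hf.toLp f) = h.toLp _ := by
  induction N with
  | zero =>
    refine ⟨by simp, ?_⟩
    simp only [Finset.range_zero, Finset.sum_empty]
    exact (MemLp.toLp_zero _).symm
  | succ N ih =>
    obtain ⟨h, hs⟩ := ih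
    have h2 : (fun x => ∑ k ∈ Finset.range (N + 1), f (T^[k] x)) =
        (fun x => ∑ k ∈ Finset.range N, f (T^[k] x)) + (f ∘ T^[N]) := by
      funext x
      rw [Finset.sum_range_succ]
      rfl
    have h3 : MemLp ((fun x => ∑ k ∈ Finset.range N, f (T^[k] x)) + (f ∘ T^[N])) 2 μ :=
      h.add (hf.comp_measurePreserving (hT.iterate N))
    refine ⟨by rw [h2]; exact h3, ?_⟩
    rw [Finset.sum_range_succ, hs, toLp_iterate hT hf N, ← MemLp.toLp_add]
    congr 1
    exact h2.symm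

/-- the averages -/
noncomputable def av (T : α → α) (f : α → ℝ) (N : ℕ) (x : α) : ℝ :=
  (N : ℝ)⁻¹ * ∑ k ∈ Finset.range N, f (T^[k] x)

theorem mean_erg [IsProbabilityMeasure μ] (hT : MeasurePreserving T μ μ) {f : α → ℝ}
    (hf : MemLp f 2 μ) : ∃ F : α → ℝ, Measurable F ∧ (∀ᵐ x ∂μ, F (T x) = F x) ∧
      TendstoInMeasure μ (av T f) atTop F := by
  set U : Lp ℝ 2 μ →ₗᵢ[ℝ] Lp ℝ 2 μ := Lp.compMeasurePreservingₗᵢ ℝ T hT with hU
  set V : Lp ℝ 2 μ →L[ℝ] Lp ℝ 2 μ := U.toContinuousLinearMap with hV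
  have h1 := V.tendsto_birkhoffAverage_orthogonalProjection U.norm_toContinuousLinearMap_le
    (hf.toLp f)
  set P := (V.eqLocus (1 : Lp ℝ 2 μ →L[ℝ] Lp ℝ 2 μ)).orthogonalProjectionOnto (hf.toLp f) with hP
  have hP1 : V (P : Lp ℝ 2 μ) = P := P.2
  obtain ⟨F, hF, hF'⟩ : ∃ F : α → ℝ, StronglyMeasurable F ∧ ((P : Lp ℝ 2 μ) : α → ℝ) =ᵐ[μ] F :=
    Lp.aestronglyMeasurable (P : Lp ℝ 2 μ)
  refine ⟨F, hF.measurable, ?_, ?_⟩
  · have h2 : ((V (P : Lp ℝ 2 μ) : Lp ℝ 2 μ) : α → ℝ) =ᵐ[μ] ((P : Lp ℝ 2 μ) : α → ℝ) ∘ T :=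
      Lp.coeFn_compMeasurePreserving _ hT
    rw [hP1] at h2
    have h3 : ∀ᵐ x ∂μ, ((P : Lp ℝ 2 μ) : α → ℝ) (T x) = F (T x) :=
      hT.quasiMeasurePreserving.ae hF'
    filter_upwards [h2, h3, hF'] with x a b c
    rw [← b, ← c, a]
    rfl
  · have h2 := tendstoInMeasure_of_tendsto_Lp h1
    refine (h2.congr_right hF').congr_left fun N => ?_
    obtain ⟨h, hs⟩ := toLp_sum hT hf N
    have h3 : birkhoffAverage ℝ V _root_.id N (hf.toLp f) = (N : ℝ)⁻¹ • h.toLp _ := by
      rw [← hs]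
      rfl
    rw [h3]
    filter_upwards [Lp.coeFn_smul (N : ℝ)⁻¹ (h.toLp _), h.coeFn_toLp] with x a b
    rw [a, Pi.smul_apply, b]
    rfl

/-- the averages of a bounded function: integrals pass to the limit -/
theorem integral_lim [IsProbabilityMeasure μ] (hT : MeasurePreserving T μ μ) {f : α → ℝ}
    (hf : Measurable f) {C : ℝ} (hC : ∀ x, |f x| ≤ C) {F : α → ℝ} {φ : ℕ → ℕ}
    (hφ : StrictMono φ) (hlim : ∀ᵐ x ∂μ, Tendsto (fun k => av T f (φ k) x) atTop (𝓝 (F x))) :
    ∫ x, F x ∂μ = ∫ x, f x ∂μ := by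
  have hint : Integrable f μ := Integrable.of_bound hf.aestronglyMeasurable C
    (Eventually.of_forall fun x => by rw [Real.norm_eq_abs]; exact hC x)
  have hm : ∀ N, Measurable (av T f N) := by
    intro N
    unfold av
    exact (Finset.measurable_sum _ fun k _ => hf.comp (hT.measurable.iterate k)).const_mul _
  have h1 : Tendsto (fun k => ∫ x, av T f (φ k) x ∂μ) atTop (𝓝 (∫ x, F x ∂μ)) := by
    refine tendsto_integral_of_dominated_convergence (fun _ => C)
      (fun k => (hm _).aestronglyMeasurable) (integrable_const C) (fun k => ?_) hlim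
    refine Eventually.of_forall fun x => ?_
    rw [Real.norm_eq_abs, av, abs_mul, abs_inv, Nat.abs_cast]
    have hC0 : 0 ≤ C := (abs_nonneg _).trans (hC x)
    rcases Nat.eq_zero_or_pos (φ k) with h | h
    · rw [h]
      simpa using hC0
    · rw [inv_mul_le_iff₀ (by exact_mod_cast h)]
      refine (Finset.abs_sum_le_sum_abs _ _).trans ?_
      refine (Finset.sum_le_sum fun j _ => hC _).trans ?_
      rw [Finset.sum_const, Finset.card_range, nsmul_eq_mul]
  have h2 : ∀ᶠ k in atTop, ∫ x, av T f (φ k) x ∂μ = ∫ x, f x ∂μ := by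
    filter_upwards [hφ.tendsto_atTop.eventually_ge_atTop 1] with k hk
    unfold av
    have h0 : ∀ j ∈ Finset.range (φ k), Integrable (fun x => f (T^[j] x)) μ := fun j _ =>
      (hT.iterate j).integrable_comp_of_integrable hint
    rw [integral_const_mul, integral_finsetSum _ h0]
    have h3 : ∀ j ∈ Finset.range (φ k), ∫ x, f (T^[j] x) ∂μ = ∫ x, f x ∂μ := by
      intro j _
      have h4 := (hT.iterate j).map_eq
      conv_rhs => rw [← h4]
      rw [integral_map (hT.iterate j).measurable.aemeasurable]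
      rw [h4]
      exact hf.aestronglyMeasurable
    rw [Finset.sum_congr rfl h3, Finset.sum_const, Finset.card_range, nsmul_eq_mul, ← mul_assoc,
      inv_mul_cancel₀, one_mul]
    have : (0 : ℝ) < φ k := by exact_mod_cast hk
    exact this.ne'
  exact tendsto_nhds_unique h1 (tendsto_const_nhds.congr' (h2.mono fun k hk => hk.symm))

end erg

variable {n : ℕ}

/-- uniform continuity along the translations -/
theorem unif (f : C_c(X n, ℝ)) (u : G n) {ε : ℝ} (hε : 0 < ε) :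
    ∀ᶠ γ in 𝓝 u, ∀ x : X n, |f (tr γ x) - f (tr u x)| ≤ ε := by
  obtain ⟨W, hW, hWu⟩ := exists_compact_mem_nhds u
  set K := tsupport f with hK
  have hKc : IsCompact K := f.hasCompactSupport
  -- outside `L` both values vanish for `γ ∈ W`
  set L : Set (X n) := (fun p : X n × G n => tr p.2⁻¹ p.1) '' (K ×ˢ W) with hL
  have hLc : IsCompact L := (hKc.prod hW).image
    (continuous_tr_uncurry.comp (continuous_fst.prodMk continuous_snd.inv))
  have hmem : ∀ γ ∈ W, ∀ x, x ∉ L → f (tr γ x) = 0 := by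
    intro γ hγ x hx
    refine image_eq_zero_of_notMem_tsupport fun h => hx ?_
    refine ⟨(tr γ x, γ), ⟨h, hγ⟩, ?_⟩
    change tr γ⁻¹ (tr γ x) = x
    rw [tr_tr, mul_inv_cancel, Vale.Agent.P007.tr_one]
  have h1 : ∀ᶠ γ in 𝓝 u, ∀ x ∈ L, |f (tr γ x) - f (tr u x)| < ε := by
    refine hLc.eventually_forall_of_forall_eventually fun x _ => ?_
    have hc : Continuous fun p : G n × X n => |f (tr p.1 p.2) - f (tr u p.2)| := by
      have h2 : Continuous fun p : G n × X n => tr p.1 p.2 :=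
        continuous_tr_uncurry.comp (continuous_snd.prodMk continuous_fst)
      exact ((f.continuous.comp h2).sub
        (f.continuous.comp ((continuous_tr u).comp continuous_snd))).abs
    have h3 := hc.tendsto (u, x)
    simp only [sub_self, abs_zero] at h3
    exact h3.eventually (gt_mem_nhds hε)
  filter_upwards [h1, hWu] with γ ha hb x
  by_cases hx : x ∈ L
  · exact (ha x hx).le
  · rw [hmem γ hb x hx, hmem u (mem_of_mem_nhds hWu) x hx, sub_self, abs_zero]
    exact hε.le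

/-- a subgroup containing the root groups of `B` contains `SL_B(ℝ)`. -/
theorem io_mem_of {B : Finset (Fin n)} (S : Subgroup (G n)) (hB : 2 ≤ B.card)
    (h1 : ∀ i ∈ B, ∀ j ∈ B, i ≠ j → ∀ s : ℝ, ug i j s ∈ S) (M : HB B) : (io M : G n) ∈ S := by
  have hnt : Nontrivial B := by
    rw [← Fintype.one_lt_card_iff_nontrivial, Fintype.card_coe]
    omega
  have htv : ∀ (i j : Fin n) (hij : i ≠ j), i ∈ B → j ∈ B → ∀ c : ℝ, tv hij c ∈ S := by
    intro i j hij hi hj c
    rw [← ug_of_ne hij]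
    exact h1 i hi j hj hij c
  refine SpecialLinearGroup.diagonal_transvection_induction'
    (fun M : HB B => (io M : G n) ∈ S) M ?_ ?_ ?_
  · intro i j hij c hc
    rw [io_diag2n, diag2n_eq _ c 1 hc one_ne_zero]
    exact mul_mem (mul_mem (mul_mem (htv _ _ _ j.2 i.2 _) (htv _ _ _ i.2 j.2 _))
      (htv _ _ _ j.2 i.2 _)) (htv _ _ _ i.2 j.2 _)
  · intro i j hij c
    rw [io_transvection]
    exact htv _ _ _ i.2 j.2 _
  · intro M N hM hN
    rw [map_mul]
    exact mul_mem hM hN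

/-- the group of the transformations which preserve `μ` and the function `F` almost everywhere -/
def invF (μ : Measure (X n)) (F : X n → ℝ) : Subgroup (G n) where
  carrier := {g | g ∈ Blk.invG μ ∧ ∀ᵐ x ∂μ, F (tr g x) = F x}
  one_mem' := ⟨one_mem _, Eventually.of_forall fun x => by rw [Vale.Agent.P007.tr_one]⟩
  mul_mem' := by
    rintro g h ⟨hg, hg'⟩ ⟨hh, hh'⟩
    refine ⟨mul_mem hg hh, ?_⟩
    filter_upwards [(mp_of_mem hg).quasiMeasurePreserving.ae hh', hg'] with x a b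
    rw [← tr_tr, a, b]
  inv_mem' := by
    rintro g ⟨hg, hg'⟩
    refine ⟨inv_mem hg, ?_⟩
    filter_upwards [(mp_of_mem (inv_mem hg)).quasiMeasurePreserving.ae hg'] with x a
    rw [← a, tr_tr, inv_mul_cancel, Vale.Agent.P007.tr_one]

theorem ug_mem_invF {μ : Measure (X n)} [IsProbabilityMeasure μ] {F : X n → ℝ} (hF : Measurable F)
    {β : Fin n → ℝ} (hβ : da β ∈ invF μ F) {i j : Fin n} (hij : β i ≠ β j) (hU : UInv μ i j)
    (s : ℝ) : ug i j s ∈ invF μ F := by
  obtain ⟨γ, hγ, hγ'⟩ : ∃ γ : Fin n → ℝ, da γ ∈ invF μ F ∧ γ j < γ i := by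
    rcases lt_or_gt_of_ne hij with h | h
    · refine ⟨-β, by rw [da_neg]; exact inv_mem hβ, ?_⟩
      simpa using h
    · exact ⟨β, hβ, h⟩
  obtain ⟨X', hX', hX0, h⟩ := hopf μ (da γ) hγ.1 F hF hγ.2
  refine ⟨hU s, ?_⟩
  have h1 : ∀ᵐ x ∂μ, x ∈ X' := by
    rw [ae_iff]; exact hX0
  filter_upwards [h1, (mp_of_mem (hU s : ug i j s ∈ Blk.invG μ)).quasiMeasurePreserving.ae h1]
    with x a b
  exact (h x a _ b (tendsto_conj_ug' i j γ hγ' s)).symm

/-- `γ` is the identity on the rows and the columns of `B` -/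
def IdB (B : Finset (Fin n)) (γ : G n) : Prop :=
  ∀ k l, (k ∈ B ∨ l ∈ B) → γ.1 k l = if k = l then 1 else 0

theorem IdB.comm_io {B : Finset (Fin n)} {γ : G n} (h : IdB B γ) (q : HB B) :
    io q * γ = γ * io q := by
  apply Subtype.ext
  change bm q.1 * γ.1 = γ.1 * bm q.1
  ext k l
  by_cases hk : k ∈ B
  · have e1 : (bm q.1 * γ.1) k l = ∑ j : B, q.1 ⟨k, hk⟩ j * γ.1 j l :=
      bm_mul_apply q.1 γ.1 ⟨k, hk⟩ l
    rw [e1]
    by_cases hl : l ∈ B
    · have e2 : (γ.1 * bm q.1) k l = ∑ j : B, γ.1 k j * q.1 j ⟨l, hl⟩ :=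
        mul_bm_apply q.1 γ.1 k ⟨l, hl⟩
      rw [e2, Finset.sum_eq_single ⟨l, hl⟩, Finset.sum_eq_single ⟨k, hk⟩, h k k (Or.inl hk),
        h l l (Or.inl hl), if_pos rfl, if_pos rfl, mul_one, one_mul]
      · intro j _ hj
        rw [h k j (Or.inl hk), if_neg (fun e => hj (Subtype.ext e.symm)), zero_mul]
      · intro hh
        exact absurd (Finset.mem_univ _) hh
      · intro j _ hj
        rw [h j l (Or.inl j.2), if_neg (fun e => hj (Subtype.ext e)), mul_zero]
      · intro hh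
        exact absurd (Finset.mem_univ _) hh
    · have hkl : k ≠ l := fun e => hl (e ▸ hk)
      rw [mul_bm_apply_not _ _ hl, h k l (Or.inl hk), if_neg hkl]
      refine Finset.sum_eq_zero fun j _ => ?_
      have hjl : (j : Fin n) ≠ l := fun e => hl (e ▸ j.2)
      rw [h j l (Or.inl j.2), if_neg hjl, mul_zero]
  · rw [bm_mul_apply_not _ _ hk]
    by_cases hl : l ∈ B
    · have e2 : (γ.1 * bm q.1) k l = ∑ j : B, γ.1 k j * q.1 j ⟨l, hl⟩ :=
        mul_bm_apply q.1 γ.1 k ⟨l, hl⟩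
      have hkl : k ≠ l := fun e => hk (e ▸ hl)
      rw [e2, h k l (Or.inr hl), if_neg hkl]
      refine (Finset.sum_eq_zero fun j _ => ?_).symm
      have hkj : k ≠ (j : Fin n) := fun e => hk (e ▸ j.2)
      rw [h k j (Or.inr j.2), if_neg hkj, zero_mul]
    · rw [mul_bm_apply_not _ _ hl]

theorem IdB.comm_da {B : Finset (Fin n)} {γ : G n} (h : IdB B γ) {β : Fin n → ℝ}
    (hβ : ∀ k, k ∉ B → β k = 0) (hm : mean β = 0) : da β * γ = γ * da β := by
  apply Subtype.ext
  change (da β).1 * γ.1 = γ.1 * (da β).1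
  rw [coe_da, hm]
  simp only [sub_zero]
  ext k l
  rw [diagonal_mul, mul_diagonal]
  by_cases hkl : k ∈ B ∨ l ∈ B
  · rw [h k l hkl]
    by_cases e : k = l
    · rw [if_pos e, e, mul_one, one_mul]
    · rw [if_neg e, mul_zero, zero_mul]
  · push Not at hkl
    rw [hβ k hkl.1, hβ l hkl.2, Real.exp_zero, one_mul, mul_one]

theorem exists_beta {B : Finset (Fin n)} (hB : B.Nonempty) : ∃ β : Fin n → ℝ,
    (∀ k, k ∉ B → β k = 0) ∧ mean β = 0 ∧ ∀ i ∈ B, ∀ j ∈ B, i ≠ j → β i ≠ β j := by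
  classical
  refine ⟨fun k => if k ∈ B then (k.val : ℝ) - (∑ j ∈ B, (j.val : ℝ)) / B.card else 0,
    fun k hk => if_neg hk, ?_, ?_⟩
  · rw [mean, ← Finset.sum_filter, Finset.filter_mem_eq_inter, Finset.univ_inter,
      Finset.sum_sub_distrib, Finset.sum_const, nsmul_eq_mul, mul_div_cancel₀, sub_self, zero_div]
    exact_mod_cast (Finset.card_pos.2 hB).ne'
  · intro i hi j hj hij h
    simp only [if_pos hi, if_pos hj, sub_left_inj, Nat.cast_inj] at h
    exact hij (Fin.ext h)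

theorem measurable_tr_io (B : Finset (Fin n)) :
    Measurable fun p : X n × HB B => tr (io p.2 : G n) p.1 :=
  (continuous_tr_uncurry.comp
    (continuous_fst.prodMk (continuous_io.comp continuous_snd))).measurable

/-- **Invariance from recurrence.** Let `μ` be invariant under `A` and `SL_B(ℝ)`. If almost every
point is fixed by some `io q * γ` with `γ` as close to `u` as we want (and the identity on `B`),
then `μ` is invariant under `u`. -/
theorem inv_of_recurrence (μ : Measure (X n)) [IsProbabilityMeasure μ] (hA : AInv μ)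
    {B : Finset (Fin n)} (hB : 2 ≤ B.card) (h1 : ∀ i ∈ B, ∀ j ∈ B, i ≠ j → UInv μ i j) (u : G n)
    (hrec : ∀ᵐ x ∂μ, ∀ V ∈ 𝓝 u, ∃ q : HB B, ∃ γ ∈ V, IdB B γ ∧ tr (io q * γ) x = x) :
    μ.map (tr u) = μ := by
  have hBne : B.Nonempty := Finset.card_pos.1 (by omega)
  obtain ⟨β, hβ0, hβm, hβi⟩ := exists_beta hBne
  have hT : MeasurePreserving (tr (da β)) μ μ := mp_of_mem (da_mem_invG hA β)
  have hitr : ∀ (k : ℕ) (x : X n), (tr (da β))^[k] x = tr (da β ^ k) x := fun k x =>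
    iterate_tr _ k x
  have hmap : IsProbabilityMeasure (μ.map (tr u)) :=
    Measure.isProbabilityMeasure_map (measurable_tr u).aemeasurable
  refine ext_cc fun f => ?_
  have hfc : AEStronglyMeasurable (fun x => f x) (μ.map (tr u)) := f.continuous.aestronglyMeasurable
  rw [integral_map (measurable_tr u).aemeasurable hfc]
  obtain ⟨C, hC⟩ := f.hasCompactSupport.exists_bound_of_continuous f.continuous
  have hmemLp : ∀ g : X n → ℝ, Measurable g → (∀ x, |g x| ≤ C) → MemLp g 2 μ := fun g hg hgC =>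
    MemLp.of_bound hg.aestronglyMeasurable C (Eventually.of_forall hgC)
  set f₂ : X n → ℝ := fun x => f (tr u x) with hf₂
  have hfm : Measurable (f : X n → ℝ) := f.continuous.measurable
  have hf₂m : Measurable f₂ := (f.continuous.comp (continuous_tr u)).measurable
  obtain ⟨F, hF, hFi, hFl⟩ := mean_erg hT (hmemLp f hfm hC)
  obtain ⟨F₂, hF₂, hF₂i, hF₂l⟩ := mean_erg hT (hmemLp f₂ hf₂m fun x => hC _)
  obtain ⟨φ₁, hφ₁, hl₁⟩ := hFl.exists_seq_tendsto_ae
  obtain ⟨φ₂, hφ₂, hl₂⟩ := (hF₂l.comp hφ₁.tendsto_atTop).exists_seq_tendsto_ae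
  have hl₁' : ∀ᵐ x ∂μ, Tendsto (fun k => av (tr (da β)) f (φ₁ (φ₂ k)) x) atTop (𝓝 (F x)) := by
    filter_upwards [hl₁] with x hx
    exact hx.comp hφ₂.tendsto_atTop
  have hl₂' : ∀ᵐ x ∂μ, Tendsto (fun k => av (tr (da β)) f₂ (φ₁ (φ₂ k)) x) atTop (𝓝 (F₂ x)) := hl₂
  have hφ : StrictMono fun k => φ₁ (φ₂ k) := hφ₁.comp hφ₂
  have hI₁ := integral_lim hT hfm hC hφ hl₁'
  have hI₂ := integral_lim hT hf₂m (fun x => hC _) hφ hl₂'
  -- invariance of the two limits
  have hinv : ∀ H : X n → ℝ, Measurable H → (∀ᵐ x ∂μ, H (tr (da β) x) = H x) →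
      ∀ q : HB B, ∀ᵐ x ∂μ, H (tr (io q) x) = H x := by
    intro H hH hHi q
    refine (io_mem_of (invF μ H) hB (fun i hi j hj hij s => ?_) q).2
    exact ug_mem_invF hH ⟨da_mem_invG hA β, hHi⟩ (hβi i hi j hj hij) (h1 i hi j hj hij) s
  have hio : ∀ q : HB B, (io q : G n) ∈ Blk.invG μ := io_mem_invG μ hB h1
  -- the measurable set of good points
  have hmav : ∀ g : X n → ℝ, Measurable g → ∀ k, Measurable (av (tr (da β)) g (φ₁ (φ₂ k))) := by
    intro g hg k
    unfold av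
    exact (Finset.measurable_sum _ fun k _ => hg.comp (hT.measurable.iterate k)).const_mul _
  have hgood : MeasurableSet {p : X n × HB B |
      Tendsto (fun k => av (tr (da β)) f (φ₁ (φ₂ k)) (tr (io p.2) p.1)) atTop
        (𝓝 (F (tr (io p.2) p.1))) ∧
      Tendsto (fun k => av (tr (da β)) f₂ (φ₁ (φ₂ k)) (tr (io p.2) p.1)) atTop
        (𝓝 (F₂ (tr (io p.2) p.1))) ∧ F (tr (io p.2) p.1) = F p.1 ∧
        F₂ (tr (io p.2) p.1) = F₂ p.1} := by
    have hm := measurable_tr_io (n := n) B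
    have e1 := measurableSet_tendsto_fun (l := (atTop : Filter ℕ)) (fun k => (hmav f hfm k).comp hm)
      (hF.comp hm)
    have e2 := measurableSet_tendsto_fun (l := (atTop : Filter ℕ))
      (fun k => (hmav f₂ hf₂m k).comp hm) (hF₂.comp hm)
    have e3 := measurableSet_eq_fun (hF.comp hm) (hF.comp measurable_fst)
    have e4 := measurableSet_eq_fun (hF₂.comp hm) (hF₂.comp measurable_fst)
    exact e1.inter (e2.inter (e3.inter e4))
  have hfub : ∀ᵐ x ∂μ, ∀ᵐ q ∂(hH B),
      Tendsto (fun k => av (tr (da β)) f (φ₁ (φ₂ k)) (tr (io q) x)) atTop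
        (𝓝 (F (tr (io q) x))) ∧
      Tendsto (fun k => av (tr (da β)) f₂ (φ₁ (φ₂ k)) (tr (io q) x)) atTop
        (𝓝 (F₂ (tr (io q) x))) ∧ F (tr (io q) x) = F x ∧ F₂ (tr (io q) x) = F₂ x := by
    rw [Measure.ae_ae_comm hgood]
    refine Eventually.of_forall fun q => ?_
    filter_upwards [(mp_of_mem (hio q)).quasiMeasurePreserving.ae hl₁',
      (mp_of_mem (hio q)).quasiMeasurePreserving.ae hl₂', hinv F hF hFi q, hinv F₂ hF₂ hF₂i q]
      with x a b c d
    exact ⟨a, b, c, d⟩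
  have hkey : ∀ᵐ x ∂μ, F x = F₂ x := by
    filter_upwards [hfub, hrec] with x hx hr
    have hle : ∀ ε : ℝ, 0 < ε → |F x - F₂ x| ≤ ε := by
      intro ε hε
      obtain ⟨q, γ, hγ, hid, hfix⟩ := hr _ (unif f u hε)
      have hq : ∀ᵐ s ∂(hH B), Tendsto (fun k => av (tr (da β)) f (φ₁ (φ₂ k))
          (tr (io (q⁻¹ * s)) x)) atTop (𝓝 (F (tr (io (q⁻¹ * s)) x))) ∧
          F (tr (io (q⁻¹ * s)) x) = F x := by
        filter_upwards [(measurePreserving_mul_left (hH B) q⁻¹).quasiMeasurePreserving.ae hx]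
          with s hs
        exact ⟨hs.1, hs.2.2.1⟩
      obtain ⟨s, ⟨s1, s2, s3, s4⟩, s5, s6⟩ := (hx.and hq).exists
      rw [s6] at s5
      rw [s4] at s2
      refine le_of_tendsto (s5.sub s2).abs (Eventually.of_forall fun k => ?_)
      -- the point `x · io(q⁻¹ s)` is `x · io s · γ`
      have e1 : tr (io (q⁻¹ * s)) x = tr γ (tr (io s) x) := by
        have e2 : tr (io q⁻¹ : G n) x = tr γ x := by
          conv_lhs => rw [← hfix]
          rw [tr_tr, hid.comm_io, mul_assoc, ← map_mul, mul_inv_cancel, map_one, mul_one]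
        rw [map_mul, ← tr_tr, e2, tr_tr, ← hid.comm_io, ← tr_tr]
      have hcomm : ∀ j : ℕ, γ * da β ^ j = da β ^ j * γ := fun j =>
        ((Commute.pow_left (hid.comm_da hβ0 hβm : Commute (da β) γ) j).eq).symm
      unfold av
      rw [← mul_sub, ← Finset.sum_sub_distrib, abs_mul, abs_inv, Nat.abs_cast]
      rcases Nat.eq_zero_or_pos (φ₁ (φ₂ k)) with h | h
      · rw [h]
        simpa using hε.le
      · rw [inv_mul_le_iff₀ (by exact_mod_cast h)]
        refine (Finset.abs_sum_le_sum_abs _ _).trans ?_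
        calc ∑ j ∈ Finset.range (φ₁ (φ₂ k)), |f ((tr (da β))^[j] (tr (io (q⁻¹ * s)) x)) -
              f₂ ((tr (da β))^[j] (tr (io s) x))| ≤ ∑ j ∈ Finset.range (φ₁ (φ₂ k)), ε := by
              refine Finset.sum_le_sum fun j _ => ?_
              rw [e1, hitr, hitr, tr_tr, hcomm, ← tr_tr]
              exact hγ _
          _ = _ := by rw [Finset.sum_const, Finset.card_range, nsmul_eq_mul]
    have h0 : |F x - F₂ x| = 0 := by
      refine le_antisymm (le_of_forall_pos_le_add fun ε hε => ?_) (abs_nonneg _)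
      rw [zero_add]
      exact hle ε hε
    exact sub_eq_zero.1 (abs_eq_zero.1 h0)
  rw [← hI₁, ← hI₂]
  exact (integral_congr_ae hkey).symm

end Vale.Agent.P007.H11
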