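import Vale.Agent.P007.H11.QDefs

/-!
Fixed fields of conjugate subgroups, and the quadratic subfield which belongs to a subgroup of
index two containing the group of a subfield.
-/

set_option autoImplicit false

open NumberField

namespace Vale.Agent.P007.H11

open Vale.Agent.P007 Vale.Agent.P007.Z

/-- the fixed fields of conjugate subgroups are isomorphic -/
theorem exists_conj_equiv (L : Type) [Field L] [NumberField L] (H : Subgroup (L ≃ₐ[ℚ] L))
    (g : L ≃ₐ[ℚ] L) :
    Nonempty (IntermediateField.fixedField H ≃+*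
      IntermediateField.fixedField (H.map (MulAut.conj g).toMonoidHom)) := by
  have hmem : ∀ x ∈ IntermediateField.fixedField H,
      g x ∈ IntermediateField.fixedField (H.map (MulAut.conj g).toMonoidHom) := by
    intro x hx
    rw [IntermediateField.mem_fixedField_iff] at hx ⊢
    rintro τ ⟨σ, hσ, rfl⟩
    change (g * σ * g⁻¹) (g x) = g x
    rw [AlgEquiv.mul_apply, AlgEquiv.mul_apply]
    have h1 : g⁻¹ (g x) = x := by
      rw [← AlgEquiv.mul_apply, inv_mul_cancel, AlgEquiv.one_apply]
    rw [h1, hx σ hσ]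
  let f : IntermediateField.fixedField H →+*
      IntermediateField.fixedField (H.map (MulAut.conj g).toMonoidHom) :=
    { toFun := fun x => ⟨g x, hmem x x.2⟩
      map_one' := Subtype.ext (map_one _)
      map_mul' := fun x y => Subtype.ext (map_mul _ _ _)
      map_zero' := Subtype.ext (map_zero _)
      map_add' := fun x y => Subtype.ext (map_add _ _ _) }
  refine ⟨RingEquiv.ofBijective f ⟨f.injective, ?_⟩⟩
  rintro ⟨y, hy⟩
  refine ⟨⟨g⁻¹ y, ?_⟩, Subtype.ext ?_⟩
  · rw [IntermediateField.mem_fixedField_iff] at hy ⊢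
    intro σ hσ
    have h2 := hy (g * σ * g⁻¹) ⟨σ, hσ, rfl⟩
    rw [AlgEquiv.mul_apply, AlgEquiv.mul_apply] at h2
    calc σ (g⁻¹ y) = g⁻¹ (g (σ (g⁻¹ y))) := by
          rw [← AlgEquiv.mul_apply g⁻¹ g, inv_mul_cancel, AlgEquiv.one_apply]
      _ = g⁻¹ y := by rw [h2]
  · change g (g⁻¹ y) = y
    rw [← AlgEquiv.mul_apply, mul_inv_cancel, AlgEquiv.one_apply]

/-- **[A7a] (1)** -/
theorem Sc_conj (L : Type) [Field L] [NumberField L] (H : Subgroup (L ≃ₐ[ℚ] L))
    (g : L ≃ₐ[ℚ] L) (ℓ η : ℝ) :
    Sc (IntermediateField.fixedField (H.map (MulAut.conj g).toMonoidHom)) (fun _ => True) ℓ η =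
      Sc (IntermediateField.fixedField H) (fun _ => True) ℓ η := by
  obtain ⟨e⟩ := exists_conj_equiv L H g
  exact (CStep.Sc_congr (fun m => aE_congr _ _ e m) ℓ η).symm

/-- **[A7a] (2)** -/
theorem quad_sub (K L : Type) [Field K] [NumberField K] [Field L] [NumberField L] [Algebra K L]
    [IsGalois ℚ L] (N : Subgroup (L ≃ₐ[ℚ] L)) (hN : N.index = 2)
    (hK : ∀ σ : L ≃ₐ[ℚ] L, (∀ x : K, σ (algebraMap K L x) = algebraMap K L x) → σ ∈ N) :
    ∃ E : IntermediateField ℚ K, Module.finrank ℚ E = 2 ∧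
      Nonempty (E ≃+* IntermediateField.fixedField N) := by
  let φ : K →ₐ[ℚ] L := (algebraMap K L).toRatAlgHom
  have hφ : ∀ x, φ x = algebraMap K L x := fun _ => rfl
  have h1 : IntermediateField.fixedField N ≤ φ.fieldRange := by
    rw [← IsGalois.fixedField_fixingSubgroup φ.fieldRange]
    apply IntermediateField.fixedField_antitone
    intro σ hσ
    rw [IntermediateField.mem_fixingSubgroup_iff] at hσ
    exact hK σ fun x => hσ _ ⟨x, rfl⟩
  let E : IntermediateField ℚ K := (IntermediateField.fixedField N).comap φ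
  let f : E →ₐ[ℚ] IntermediateField.fixedField N :=
    { toFun := fun x => ⟨φ x, x.2⟩
      map_one' := Subtype.ext (map_one _)
      map_mul' := fun x y => Subtype.ext (map_mul _ _ _)
      map_zero' := Subtype.ext (map_zero _)
      map_add' := fun x y => Subtype.ext (map_add _ _ _)
      commutes' := fun r => Subtype.ext (φ.commutes r) }
  have hf : Function.Bijective f := by
    refine ⟨f.toRingHom.injective, ?_⟩
    rintro ⟨y, hy⟩
    obtain ⟨x, rfl⟩ := h1 hy
    exact ⟨⟨x, hy⟩, rfl⟩
  let e : E ≃ₐ[ℚ] IntermediateField.fixedField N := AlgEquiv.ofBijective f hf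
  refine ⟨E, ?_, ⟨e.toRingEquiv⟩⟩
  rw [e.toLinearEquiv.finrank_eq]
  have h2 := Module.finrank_mul_finrank ℚ (IntermediateField.fixedField N) L
  rw [IntermediateField.finrank_fixedField_eq_card, ← IsGalois.card_aut_eq_finrank ℚ L] at h2
  have h3 := N.index_mul_card
  rw [hN] at h3
  have h4 : 0 < Nat.card N := Nat.card_pos
  exact Nat.eq_of_mul_eq_mul_right h4 (h2.trans h3.symm)

end Vale.Agent.P007.H11
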