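import Vale.Agent.P007.Bdl.B19

/-! Definitions and basic facts for the theorem about exceptional zeros and quadratic subfields. -/

set_option autoImplicit false

open NumberField

namespace Vale.Agent.P007.H11

open Vale.Agent.P007 Vale.Agent.P007.Z

/-- zero quantisation near `1` for all even characters -/
def ZFormE (N : ℕ) (C₀ C ℓ₀ : ℝ) : Prop :=
  ∀ (E : Type) [Field E] [NumberField E] [IsTotallyReal E], Module.finrank ℚ E ≤ N →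
    ∀ (q : ℕ) [NeZero q] (χ : DirichletCharacter ℂ q), χ (-1) = 1 →
    ∀ ℓ : ℝ, ℓ₀ ≤ ℓ → Real.log |(discr E : ℝ)| ≤ C₀ * ℓ → Real.log q ≤ C₀ * ℓ →
    ∃ (δ : ℕ) (d : List ℝ), δ ≤ 1 ∧ (d.length : ℝ) ≤ C ∧ (∀ x ∈ d, 0 ≤ x ∧ x ≤ 1) ∧
      (χ = 1 → δ = 1 ∧ ∀ x ∈ d, 0 < x) ∧
      ∀ η : ℝ, 0 < η → η ≤ 1 → |Del E χ ℓ η - model δ d η| ≤ C

/-- `M₁, M₂, M₃` are the three groups between `M` and `M'`, where `M' / M` is the four group (in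
terms of cardinalities and of the inclusion-exclusion formula). -/
structure V4 {G : Type} [Group G] (M M₁ M₂ M₃ M' : Subgroup G) : Prop where
  le₁ : M ≤ M₁
  le₂ : M ≤ M₂
  le₃ : M ≤ M₃
  le₁' : M₁ ≤ M'
  le₂' : M₂ ≤ M'
  le₃' : M₃ ≤ M'
  card₁ : Nat.card M₁ = 2 * Nat.card M
  card₂ : Nat.card M₂ = 2 * Nat.card M
  card₃ : Nat.card M₃ = 2 * Nat.card M
  card' : Nat.card M' = 4 * Nat.card M
  cover : ∀ g ∈ M', g ∈ M₁ ∨ g ∈ M₂ ∨ g ∈ M₃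
  inf₁₂ : ∀ g ∈ M₁, g ∈ M₂ → g ∈ M
  inf₁₃ : ∀ g ∈ M₁, g ∈ M₃ → g ∈ M
  inf₂₃ : ∀ g ∈ M₂, g ∈ M₃ → g ∈ M

end Vale.Agent.P007.H11
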