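import Vale.Agent.P007.H11.DelFix

/-!
`Δ_{F,1}(η) ≥ -log η - C` with one constant `C` for all number fields `F` of bounded discriminant.
-/

set_option autoImplicit false

open NumberField

namespace Vale.Agent.P007.H11

open Vale.Agent.P007 Vale.Agent.P007.Z

theorem Del_congr {E E' : Type} [Field E] [NumberField E] [Field E'] [NumberField E']
    (h : ∀ m, aE E m = aE E' m) {q : ℕ} (χ : DirichletCharacter ℂ q) (ℓ η : ℝ) :
    Del E χ ℓ η = Del E' χ ℓ η := by
  unfold Del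
  refine tsum_congr fun p => ?_
  rw [h]

/-- One constant for all number fields of bounded discriminant. -/
theorem Del_disc (B : ℝ) : ∃ C : ℝ, ∀ (F : Type) [Field F] [NumberField F],
    |(discr F : ℝ)| ≤ B → ∀ ℓ : ℝ, 1 ≤ ℓ → ∀ η : ℝ, 0 < η → η ≤ 1 →
      -Real.log η - C ≤ Del F (1 : DirichletCharacter ℂ 1) ℓ η := by
  have h : ∀ K : { F : IntermediateField ℚ ℂ // FiniteDimensional ℚ F }, ∃ C : ℝ,
      haveI : NumberField K.1 := @NumberField.mk _ _ inferInstance K.prop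
      ∀ ℓ : ℝ, 1 ≤ ℓ → ∀ η : ℝ, 0 < η → η ≤ 1 →
      -Real.log η - C ≤ Del K.1 (1 : DirichletCharacter ℂ 1) ℓ η := by
    intro K
    haveI : NumberField K.1 := @NumberField.mk _ _ inferInstance K.prop
    exact Del_fixed K.1
  choose c hc using h
  have hfin := NumberField.finite_of_discr_bdd ℂ ⌊B⌋₊
  obtain ⟨M, hM⟩ := (hfin.image c).bddAbove
  refine ⟨M, fun F _ _ hB ℓ hℓ η hη0 hη1 => ?_⟩
  have hB0 : 0 ≤ B := (abs_nonneg _).trans hB
  obtain ⟨φ⟩ : Nonempty (F →ₐ[ℚ] ℂ) := by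
    obtain ⟨φ⟩ := (inferInstance : Nonempty (F →+* ℂ))
    exact ⟨φ.toRatAlgHom⟩
  haveI hfd : FiniteDimensional ℚ φ.fieldRange :=
    LinearEquiv.finiteDimensional (AlgEquiv.ofInjectiveField φ).toLinearEquiv
  haveI : NumberField φ.fieldRange := @NumberField.mk _ _ inferInstance hfd
  let e : F ≃ₐ[ℚ] φ.fieldRange := AlgEquiv.ofInjectiveField φ
  have hd : discr F = discr φ.fieldRange := discr_eq_discr_of_algEquiv F e
  have hmem : (⟨φ.fieldRange, hfd⟩ : { F : IntermediateField ℚ ℂ // FiniteDimensional ℚ F }) ∈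
      {K : { F : IntermediateField ℚ ℂ // FiniteDimensional ℚ F} |
      haveI :  NumberField K := @NumberField.mk _ _ inferInstance K.prop
      |discr K| ≤ (⌊B⌋₊ : ℕ) } := by
    change |discr φ.fieldRange| ≤ ((⌊B⌋₊ : ℕ) : ℤ)
    rw [← hd]
    have h1 : (((discr F).natAbs : ℕ) : ℝ) ≤ B := by
      rw [Nat.cast_natAbs, Int.cast_abs]
      exact hB
    have h4 := Nat.le_floor h1
    rw [Int.abs_eq_natAbs]
    exact_mod_cast h4
  have h5 := hM (Set.mem_image_of_mem c hmem)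
  have h6 := hc ⟨φ.fieldRange, hfd⟩ ℓ hℓ η hη0 hη1
  rw [Del_congr (E := F) (E' := φ.fieldRange) (fun m => aE_congr F φ.fieldRange e.toRingEquiv m)]
  linarith

/-- **[A7b]** One constant for all quadratic fields of bounded discriminant. -/
theorem Del_quad (B : ℝ) : ∃ C : ℝ, ∀ (F : Type) [Field F] [NumberField F],
    Module.finrank ℚ F = 2 → |(discr F : ℝ)| ≤ B → ∀ ℓ : ℝ, 1 ≤ ℓ → ∀ η : ℝ, 0 < η → η ≤ 1 →
      -Real.log η - C ≤ Del F (1 : DirichletCharacter ℂ 1) ℓ η := by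
  obtain ⟨C, hC⟩ := Del_disc B
  exact ⟨C, fun F _ _ _ hB => hC F hB⟩

end Vale.Agent.P007.H11
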