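import Vale.Agent.P007.H11.RelExc
import Vale.Agent.P007.H11.QConj
import Vale.Agent.P007.H11.QQuad

/-!
No exceptional zero for the totally real fields of degree `n` whose quadratic subfields have
bounded discriminants.
-/

set_option autoImplicit false

open NumberField

namespace Vale.Agent.P007.H11

open Vale.Agent.P007 Vale.Agent.P007.Z Vale.Agent.P007.Z.FinalAux

/-- the statement of the quartic step -/
def Step4Stmt : Prop :=
  ∀ (N : ℕ) (A : ℝ), ∃ A' ℓ₁ : ℝ, ∀ (L : Type) [Field L] [NumberField L] [IsTotallyReal L]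
    [IsGalois ℚ L], Module.finrank ℚ L ≤ N → ∀ ℓ : ℝ, ℓ₁ ≤ ℓ →
    Real.log |(discr L : ℝ)| ≤ A * ℓ → ∀ η : ℝ, 0 < η → η ≤ 1 →
    ∀ (M M' M'' : Subgroup (L ≃ₐ[ℚ] L)) (ψ : M'' →* ℂˣ), (∀ h : M'', ψ h ^ 4 = 1) →
    (∃ h : M'', ψ h ^ 2 ≠ 1) → (∀ h : M'', ψ h = 1 ↔ (h : L ≃ₐ[ℚ] L) ∈ M) →
    (∀ h : M'', ψ h ^ 2 = 1 ↔ (h : L ≃ₐ[ℚ] L) ∈ M') → M ≤ M' → M' ≤ M'' →
    Sc (IntermediateField.fixedField M) (fun _ => True) ℓ η ≤ A →
    Sc (IntermediateField.fixedField M') (fun _ => True) ℓ η ≤ A'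

/-- the statement of the first step for four groups -/
def V4aStmt : Prop :=
  ∀ (N : ℕ) (A : ℝ), ∃ A' ℓ₁ : ℝ, ∀ (L : Type) [Field L] [NumberField L] [IsTotallyReal L]
    [IsGalois ℚ L], Module.finrank ℚ L ≤ N → ∀ ℓ : ℝ, ℓ₁ ≤ ℓ →
    Real.log |(discr L : ℝ)| ≤ A * ℓ → ∀ η : ℝ, 0 < η → η ≤ 1 →
    ∀ M M₁ M₂ M₃ M' : Subgroup (L ≃ₐ[ℚ] L), V4 M M₁ M₂ M₃ M' →
    Sc (IntermediateField.fixedField M) (fun _ => True) ℓ η ≤ A →
    Sc (IntermediateField.fixedField M₁) (fun _ => True) ℓ η ≤ A' ∨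
    Sc (IntermediateField.fixedField M₂) (fun _ => True) ℓ η ≤ A' ∨
    Sc (IntermediateField.fixedField M₃) (fun _ => True) ℓ η ≤ A'

/-- the statement of the second step for four groups -/
def V4bStmt : Prop :=
  ∀ (N : ℕ) (A : ℝ), ∃ A' ℓ₁ : ℝ, ∀ (L : Type) [Field L] [NumberField L] [IsTotallyReal L]
    [IsGalois ℚ L], Module.finrank ℚ L ≤ N → ∀ ℓ : ℝ, ℓ₁ ≤ ℓ →
    Real.log |(discr L : ℝ)| ≤ A * ℓ → ∀ η : ℝ, 0 < η → η ≤ 1 →
    ∀ M M₁ M₂ M₃ M' : Subgroup (L ≃ₐ[ℚ] L), V4 M M₁ M₂ M₃ M' →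
    Sc (IntermediateField.fixedField M₁) (fun _ => True) ℓ η ≤ A →
    Sc (IntermediateField.fixedField M₂) (fun _ => True) ℓ η ≤ A →
    Sc (IntermediateField.fixedField M') (fun _ => True) ℓ η ≤ A'

/-- the statement of the group lemma -/
def GroupStmt : Prop :=
  ∀ {G : Type} [Group G] [Finite G] (𝓑 : Set (Subgroup G)), ⊥ ∈ 𝓑 →
    (∀ H' H : Subgroup G, H' ≤ H → H ∈ 𝓑 → H' ∈ 𝓑) →
    (∀ H ∈ 𝓑, ∀ g : G, H.map (MulAut.conj g).toMonoidHom ∈ 𝓑) →
    (∀ (H' H : Subgroup G) (d : ℕ), H' ≤ H → IsCyclic H → d.Prime → Odd d →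
      H'.relIndex H = d → H' ∈ 𝓑 → H ∈ 𝓑) →
    (∀ (M M' M'' : Subgroup G) (ψ : M'' →* ℂˣ), (∀ h : M'', ψ h ^ 4 = 1) →
      (∃ h : M'', ψ h ^ 2 ≠ 1) → (∀ h : M'', ψ h = 1 ↔ (h : G) ∈ M) →
      (∀ h : M'', ψ h ^ 2 = 1 ↔ (h : G) ∈ M') → M ≤ M' → M' ≤ M'' → M ∈ 𝓑 → M' ∈ 𝓑) →
    (∀ M M₁ M₂ M₃ M' : Subgroup G, V4 M M₁ M₂ M₃ M' → M ∈ 𝓑 → M₁ ∈ 𝓑 ∨ M₂ ∈ 𝓑 ∨ M₃ ∈ 𝓑) →
    (∀ M M₁ M₂ M₃ M' : Subgroup G, V4 M M₁ M₂ M₃ M' → M₁ ∈ 𝓑 → M₂ ∈ 𝓑 → M' ∈ 𝓑) →
    (∀ H : Subgroup G, (∀ σ ∈ H, Subgroup.zpowers σ ∈ 𝓑) → H ∈ 𝓑) →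
    (⊤ : Subgroup G) ∈ 𝓑 ∨ ∃ N : Subgroup G, N.index = 2 ∧ N ∈ 𝓑 ∧ ∀ H ∈ 𝓑, H ≤ N

/-! ### Elementary facts on `Sc` -/

section Gal

/-- the group `H` is controlled by its cyclic subgroups -/
theorem Sc_le_of_zpowers (L : Type) [Field L] [NumberField L] (N : ℕ)
    (hN : Module.finrank ℚ L ≤ N) {ℓ η : ℝ} (hℓ : 1 ≤ ℓ)
    (hη : 0 < η) (hη1 : η ≤ 1) (H : Subgroup (L ≃ₐ[ℚ] L)) (C : ℝ)
    (hC : 0 ≤ C)
    (hsub : ∀ σ ∈ H,
      Sc (IntermediateField.fixedField (Subgroup.zpowers σ)) (fun _ => True) ℓ η ≤ C) :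
    Sc (IntermediateField.fixedField H) (fun _ => True) ℓ η ≤ N * C := by
  classical
  let f : (L ≃ₐ[ℚ] L) → Nat.Primes → ℝ := fun σ p =>
    if σ ∈ H then tm (IntermediateField.fixedField (Subgroup.zpowers σ)) ℓ η p else 0
  have hfs : ∀ σ, Summable (f σ) := by
    intro σ
    by_cases h : σ ∈ H
    · simp only [f, h, if_true]
      exact tm_summable _ hℓ hη hη1
    · simp only [f, h, if_false]
      exact summable_zero
  have hfle : ∀ σ, ∑' p, f σ p ≤ C := by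
    intro σ
    by_cases h : σ ∈ H
    · have h1 := hsub σ h
      rw [Sc_eq] at h1
      simp only [f, h, if_true]
      exact h1
    · simp only [f, h, if_false, tsum_zero]
      exact hC
  have h1 : Sc (IntermediateField.fixedField H) (fun _ => True) ℓ η ≤
      ∑' p, ∑ σ : (L ≃ₐ[ℚ] L), f σ p := by
    rw [Sc_eq]
    refine Summable.tsum_le_tsum ?_ (tm_summable _ hℓ hη hη1)
      (summable_sum fun σ _ => hfs σ)
    intro p
    have hfnn : ∀ σ, 0 ≤ f σ p := by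
      intro σ
      simp only [f]
      split_ifs
      · exact tm_nonneg _ hℓ hη hη1 p
      · exact le_refl _
    by_cases h : 0 < aE (IntermediateField.fixedField H) p
    · obtain ⟨σ, hσ, hpos⟩ := exists_cyclic_frob L H p p.2 h
      have h4 : tm (IntermediateField.fixedField H) ℓ η p = f σ p := by
        simp only [f, hσ, if_true, tm, h, hpos]
      rw [h4]
      exact Finset.single_le_sum (fun σ _ => hfnn σ) (Finset.mem_univ σ)
    · have h4 : tm (IntermediateField.fixedField H) ℓ η p = 0 := by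
        simp only [tm, h, if_false]
      rw [h4]
      exact Finset.sum_nonneg (fun σ _ => hfnn σ)
  have h2 : ∑' p, ∑ σ : (L ≃ₐ[ℚ] L), f σ p = ∑ σ : (L ≃ₐ[ℚ] L), ∑' p, f σ p :=
    Summable.tsum_finsetSum fun σ _ => hfs σ
  have h3 : ∑ σ : (L ≃ₐ[ℚ] L), ∑' p, f σ p ≤ ∑ _σ : (L ≃ₐ[ℚ] L), C :=
    Finset.sum_le_sum fun σ _ => hfle σ
  have h4 : ∑ _σ : (L ≃ₐ[ℚ] L), C = (Nat.card (L ≃ₐ[ℚ] L) : ℝ) * C := by
    rw [Finset.sum_const, nsmul_eq_mul, Nat.card_eq_fintype_card, Finset.card_univ]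
  have h5 : (Nat.card (L ≃ₐ[ℚ] L) : ℝ) ≤ N := by exact_mod_cast card_gal_le L N hN
  have h6 : (Nat.card (L ≃ₐ[ℚ] L) : ℝ) * C ≤ N * C := mul_le_mul_of_nonneg_right h5 hC
  linarith

/-- smaller groups have smaller `Sc` -/
theorem Sc_anti (L : Type) [Field L] [NumberField L] {ℓ η : ℝ} (hℓ : 1 ≤ ℓ) (hη : 0 < η)
    (hη1 : η ≤ 1) (H' H : Subgroup (L ≃ₐ[ℚ] L)) (h : H' ≤ H) :
    Sc (IntermediateField.fixedField H') (fun _ => True) ℓ η ≤
      Sc (IntermediateField.fixedField H) (fun _ => True) ℓ η := by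
  refine Sc_mono _ _ hℓ hη hη1 fun p hp hpos => ?_
  have hle : IntermediateField.fixedField H ≤ IntermediateField.fixedField H' :=
    IntermediateField.fixedField_antitone h
  let _ : Algebra (IntermediateField.fixedField H) (IntermediateField.fixedField H') :=
    RingHom.toAlgebra (IntermediateField.inclusion hle : _ →+* _)
  exact aE_pos_of_algebra (IntermediateField.fixedField H) _ p hp hpos

/-- the number of subgroups -/
theorem card_subgroup_le (L : Type) [Field L] [NumberField L] (N : ℕ)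
    (hN : Module.finrank ℚ L ≤ N) :
    Nat.card (Subgroup (L ≃ₐ[ℚ] L)) ≤ 2 ^ N := by
  have h1 : Nat.card (Subgroup (L ≃ₐ[ℚ] L)) ≤ Nat.card (Set (L ≃ₐ[ℚ] L)) :=
    Nat.card_le_card_of_injective (fun H => (H : Set (L ≃ₐ[ℚ] L))) SetLike.coe_injective
  have h2 : Nat.card (Set (L ≃ₐ[ℚ] L)) = 2 ^ Nat.card (L ≃ₐ[ℚ] L) := by
    rw [Nat.card_eq_fintype_card, Fintype.card_set, Nat.card_eq_fintype_card]
  rw [h2] at h1
  exact h1.trans (Nat.pow_le_pow_right (by norm_num) (card_gal_le L N hN))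

end Gal

/-- pigeonhole: some step of a monotone ladder is not hit -/
theorem exists_gap {X : Type} [Finite X] (s : X → ℝ) (T : ℕ → ℝ) (hT : Monotone T) (R : ℕ)
    (hR : Nat.card X ≤ R) : ∃ k ≤ R, ∀ x, s x ≤ T (k + 1) → s x ≤ T k := by
  by_contra hcon
  push Not at hcon
  have h1 : ∀ k : Fin (R + 1), ∃ x, s x ≤ T (k + 1) ∧ T k < s x := fun k =>
    hcon k (Nat.lt_succ_iff.mp k.2)
  choose x hx using h1
  have hinj : Function.Injective x := by
    intro i j hij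
    rcases lt_trichotomy i j with h | h | h
    · exfalso
      have h2 : T (i + 1) ≤ T j := hT (Nat.succ_le_of_lt h)
      have h3 := (hx i).1
      have h4 := (hx j).2
      rw [hij] at h3
      linarith
    · exact h
    · exfalso
      have h2 : T (j + 1) ≤ T i := hT (Nat.succ_le_of_lt h)
      have h3 := (hx j).1
      have h4 := (hx i).2
      rw [hij] at h4
      linarith
  have h5 := Nat.card_le_card_of_injective x hinj
  rw [Nat.card_fin] at h5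
  omega

/-- one rung of the ladder, for the field `L` -/
structure RungAt (L : Type) [Field L] [NumberField L] (A A' ℓ η : ℝ) : Prop where
  cyc : ∀ (H' H : Subgroup (L ≃ₐ[ℚ] L)) (d : ℕ), H' ≤ H → IsCyclic H → d.Prime → Odd d →
    H'.relIndex H = d → Sc (IntermediateField.fixedField H') (fun _ => True) ℓ η ≤ A →
    Sc (IntermediateField.fixedField H) (fun _ => True) ℓ η ≤ A'
  four : ∀ (M M' M'' : Subgroup (L ≃ₐ[ℚ] L)) (ψ : M'' →* ℂˣ), (∀ h : M'', ψ h ^ 4 = 1) →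
    (∃ h : M'', ψ h ^ 2 ≠ 1) → (∀ h : M'', ψ h = 1 ↔ (h : L ≃ₐ[ℚ] L) ∈ M) →
    (∀ h : M'', ψ h ^ 2 = 1 ↔ (h : L ≃ₐ[ℚ] L) ∈ M') → M ≤ M' → M' ≤ M'' →
    Sc (IntermediateField.fixedField M) (fun _ => True) ℓ η ≤ A →
    Sc (IntermediateField.fixedField M') (fun _ => True) ℓ η ≤ A'
  va : ∀ M M₁ M₂ M₃ M' : Subgroup (L ≃ₐ[ℚ] L), V4 M M₁ M₂ M₃ M' →
    Sc (IntermediateField.fixedField M) (fun _ => True) ℓ η ≤ A →
    Sc (IntermediateField.fixedField M₁) (fun _ => True) ℓ η ≤ A' ∨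
    Sc (IntermediateField.fixedField M₂) (fun _ => True) ℓ η ≤ A' ∨
    Sc (IntermediateField.fixedField M₃) (fun _ => True) ℓ η ≤ A'
  vb : ∀ M M₁ M₂ M₃ M' : Subgroup (L ≃ₐ[ℚ] L), V4 M M₁ M₂ M₃ M' →
    Sc (IntermediateField.fixedField M₁) (fun _ => True) ℓ η ≤ A →
    Sc (IntermediateField.fixedField M₂) (fun _ => True) ℓ η ≤ A →
    Sc (IntermediateField.fixedField M') (fun _ => True) ℓ η ≤ A'

theorem exists_rung (hstep : StepStmt) (h4 : Step4Stmt) (ha : V4aStmt) (hb : V4bStmt) (N : ℕ)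
    (A : ℝ) : ∃ A' ℓ₁ : ℝ, A ≤ A' ∧ (N : ℝ) * A ≤ A' ∧
    ∀ (L : Type) [Field L] [NumberField L] [IsTotallyReal L] [IsGalois ℚ L],
      Module.finrank ℚ L ≤ N → ∀ ℓ : ℝ, ℓ₁ ≤ ℓ → Real.log |(discr L : ℝ)| ≤ A * ℓ →
      ∀ η : ℝ, 0 < η → η ≤ 1 → RungAt L A A' ℓ η := by
  obtain ⟨A₁, ℓ₁, h1⟩ := hstep N A
  obtain ⟨A₂, ℓ₂, h2⟩ := h4 N A
  obtain ⟨A₃, ℓ₃, h3⟩ := ha N A
  obtain ⟨A₄, ℓ₄, h5⟩ := hb N A
  refine ⟨max (max A (N * A)) (max (max A₁ A₂) (max A₃ A₄)), max (max ℓ₁ ℓ₂) (max ℓ₃ ℓ₄),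
    (le_max_left _ _).trans (le_max_left _ _), (le_max_right _ _).trans (le_max_left _ _), ?_⟩
  intro L _ _ _ _ hN ℓ hℓ hdisc η hη hη1
  have e1 : ℓ₁ ≤ ℓ := ((le_max_left _ _).trans (le_max_left _ _)).trans hℓ
  have e2 : ℓ₂ ≤ ℓ := ((le_max_right _ _).trans (le_max_left _ _)).trans hℓ
  have e3 : ℓ₃ ≤ ℓ := ((le_max_left _ _).trans (le_max_right _ _)).trans hℓ
  have e4 : ℓ₄ ≤ ℓ := ((le_max_right _ _).trans (le_max_right _ _)).trans hℓ
  have f1 : A₁ ≤ max (max A (N * A)) (max (max A₁ A₂) (max A₃ A₄)) :=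
    ((le_max_left _ _).trans (le_max_left _ _)).trans (le_max_right _ _)
  have f2 : A₂ ≤ max (max A (N * A)) (max (max A₁ A₂) (max A₃ A₄)) :=
    ((le_max_right _ _).trans (le_max_left _ _)).trans (le_max_right _ _)
  have f3 : A₃ ≤ max (max A (N * A)) (max (max A₁ A₂) (max A₃ A₄)) :=
    ((le_max_left _ _).trans (le_max_right _ _)).trans (le_max_right _ _)
  have f4 : A₄ ≤ max (max A (N * A)) (max (max A₁ A₂) (max A₃ A₄)) :=
    ((le_max_right _ _).trans (le_max_right _ _)).trans (le_max_right _ _)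
  refine ⟨?_, ?_, ?_, ?_⟩
  · intro H' H d hle hcy hd hodd hidx hS
    exact (h1 L hN H' H d hle hcy hd hodd hidx ℓ e1 hdisc η hη hη1 hS).trans f1
  · intro M M' M'' ψ a1 a2 a3 a4 a5 a6 hS
    exact (h2 L hN ℓ e2 hdisc η hη hη1 M M' M'' ψ a1 a2 a3 a4 a5 a6 hS).trans f2
  · intro M M₁ M₂ M₃ M' hV hS
    rcases h3 L hN ℓ e3 hdisc η hη hη1 M M₁ M₂ M₃ M' hV hS with h | h | h
    · exact Or.inl (h.trans f3)
    · exact Or.inr (Or.inl (h.trans f3))
    · exact Or.inr (Or.inr (h.trans f3))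
  · intro M M₁ M₂ M₃ M' hV hS1 hS2
    exact (h5 L hN ℓ e4 hdisc η hη hη1 M M₁ M₂ M₃ M' hV hS1 hS2).trans f4

/-- The dichotomy: from a gap in the ladder, either all primes or a quadratic field. -/
theorem dichotomy (hgrp : GroupStmt) (L : Type) [Field L] [NumberField L] [IsGalois ℚ L] (N : ℕ)
    (hN : Module.finrank ℚ L ≤ N) {ℓ η : ℝ} (hℓ : 1 ≤ ℓ) (hη : 0 < η) (hη1 : η ≤ 1)
    (T T' : ℝ) (hT : 0 ≤ T) (hNT : (N : ℝ) * T ≤ T') (hr : RungAt L T T' ℓ η)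
    (hgap : ∀ H : Subgroup (L ≃ₐ[ℚ] L),
      Sc (IntermediateField.fixedField H) (fun _ => True) ℓ η ≤ T' →
      Sc (IntermediateField.fixedField H) (fun _ => True) ℓ η ≤ T)
    (G : Subgroup (L ≃ₐ[ℚ] L))
    (hG : Sc (IntermediateField.fixedField G) (fun _ => True) ℓ η ≤ T) :
    Sc (IntermediateField.fixedField (⊤ : Subgroup (L ≃ₐ[ℚ] L))) (fun _ => True) ℓ η ≤ T ∨
    ∃ S : Subgroup (L ≃ₐ[ℚ] L), S.index = 2 ∧ G ≤ S ∧
      Sc (IntermediateField.fixedField S) (fun _ => True) ℓ η ≤ T := by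
  let 𝓑 : Set (Subgroup (L ≃ₐ[ℚ] L)) :=
    {H | Sc (IntermediateField.fixedField H) (fun _ => True) ℓ η ≤ T}
  have h := hgrp 𝓑
    ((Sc_anti L hℓ hη hη1 ⊥ G bot_le).trans hG)
    (fun H' H hle hH => (Sc_anti L hℓ hη hη1 H' H hle).trans hH)
    (fun H hH g => by
      change Sc (IntermediateField.fixedField (H.map (MulAut.conj g).toMonoidHom))
        (fun _ => True) ℓ η ≤ T
      rw [Sc_conj]
      exact hH)
    (fun H' H d hle hcy hd hodd hidx hH => hgap H (hr.cyc H' H d hle hcy hd hodd hidx hH))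
    (fun M M' M'' ψ a1 a2 a3 a4 a5 a6 hM => hgap M' (hr.four M M' M'' ψ a1 a2 a3 a4 a5 a6 hM))
    (fun M M₁ M₂ M₃ M' hV hM => by
      rcases hr.va M M₁ M₂ M₃ M' hV hM with h | h | h
      · exact Or.inl (hgap _ h)
      · exact Or.inr (Or.inl (hgap _ h))
      · exact Or.inr (Or.inr (hgap _ h)))
    (fun M M₁ M₂ M₃ M' hV h1 h2 => hgap _ (hr.vb M M₁ M₂ M₃ M' hV h1 h2))
    (fun H hH => hgap _ ((Sc_le_of_zpowers L N hN hℓ hη hη1 H T hT hH).trans hNT))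
  rcases h with h | ⟨S, hS2, hSB, hSG⟩
  · exact Or.inl h
  · exact Or.inr ⟨S, hS2, hSG G hG, hSB⟩

/-- No exceptional zero for the fields whose quadratic subfields have bounded discriminants. -/
theorem not_exceptional_quad_of (hstep : StepStmt) (h4 : Step4Stmt) (ha : V4aStmt)
    (hb : V4bStmt) (hgrp : GroupStmt)
    (hZF : ∀ (N : ℕ) (C₀ : ℝ), ∃ C ℓ₀ : ℝ, 1 ≤ ℓ₀ ∧ ZForm N C₀ C ℓ₀) (n : ℕ) (B : ℝ) :
    ∃ C ℓ₀ : ℝ, ∀ (K : Type) [Field K] [NumberField K] [IsTotallyReal K],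
      Module.finrank ℚ K = n →
      (∀ E : IntermediateField ℚ K, Module.finrank ℚ E = 2 → |(discr E : ℝ)| ≤ B) →
      ∀ ℓ : ℝ, ℓ₀ ≤ ℓ → Real.log |(discr K : ℝ)| ≤ ℓ → ∀ η : ℝ, 0 < η → η ≤ 1 →
      -Real.log η - C ≤ Del K (1 : DirichletCharacter ℂ 1) ℓ η := by
  obtain ⟨N, Ccl, hcl⟩ := exists_closure n
  obtain ⟨CZ, ℓZ, hℓZ, hZ⟩ := hZF n 1
  obtain ⟨CQ, hQ⟩ := Sc_rat
  obtain ⟨CB, hCB⟩ := Del_quad B
  choose fA fℓ hle hmul hR using exists_rung hstep h4 ha hb N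
  set T : ℕ → ℝ := fun k => fA^[k] (max |CZ| (2 * |Ccl|)) with hTdef
  have hT0 : T 0 = max |CZ| (2 * |Ccl|) := rfl
  have hTs : ∀ k, T (k + 1) = fA (T k) := fun k => Function.iterate_succ_apply' fA k _
  have hTm : Monotone T := monotone_nat_of_le_succ fun k => by
    rw [hTs]
    exact hle _
  have hT00 : 0 ≤ T 0 := by
    rw [hT0]
    exact (abs_nonneg CZ).trans (le_max_left _ _)
  have hTnn : ∀ k, 0 ≤ T k := fun k => hT00.trans (hTm (Nat.zero_le k))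
  set R : ℕ := 2 ^ N with hRdef
  set ℓm : ℝ := ∑ k ∈ Finset.range (R + 1), |fℓ (T k)| with hℓm
  have hℓmle : ∀ k, k ≤ R → fℓ (T k) ≤ ℓm := fun k hk =>
    (le_abs_self _).trans (Finset.single_le_sum (f := fun k => |fℓ (T k)|)
      (fun i _ => abs_nonneg _) (Finset.mem_range.mpr (by omega)))
  set M : ℝ := 2 * T R + |CQ| + |CB| with hM
  have hM0 : 0 ≤ M := by
    have := hTnn R
    positivity
  -- the final constant
  refine ⟨|CZ| + |CZ| * M, max ℓZ ℓm, ?_⟩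
  intro K _ _ _ hK hKB ℓ hℓ hdisc η hη hη1
  have hℓ1 : 1 ≤ ℓ := le_trans hℓZ (le_trans (le_max_left _ _) hℓ)
  obtain ⟨δ, d, hδ, hlen, hd, hχ, hmod⟩ := hZ K (le_of_eq hK) 1 1 (by simp) ℓ
    (le_trans (le_max_left _ _) hℓ) (by linarith) (by simp; linarith only [hℓ1])
  obtain ⟨rfl, hdpos⟩ := hχ rfl
  have hlen0 : (0 : ℝ) ≤ (d.length : ℝ) := Nat.cast_nonneg _
  have hCZ0 : 0 ≤ CZ := le_trans hlen0 hlen
  have hDel := hmod η hη hη1
  rw [abs_le] at hDel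
  by_cases hne : d = []
  · subst hne
    have h1 : model 1 [] η = -Real.log η := by simp only [model, Nat.cast_one, one_mul,
                                                 List.map_nil, List.sum_nil, add_zero]
    rw [h1] at hDel
    have h2 : 0 ≤ |CZ| * M := by positivity
    have h3 := le_abs_self CZ
    linarith [hDel.1]
  -- the smallest element
  obtain ⟨m, hm, hmin⟩ := Finset.exists_min_image d.toFinset id
    (by rwa [List.toFinset_nonempty_iff])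
  rw [List.mem_toFinset] at hm
  have hmin' : ∀ x ∈ d, m ≤ x := fun x hx => hmin x (List.mem_toFinset.mpr hx)
  have hm0 : 0 < m := hdpos m hm
  have hm1 : m ≤ 1 := (hd m hm).2
  have hmodel := model_at_min d (fun x hx => ⟨hdpos x hx, (hd x hx).2⟩) m hm hmin'
  have hDelm := hmod m hm0 hm1
  rw [abs_le] at hDelm
  have hScK : Sc K (fun _ => True) ℓ m ≤ CZ := by
    have := FinalAux.Sc_le_Del K hℓ1 hm0 hm1
    linarith [hDelm.2]
  -- Galois closure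
  obtain ⟨L, iF, iN, iA, iR, iG, hLN, hLd⟩ := hcl K hK
  have hdK : 0 ≤ Real.log |(discr K : ℝ)| := by
    apply Real.log_nonneg
    have h1 : discr K ≠ 0 := discr_ne_zero K
    have h2 : (1 : ℤ) ≤ |discr K| := Int.one_le_abs h1
    have h3 : ((1 : ℤ) : ℝ) ≤ ((|discr K| : ℤ) : ℝ) := by exact_mod_cast h2
    rw [Int.cast_abs] at h3
    simpa only [ge_iff_le, Int.cast_one] using h3
  have hLd' : Real.log |(discr L : ℝ)| ≤ 2 * |Ccl| * ℓ := by
    have h1 : Ccl * (1 + Real.log |(discr K : ℝ)|) ≤ |Ccl| * (1 + Real.log |(discr K : ℝ)|) :=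
      mul_le_mul_of_nonneg_right (le_abs_self _) (by linarith)
    have h2 : |Ccl| * (1 + Real.log |(discr K : ℝ)|) ≤ |Ccl| * (2 * ℓ) :=
      mul_le_mul_of_nonneg_left (by linarith) (abs_nonneg _)
    linarith
  -- the gap
  obtain ⟨k, hkR, hgap⟩ := exists_gap
    (fun H : Subgroup (L ≃ₐ[ℚ] L) => Sc (IntermediateField.fixedField H) (fun _ => True) ℓ m)
    T hTm R (card_subgroup_le L N hLN)
  have hTk : T 0 ≤ T k := hTm (Nat.zero_le k)
  have hLk : Real.log |(discr L : ℝ)| ≤ T k * ℓ := by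
    refine hLd'.trans (mul_le_mul_of_nonneg_right ?_ (by linarith))
    exact ((le_max_right |CZ| _).trans (le_of_eq hT0.symm)).trans hTk
  have hrung := hR (T k) L hLN ℓ ((hℓmle k hkR).trans ((le_max_right _ _).trans hℓ)) hLk m hm0 hm1
  rw [← hTs] at hrung
  have hNT : (N : ℝ) * T k ≤ T (k + 1) := by
    rw [hTs]
    exact hmul _
  -- the group of `K`
  let φ : K →ₐ[ℚ] L := (algebraMap K L).toRatAlgHom
  let G : Subgroup (L ≃ₐ[ℚ] L) := φ.fieldRange.fixingSubgroup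
  have hfix : IntermediateField.fixedField G = φ.fieldRange :=
    IsGalois.fixedField_fixingSubgroup _
  have hG : Sc (IntermediateField.fixedField G) (fun _ => True) ℓ m ≤ T k := by
    refine le_trans (Sc_mono _ K hℓ1 hm0 hm1 ?_)
      (hScK.trans (((le_abs_self CZ).trans (le_max_left _ _)).trans (hT0.ge.trans hTk)))
    intro p hp hpos
    let _ : Algebra K (IntermediateField.fixedField G) :=
      RingHom.toAlgebra (RingHom.codRestrict (φ : K →+* L)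
        (IntermediateField.fixedField G).toSubfield.toSubring.toSubsemiring (by
          intro x
          show φ x ∈ IntermediateField.fixedField G
          rw [hfix]
          exact ⟨x, rfl⟩))
    exact aE_pos_of_algebra K (IntermediateField.fixedField G) p hp hpos
  have hlogm : -M ≤ Real.log m := by
    have hTR : T k ≤ T R := hTm hkR
    have g1 := le_abs_self CQ
    have g2 := le_abs_self CB
    have g3 := abs_nonneg CQ
    have g4 := abs_nonneg CB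
    have g5 := hTnn k
    rcases dichotomy hgrp L N hLN hℓ1 hm0 hm1 (T k) (T (k + 1)) (hTnn k) hNT hrung hgap G hG
      with h | ⟨S, hS2, hGS, hS⟩
    · have htop : ∑' p : Nat.Primes, wt ℓ m p ≤ T k := by
        refine le_trans (le_of_eq ?_) h
        rw [FinalAux.Sc_eq]
        congr 1
        funext p
        simp only [tm, aE_top_pos L p p.2, if_true]
      have hQm := hQ ℓ hℓ1 m hm0 hm1
      linarith
    · obtain ⟨E, hE2, ⟨e⟩⟩ := quad_sub K L S hS2 (fun σ hσ => hGS (by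
        rw [IntermediateField.mem_fixingSubgroup_iff]
        rintro _ ⟨x, rfl⟩
        exact hσ x))
      have h1 := hCB E hE2 (hKB E hE2) ℓ hℓ1 m hm0 hm1
      have h2 := Del_le_Sc E hℓ1 hm0 hm1
      have h3 : Sc E (fun _ => True) ℓ m =
          Sc (IntermediateField.fixedField S) (fun _ => True) ℓ m :=
        CStep.Sc_congr (fun j => aE_congr _ _ e j) ℓ m
      rw [h3, hE2] at h2
      push_cast at h2
      linarith
  have hge := model_ge d m η hm0 hmin'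
  have h5 : -(|CZ| * M) ≤ (d.length : ℝ) * Real.log m := by
    have h6 : (d.length : ℝ) * (-M) ≤ (d.length : ℝ) * Real.log m :=
      mul_le_mul_of_nonneg_left hlogm hlen0
    have h7 : (d.length : ℝ) * M ≤ |CZ| * M :=
      mul_le_mul_of_nonneg_right (le_trans hlen (le_abs_self _)) hM0
    linarith only [h6, h7]
  have h3 := le_abs_self CZ
  linarith [hDel.1]

end Vale.Agent.P007.H11
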