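import Vale.Agent.P007.H11.QDefs

/-!
# A nontrivial quartic character has no pole
-/

set_option autoImplicit false

open NumberField

namespace Vale.Agent.P007.H11

open Vale.Agent.P007 Vale.Agent.P007.Z Vale.Agent.P007.Z.CStep

/-! ### Characters with values in the fourth roots of unity -/

section Char

open Classical in
theorem re_pow_four {w : ℂ} (hw : w ^ 4 = 1) :
    w.re = 2 * (if w = 1 then (1 : ℝ) else 0) - (if w ^ 2 = 1 then (1 : ℝ) else 0) := by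
  have h1 : (w ^ 2 - 1) * (w ^ 2 + 1) = 0 := by
    have h2 : (w ^ 2 - 1) * (w ^ 2 + 1) = w ^ 4 - 1 := by ring
    rw [h2, hw, sub_self]
  rcases mul_eq_zero.1 h1 with h2 | h2
  · have h3 : (w - 1) * (w + 1) = 0 := by
      have h4 : (w - 1) * (w + 1) = w ^ 2 - 1 := by ring
      rw [h4, h2]
    have h5 : w ^ 2 = 1 := sub_eq_zero.1 h2
    rw [if_pos h5]
    rcases mul_eq_zero.1 h3 with h4 | h4
    · rw [sub_eq_zero.1 h4, if_pos rfl, Complex.one_re]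
      norm_num
    · have h6 : w = -1 := eq_neg_of_add_eq_zero_left h4
      rw [h6, if_neg (by norm_num), Complex.neg_re, Complex.one_re]
      norm_num
  · have h3 : w ^ 2 = -1 := eq_neg_of_add_eq_zero_left h2
    have h4 : w ≠ 1 := by
      rintro rfl
      norm_num at h3
    rw [if_neg h4, h3, if_neg (by norm_num)]
    have h5 := congrArg Complex.re h3
    have h6 := congrArg Complex.im h3
    rw [sq, Complex.mul_re, Complex.neg_re, Complex.one_re] at h5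
    rw [sq, Complex.mul_im, Complex.neg_im, Complex.one_im] at h6
    have h7 : w.re * w.im = 0 := by linarith
    rcases mul_eq_zero.1 h7 with h8 | h8
    · rw [h8]
      norm_num
    · rw [h8] at h5
      nlinarith [sq_nonneg w.re]

variable {G : Type} [Group G]

/-- Half of the elements at which the square of the character is one. -/
theorem card_ker_two (θ : G →* ℂˣ) (hθ : ∀ σ, θ σ ^ 4 = 1) (K : Subgroup G)
    (hnt : ∃ σ ∈ K, θ σ ≠ 1) :
    Nat.card (K ⊓ (θ ^ 2).ker : Subgroup G) = 2 * Nat.card (K ⊓ θ.ker : Subgroup G) := by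
  obtain ⟨b, hbK, hb⟩ : ∃ b ∈ K, θ b = -1 := by
    obtain ⟨σ, hσ, h1⟩ := hnt
    have h2 : ((θ σ : ℂˣ) : ℂ) ^ 4 = 1 := by
      have := congrArg (Units.val) (hθ σ)
      simpa using this
    have h3 : (((θ σ : ℂˣ) : ℂ) ^ 2 - 1) * (((θ σ : ℂˣ) : ℂ) ^ 2 + 1) = 0 := by
      linear_combination h2
    rcases mul_eq_zero.1 h3 with h4 | h4
    · have h5 : (((θ σ : ℂˣ) : ℂ) - 1) * (((θ σ : ℂˣ) : ℂ) + 1) = 0 := by
        linear_combination h4
      rcases mul_eq_zero.1 h5 with h6 | h6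
      · exact absurd (Units.ext (sub_eq_zero.1 h6)) h1
      · refine ⟨σ, hσ, Units.ext ?_⟩
        rw [Units.val_neg, Units.val_one]
        exact eq_neg_of_add_eq_zero_left h6
    · refine ⟨σ ^ 2, pow_mem hσ 2, Units.ext ?_⟩
      rw [map_pow, Units.val_pow_eq_pow_val, Units.val_neg, Units.val_one]
      exact eq_neg_of_add_eq_zero_left h4
  have hmemA : ∀ σ, σ ∈ (K ⊓ θ.ker : Subgroup G) ↔ σ ∈ K ∧ θ σ = 1 := fun σ => Iff.rfl
  have hmemB : ∀ σ, σ ∈ (K ⊓ (θ ^ 2).ker : Subgroup G) ↔ σ ∈ K ∧ θ σ ^ 2 = 1 := fun σ => Iff.rfl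
  have hle : (K ⊓ θ.ker : Subgroup G) ≤ K ⊓ (θ ^ 2).ker := by
    intro σ hσ
    rw [hmemA] at hσ
    rw [hmemB]
    exact ⟨hσ.1, by rw [hσ.2, one_pow]⟩
  have hne : (-1 : ℂˣ) ≠ 1 := by
    intro h
    have := congrArg Units.val h
    norm_num at this
  have h1 : (K ⊓ θ.ker : Subgroup G).relIndex (K ⊓ (θ ^ 2).ker) = 2 := by
    rw [Subgroup.relIndex_eq_two_iff]
    refine ⟨b, (hmemB b).2 ⟨hbK, by rw [hb]; norm_num⟩, fun a ha => ?_⟩
    rw [hmemB] at ha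
    have h3 : (((θ a : ℂˣ) : ℂ) - 1) * (((θ a : ℂˣ) : ℂ) + 1) = 0 := by
      have h4 : ((θ a : ℂˣ) : ℂ) ^ 2 = 1 := by
        have := congrArg (Units.val) ha.2
        simpa using this
      linear_combination h4
    rcases mul_eq_zero.1 h3 with h4 | h4
    · have h5 : θ a = 1 := Units.ext (sub_eq_zero.1 h4)
      right
      refine ⟨(hmemA a).2 ⟨ha.1, h5⟩, fun h6 => ?_⟩
      rw [hmemA, map_mul, h5, hb, one_mul] at h6
      exact hne h6.2
    · have h5 : θ a = -1 := Units.ext (by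
        rw [Units.val_neg, Units.val_one]
        exact eq_neg_of_add_eq_zero_left h4)
      left
      refine ⟨(hmemA _).2 ⟨mul_mem ha.1 hbK, ?_⟩, fun h6 => ?_⟩
      · rw [map_mul, h5, hb]
        norm_num
      · rw [hmemA, h5] at h6
        exact hne h6.2
  have h2 := Subgroup.relIndex_mul_relIndex ⊥ (K ⊓ θ.ker : Subgroup G) (K ⊓ (θ ^ 2).ker) bot_le hle
  rw [Subgroup.relIndex_bot_left, Subgroup.relIndex_bot_left, h1] at h2
  rw [← h2, mul_comm]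

end Char

/-! ### The coefficients at the good primes -/

section Good

variable {W : Type} [Field W] [NumberField W]

open Classical in
/-- The coefficient identity. -/
theorem coeff_eq {p : ℕ} {z : ℂ} (θ : (W ≃ₐ[ℚ] W) →* ℂˣ) (hθ : ∀ σ, θ σ ^ 4 = 1)
    (K : Subgroup (W ≃ₐ[ℚ] W)) (hnt : ∃ σ ∈ K, θ σ ≠ 1) (ν : (W ≃ₐ[ℚ] W) → ℝ)
    (hν : ∀ σ, ν σ ≠ 0 → ((θ σ : ℂˣ) : ℂ) = z)
    (hsum : ∀ H : Subgroup (W ≃ₐ[ℚ] W), (aE (IntermediateField.fixedField H) p : ℝ) *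
      Nat.card H = ∑ σ : (W ≃ₐ[ℚ] W), (H : Set (W ≃ₐ[ℚ] W)).indicator ν σ) :
    z.re * (aE (IntermediateField.fixedField K) p : ℝ) =
      (2 * (Nat.card (K ⊓ θ.ker : Subgroup (W ≃ₐ[ℚ] W)) : ℝ) / Nat.card K) *
        ((aE (IntermediateField.fixedField (K ⊓ θ.ker)) p : ℝ) -
          aE (IntermediateField.fixedField (K ⊓ (θ ^ 2).ker)) p) := by
  have hK : (0 : ℝ) < Nat.card K := by exact_mod_cast Nat.card_pos
  have h1 : z.re * ((aE (IntermediateField.fixedField K) p : ℝ) * Nat.card K) =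
      2 * ((aE (IntermediateField.fixedField (K ⊓ θ.ker)) p : ℝ) *
        Nat.card (K ⊓ θ.ker : Subgroup (W ≃ₐ[ℚ] W))) -
      (aE (IntermediateField.fixedField (K ⊓ (θ ^ 2).ker)) p : ℝ) *
        Nat.card (K ⊓ (θ ^ 2).ker : Subgroup (W ≃ₐ[ℚ] W)) := by
    rw [hsum, hsum, hsum, Finset.mul_sum, Finset.mul_sum, ← Finset.sum_sub_distrib]
    refine Finset.sum_congr rfl fun σ _ => ?_
    by_cases h0 : ν σ = 0
    · simp [Set.indicator, h0]
    have h2 : ((θ σ : ℂˣ) : ℂ) ^ 4 = 1 := by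
      have := congrArg (Units.val) (hθ σ)
      simpa using this
    have h3 := re_pow_four h2
    rw [hν σ h0] at h3
    by_cases hσ : σ ∈ K
    · have hA : σ ∈ (K ⊓ θ.ker : Subgroup (W ≃ₐ[ℚ] W)) ↔ z = 1 := by
        rw [← hν σ h0]
        exact ⟨fun h => by
          have := congrArg Units.val (show θ σ = 1 from h.2)
          simpa using this, fun h => ⟨hσ, Units.ext (by rw [Units.val_one]; exact h)⟩⟩
      have hB : σ ∈ (K ⊓ (θ ^ 2).ker : Subgroup (W ≃ₐ[ℚ] W)) ↔ z ^ 2 = 1 := by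
        rw [← hν σ h0]
        exact ⟨fun h => by
          have := congrArg Units.val (show θ σ ^ 2 = 1 from h.2)
          simpa using this, fun h => ⟨hσ, Units.ext (by
            change ((θ σ ^ 2 : ℂˣ) : ℂ) = 1
            rw [Units.val_pow_eq_pow_val]
            exact h)⟩⟩
      rw [Set.indicator_of_mem hσ, h3]
      by_cases hz : z = 1
      · have hz2 : z ^ 2 = 1 := by rw [hz, one_pow]
        rw [Set.indicator_of_mem (hA.2 hz), Set.indicator_of_mem (hB.2 hz2), if_pos hz, if_pos hz2]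
        ring
      · by_cases hz2 : z ^ 2 = 1
        · rw [Set.indicator_of_notMem (fun h => hz (hA.1 h)), Set.indicator_of_mem (hB.2 hz2),
            if_neg hz, if_pos hz2]
          ring
        · rw [Set.indicator_of_notMem (fun h => hz (hA.1 h)),
            Set.indicator_of_notMem (fun h => hz2 (hB.1 h)), if_neg hz, if_neg hz2]
          ring
    · rw [Set.indicator_of_notMem hσ, Set.indicator_of_notMem (fun h => hσ h.1),
        Set.indicator_of_notMem (fun h => hσ h.1)]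
      ring
  rw [card_ker_two θ hθ K hnt] at h1
  push_cast at h1
  field_simp
  linear_combination h1

end Good

/-! ### The theorem -/

section Main

variable {W : Type} [Field W] [NumberField W]

theorem Del_one_eq (E : Type) [Field E] [NumberField E] (ℓ η : ℝ) :
    Del E (1 : DirichletCharacter ℂ 1) ℓ η = TSm ℓ η fun p => (aE E p : ℝ) := by
  unfold Del TSm
  refine tsum_congr fun p => ?_
  have h1 : IsUnit (((p : ℕ) : ZMod 1)) := by
    rw [Subsingleton.elim (((p : ℕ) : ZMod 1)) 1]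
    exact isUnit_one
  rw [MulChar.one_apply h1, Complex.one_re, one_mul]

/-- The logarithmic growth of the trivial sums. -/
theorem exists_growth (E : Type) [Field E] [NumberField E] {ℓ C : ℝ} {d : List ℝ}
    (hd : ∀ x ∈ d, 0 < x ∧ x ≤ 1)
    (h : ∀ η : ℝ, 0 < η → η ≤ 1 →
      |Del E (1 : DirichletCharacter ℂ 1) ℓ η - model 1 d η| ≤ C) :
    ∃ C' : ℝ, ∀ η : ℝ, 0 < η → η ≤ 1 →
      -Real.log η - C' ≤ TSm ℓ η (fun p => (aE E p : ℝ)) ∧
        TSm ℓ η (fun p => (aE E p : ℝ)) ≤ -Real.log η + C' := by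
  obtain ⟨K₀, hK₀⟩ := sum_log_max_ge fun x hx => (hd x hx).1
  refine ⟨C + |K₀|, fun η hη hη1 => ?_⟩
  have h1 := abs_le.1 (h η hη hη1)
  have h2 := hK₀ η hη
  have h3 := sum_log_max_nonpos (fun x hx => (hd x hx).2) hη hη1
  have h4 := le_abs_self K₀
  have h5 := abs_nonneg K₀
  rw [Del_one_eq, model] at h1
  push_cast at h1
  constructor
  · linarith [h1.1]
  · linarith [h1.2]

open Classical in
/-- A character which is not trivial on `K` has no pole. -/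
theorem del_nontriv_of
    (hnu : ∀ p : ℕ, p.Prime → ¬ (p : ℤ) ∣ discr W → ∃ ν : (W ≃ₐ[ℚ] W) → ℝ, (∀ σ, 0 ≤ ν σ) ∧
      (∀ σ, ν σ ≠ 0 → ∃ Q : Ideal (𝓞 W), Q.IsMaximal ∧ (p : 𝓞 W) ∈ Q ∧
        ∀ x : 𝓞 W, RingOfIntegers.mapRingEquiv σ.toRingEquiv x - x ^ p ∈ Q) ∧
      ∀ H : Subgroup (W ≃ₐ[ℚ] W), (aE (IntermediateField.fixedField H) p : ℝ) * Nat.card H =
        ∑ σ : (W ≃ₐ[ℚ] W), (H : Set (W ≃ₐ[ℚ] W)).indicator ν σ)
    {q : ℕ} (hq : q.Prime) {χ : DirichletCharacter ℂ q}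
    (κ : (W ≃ₐ[ℚ] W) →* ℂˣ) (hκ : ∀ σ : W ≃ₐ[ℚ] W, κ σ ^ 4 = 1)
    (hfrob : ∀ (p : ℕ), p.Prime → p ≠ q → ∀ (Q : Ideal (𝓞 W)) (σ : W ≃ₐ[ℚ] W), Q.IsMaximal →
      (p : 𝓞 W) ∈ Q → (∀ x : 𝓞 W, RingOfIntegers.mapRingEquiv σ.toRingEquiv x - x ^ p ∈ Q) →
      (κ σ : ℂ) = χ (p : ZMod q))
    (K : Subgroup (W ≃ₐ[ℚ] W)) (j : ℕ) (hj : j = 1 ∨ j = 2) (hnt : ∃ σ ∈ K, κ σ ^ j ≠ 1)
    {ℓ C : ℝ} (hℓ : 1 ≤ ℓ)
    (hZ : ∀ E : IntermediateField ℚ W, ∃ d : List ℝ, (∀ x ∈ d, 0 < x ∧ x ≤ 1) ∧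
      ∀ η : ℝ, 0 < η → η ≤ 1 → |Del E (1 : DirichletCharacter ℂ 1) ℓ η - model 1 d η| ≤ C)
    (δ : ℕ) (d : List ℝ) (hδ : δ ≤ 1) (hd : ∀ x ∈ d, 0 ≤ x ∧ x ≤ 1)
    (hD : ∀ η : ℝ, 0 < η → η ≤ 1 →
      |Del (IntermediateField.fixedField K) (χ ^ j) ℓ η - model δ d η| ≤ C) :
    δ = 0 ∨ (0 : ℝ) ∈ d := by
  have hj0 : j ≠ 0 := by omega
  let θ : (W ≃ₐ[ℚ] W) →* ℂˣ := κ ^ j
  have hθκ : ∀ σ, θ σ = κ σ ^ j := fun σ => rfl
  have hθ : ∀ σ, θ σ ^ 4 = 1 := fun σ => by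
    rw [hθκ, ← pow_mul, mul_comm, pow_mul, hκ, one_pow]
  -- the good primes
  have hgood : ∀ p : Nat.Primes, ¬ ((p : ℕ) : ℤ) ∣ discr W * q →
      cf (IntermediateField.fixedField K) (χ ^ j) p =
        (2 * (Nat.card (K ⊓ θ.ker : Subgroup (W ≃ₐ[ℚ] W)) : ℝ) / Nat.card K) *
        ((aE (IntermediateField.fixedField (K ⊓ θ.ker)) p : ℝ) -
          aE (IntermediateField.fixedField (K ⊓ (θ ^ 2).ker)) p) := by
    intro p hp
    have hp1 : ¬ ((p : ℕ) : ℤ) ∣ discr W := fun h => hp (h.mul_right _)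
    have hpq : (p : ℕ) ≠ q := by
      rintro h
      refine hp ?_
      rw [h]
      exact dvd_mul_left _ _
    obtain ⟨ν, -, hν, hsum⟩ := hnu p p.2 hp1
    have h1 : ∀ σ, ν σ ≠ 0 → ((θ σ : ℂˣ) : ℂ) = (χ ^ j) ((p : ℕ) : ZMod q) := by
      intro σ hσ
      obtain ⟨Q, hQ, hpQ, hfr⟩ := hν σ hσ
      rw [hθκ, Units.val_pow_eq_pow_val, hfrob p p.2 hpq Q σ hQ hpQ hfr,
        MulChar.pow_apply' χ hj0]
    exact coeff_eq θ hθ K hnt ν h1 hsum
  -- the growth of the trivial sums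
  obtain ⟨dA, hdA, hA⟩ := hZ (IntermediateField.fixedField (K ⊓ θ.ker))
  obtain ⟨dB, hdB, hB⟩ := hZ (IntermediateField.fixedField (K ⊓ (θ ^ 2).ker))
  obtain ⟨CA, hCA⟩ := exists_growth _ hdA hA
  obtain ⟨CB, hCB⟩ := exists_growth _ hdB hB
  obtain ⟨c, hc⟩ : ∃ c : ℝ, c = 2 * (Nat.card (K ⊓ θ.ker : Subgroup (W ≃ₐ[ℚ] W)) : ℝ) /
    Nat.card K := ⟨_, rfl⟩
  have hc0 : 0 ≤ c := by
    rw [hc]
    positivity
  rw [← hc] at hgood
  -- the error
  have hbA := bddC_aE (IntermediateField.fixedField (K ⊓ θ.ker))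
  have hbB := bddC_aE (IntermediateField.fixedField (K ⊓ (θ ^ 2).ker))
  have hbd := (hbA.sub hbB).const_mul c
  have hbe := (bddC_cf (IntermediateField.fixedField K) (χ ^ j)).sub hbd
  obtain ⟨B, hBe⟩ := hbe
  have hDne : discr W * (q : ℤ) ≠ 0 :=
    mul_ne_zero (discr_ne_zero W) (by exact_mod_cast hq.ne_zero)
  obtain ⟨CD, hCD⟩ := TSm_dvd hℓ hDne
  have hB0 : 0 ≤ B := (abs_nonneg _).trans (hBe ⟨2, Nat.prime_two⟩)
  have hbind : BddC fun p : Nat.Primes =>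
      B * (if ((p : ℕ) : ℤ) ∣ discr W * q then (1 : ℝ) else 0) := by
    refine ⟨B, fun p => ?_⟩
    beta_reduce
    by_cases hp : ((p : ℕ) : ℤ) ∣ discr W * q
    · rw [if_pos hp, mul_one, abs_of_nonneg hB0]
    · rw [if_neg hp, mul_zero, abs_zero]
      exact hB0
  have hup : ∀ η : ℝ, 0 < η → η ≤ 1 →
      Del (IntermediateField.fixedField K) (χ ^ j) ℓ η ≤ c * (CA + CB) + B * CD := by
    intro η hη hη1
    have h1 := TSm_mono (ℓ := ℓ) (η := η) ⟨B, hBe⟩ hbind hℓ hη hη1 fun p => by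
      by_cases hp : ((p : ℕ) : ℤ) ∣ discr W * q
      · rw [if_pos hp, mul_one]
        exact (le_abs_self _).trans (hBe p)
      · rw [if_neg hp, mul_zero, hgood p hp, sub_self]
    rw [TSm_const_mul, TSm_sub (bddC_cf _ _) hbd hℓ hη hη1, TSm_const_mul,
      TSm_sub hbA hbB hℓ hη hη1, ← CStep.Del_eq] at h1
    have h2 := mul_le_mul_of_nonneg_left (hCD η hη hη1) hB0
    have h3 := (hCA η hη hη1).2
    have h4 := (hCB η hη hη1).1
    have h5 : c * (TSm ℓ η (fun p => (aE (IntermediateField.fixedField (K ⊓ θ.ker)) p : ℝ)) -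
        TSm ℓ η (fun p => (aE (IntermediateField.fixedField (K ⊓ (θ ^ 2).ker)) p : ℝ))) ≤
        c * (CA + CB) := mul_le_mul_of_nonneg_left (by linarith) hc0
    linarith
  -- the contradiction
  by_contra hcon
  push Not at hcon
  have hδ1 : δ = 1 := by omega
  subst hδ1
  have hpos : ∀ x ∈ d, 0 < x := fun x hx =>
    lt_of_le_of_ne (hd x hx).1 (fun h => hcon.2 (h ▸ hx))
  obtain ⟨K₁, hK₁⟩ := sum_log_max_ge hpos
  obtain ⟨t, ht⟩ : ∃ t : ℝ, t = |c * (CA + CB) + B * CD| + |C| + |K₁| + 1 := ⟨_, rfl⟩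
  have ht0 : 0 < t := by
    rw [ht]
    positivity
  have hη1 : Real.exp (-t) ≤ 1 := by
    rw [Real.exp_le_one_iff]
    linarith
  have h1 := hup (Real.exp (-t)) (Real.exp_pos _) hη1
  have h2 := (abs_le.1 (hD (Real.exp (-t)) (Real.exp_pos _) hη1)).1
  have h3 := hK₁ (Real.exp (-t)) (Real.exp_pos _)
  unfold model at h2
  rw [Real.log_exp] at h2
  push_cast at h2
  have h4 := le_abs_self (c * (CA + CB) + B * CD)
  have h5 := le_abs_self C
  have h6 := le_abs_self K₁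
  linarith

end Main

end Vale.Agent.P007.H11
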