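import Vale.Agent.P007.H11.QNT
import Vale.Agent.P007.H11.QNu

/-!
# A nontrivial quartic character has no pole: the final form
-/

set_option autoImplicit false

open NumberField

namespace Vale.Agent.P007.H11

open Vale.Agent.P007 Vale.Agent.P007.Z

/-- **NT.** A character which is not trivial on `K` has no pole. -/
theorem del_nontriv {W : Type} [Field W] [NumberField W] [IsGalois ℚ W]
    {q : ℕ} (hq : q.Prime) {χ : DirichletCharacter ℂ q}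
    (κ : (W ≃ₐ[ℚ] W) →* ℂˣ) (hκ : ∀ σ : W ≃ₐ[ℚ] W, κ σ ^ 4 = 1)
    (hfrob : ∀ (p : ℕ), p.Prime → p ≠ q → ∀ (Q : Ideal (𝓞 W)) (σ : W ≃ₐ[ℚ] W), Q.IsMaximal →
      (p : 𝓞 W) ∈ Q → (∀ x : 𝓞 W, RingOfIntegers.mapRingEquiv σ.toRingEquiv x - x ^ p ∈ Q) →
      (κ σ : ℂ) = χ (p : ZMod q))
    (K : Subgroup (W ≃ₐ[ℚ] W)) (j : ℕ) (hj : j = 1 ∨ j = 2) (hnt : ∃ σ ∈ K, κ σ ^ j ≠ 1)
    {ℓ C : ℝ} (hℓ : 1 ≤ ℓ)
    (hZ : ∀ E : IntermediateField ℚ W, ∃ d : List ℝ, (∀ x ∈ d, 0 < x ∧ x ≤ 1) ∧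
      ∀ η : ℝ, 0 < η → η ≤ 1 → |Del E (1 : DirichletCharacter ℂ 1) ℓ η - model 1 d η| ≤ C)
    (δ : ℕ) (d : List ℝ) (hδ : δ ≤ 1) (hd : ∀ x ∈ d, 0 ≤ x ∧ x ≤ 1)
    (hD : ∀ η : ℝ, 0 < η → η ≤ 1 →
      |Del (IntermediateField.fixedField K) (χ ^ j) ℓ η - model δ d η| ≤ C) :
    δ = 0 ∨ (0 : ℝ) ∈ d :=
  del_nontriv_of (fun p hp hD => exists_nu W p hp hD) hq κ hκ hfrob K j hj hnt hℓ hZ δ d hδ hd hD

end Vale.Agent.P007.H11
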