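import Vale.Agent.P007.Bdl.B3

/-! Block PAR: the pairing lemma with an additional model function of asymptotic slope zero. -/

set_option autoImplicit false

open NumberField

namespace Vale.Agent.P007.H11

open Vale.Agent.P007 Vale.Agent.P007.Z

/-- Clipping the entries from below at `η₀` does not change the sum for `η ≥ η₀`. -/
theorem clip_sum (d : List ℝ) {η₀ η : ℝ} (h : η₀ ≤ η) :
    ((d.map (max η₀)).map fun x => Real.log (max η x)).sum =
      (d.map fun x => Real.log (max η x)).sum := by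
  rw [List.map_map]
  congr 1
  refine List.map_congr_left fun x _ => ?_
  simp only [Function.comp_apply]
  rw [← max_assoc, max_eq_left h]

/-- On `[η₀, ∞)` a model function with `δ = 0` can be absorbed into one with `δ = 1`. -/
theorem model_append_clip (d₀ e : List ℝ) {η₀ η : ℝ} (h : η₀ ≤ η) :
    model 1 (d₀ ++ e.map (max η₀)) η = model 1 d₀ η + model 0 e η := by
  unfold model
  rw [List.map_append, List.sum_append, clip_sum e h]
  push_cast
  ring

/-- An entry `0` cancels the pole. -/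
theorem model_erase_zero {d : List ℝ} (h0 : (0 : ℝ) ∈ d) {η : ℝ} (hη : 0 < η) :
    model 1 d η = model 0 (d.erase 0) η := by
  have h1 := List.sum_map_erase (fun x => Real.log (max η x)) h0
  simp only [max_eq_left hη.le] at h1
  unfold model
  rw [← h1]
  push_cast
  ring

/-- The pairing lemma with four model functions. -/
theorem parity4 (C : ℝ) : ∃ C' : ℝ, ∀ (d₀ d₁ d₂ : List ℝ) (δ₁ δ₂ : ℕ),
    (d₀.length : ℝ) ≤ C → (d₁.length : ℝ) ≤ C → (d₂.length : ℝ) ≤ C →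
    (∀ x ∈ d₀, 0 < x ∧ x ≤ 1) → δ₁ ≤ 1 → (∀ x ∈ d₁, 0 ≤ x ∧ x ≤ 1) →
    δ₂ ≤ 1 → (∀ x ∈ d₂, 0 ≤ x ∧ x ≤ 1) → (δ₂ = 0 ∨ (0 : ℝ) ∈ d₂) →
    ∀ η₀ : ℝ, 0 < η₀ → η₀ ≤ 1 →
    (∀ η, η₀ ≤ η → η ≤ 1 → -C ≤ model 1 d₀ η + model δ₂ d₂ η) →
    (∀ η, η₀ ≤ η → η ≤ 1 →
      |model 1 d₀ η + model δ₂ d₂ η + 2 * model δ₁ d₁ η| ≤ C) →
    ∀ η, η₀ ≤ η → η ≤ 1 → model 1 d₀ η + model δ₂ d₂ η ≤ C' := by
  obtain ⟨C', hC'⟩ := parity (2 * |C| + 1)
  refine ⟨C', ?_⟩
  intro d₀ d₁ d₂ δ₁ δ₂ hl₀ hl₁ hl₂ hd₀ hδ₁ hd₁ hδ₂ hd₂ hz η₀ hη₀ hη₁ hlow habs η hη hη1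
  have hC := le_abs_self C
  have hC0 := abs_nonneg C
  -- reduce to `δ₂ = 0`
  obtain ⟨e, hle, he, hem⟩ : ∃ e : List ℝ, (e.length : ℝ) ≤ C ∧ (∀ x ∈ e, 0 ≤ x ∧ x ≤ 1) ∧
      ∀ η : ℝ, 0 < η → model δ₂ d₂ η = model 0 e η := by
    rcases Nat.le_one_iff_eq_zero_or_eq_one.1 hδ₂ with h2 | h2
    · exact ⟨d₂, hl₂, hd₂, fun η _ => by rw [h2]⟩
    · have h0 : (0 : ℝ) ∈ d₂ := by
        rcases hz with h | h
        · omega
        · exact h
      refine ⟨d₂.erase 0, ?_, fun x hx => hd₂ x (List.mem_of_mem_erase hx), fun η hη => ?_⟩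
      · have : (d₂.erase 0).length ≤ d₂.length := (List.erase_sublist).length_le
        have h3 : ((d₂.erase 0).length : ℝ) ≤ d₂.length := by exact_mod_cast this
        linarith
      · rw [h2]
        exact model_erase_zero h0 hη
  have key : ∀ η, η₀ ≤ η → model 1 (d₀ ++ e.map (max η₀)) η = model 1 d₀ η + model δ₂ d₂ η := by
    intro η hη
    rw [model_append_clip d₀ e hη, hem η (hη₀.trans_le hη)]
  have hmain := hC' 1 (d₀ ++ e.map (max η₀)) (fun _ => δ₁) (fun _ => d₁)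
    (by push_cast; linarith)
    (by
      rw [List.length_append, List.length_map]
      push_cast
      linarith)
    (by
      intro x hx
      rcases List.mem_append.1 hx with hx | hx
      · exact hd₀ x hx
      · obtain ⟨y, hy, rfl⟩ := List.mem_map.1 hx
        exact ⟨lt_max_of_lt_left hη₀, max_le hη₁ (he y hy).2⟩)
    (fun _ => hδ₁) (fun _ => by linarith) (fun _ => hd₁) η₀ hη₀ hη₁
    (by
      intro η hη hη1
      rw [key η hη]
      have := hlow η hη hη1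
      linarith)
    (by
      intro η hη hη1
      rw [key η hη, Fin.sum_univ_one]
      have := habs η hη hη1
      linarith)
    η hη hη1
  rw [key η hη] at hmain
  exact hmain

end Vale.Agent.P007.H11
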