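import Vale.Agent.P007.MathlibUsed
import Vale.Agent.P007.Bdl.B5

/-! Group facts for the quartic step. -/

set_option autoImplicit false

open NumberField

namespace Vale.Agent.P007.H11

open Vale.Agent.P007 Vale.Agent.P007.Z Vale.Agent.P007.Z.CStep

/-- the kernel of a nontrivial quadratic character has index two -/
theorem card_two_mul_ker {G : Type} [Group G] [Finite G] {A K : Subgroup G} (θ : A →* ℂˣ)
    (h2 : ∀ a : A, θ a ^ 2 = 1) (hne : ∃ a : A, θ a ≠ 1)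
    (hK : ∀ g : G, g ∈ K ↔ ∃ h : g ∈ A, θ ⟨g, h⟩ = 1) : Nat.card A = 2 * Nat.card K := by
  have hker : Nat.card θ.ker = Nat.card K := by
    have h1 : K = θ.ker.map A.subtype := by
      ext g
      rw [hK, Subgroup.mem_map]
      constructor
      · rintro ⟨h, h3⟩
        exact ⟨⟨g, h⟩, h3, rfl⟩
      · rintro ⟨⟨a, ha⟩, h3, rfl⟩
        exact ⟨ha, h3⟩
    rw [h1]
    exact (Subgroup.card_map_of_injective A.subtype_injective).symm
  have hr : Nat.card θ.range = 2 := by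
    have hle : θ.range ≤ rootsOfUnity 2 ℂ := by
      rintro y ⟨a, rfl⟩
      exact (mem_rootsOfUnity 2 _).2 (h2 a)
    have hdvd := Subgroup.card_dvd_of_le hle
    rw [Complex.card_rootsOfUnity] at hdvd
    rcases (Nat.dvd_prime Nat.prime_two).1 hdvd with h1 | h1
    · exfalso
      obtain ⟨a, ha⟩ := hne
      rw [Subgroup.card_eq_one] at h1
      have h3 : θ a ∈ θ.range := ⟨a, rfl⟩
      rw [h1, Subgroup.mem_bot] at h3
      exact ha h3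
    · exact h1
  have h5 : Nat.card θ.ker * Nat.card θ.range = Nat.card A := by
    rw [← Subgroup.index_ker, Subgroup.card_mul_index]
  rw [hker, hr] at h5
  rw [← h5, mul_comm]

section

variable {L W : Type} [Field L] [NumberField L] [IsGalois ℚ L] [Field W] [NumberField W]
  [IsGalois ℚ W] [Algebra L W] (κ : (W ≃ₐ[ℚ] W) →* ℂˣ)
  (hWdeg : Module.finrank ℚ W = 4 * Module.finrank ℚ L)
  (hinj : ∀ σ : W ≃ₐ[ℚ] W, (∀ x : L, σ (algebraMap L W x) = algebraMap L W x) → κ σ = 1 → σ = 1)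
  (hκ : ∀ σ : W ≃ₐ[ℚ] W, κ σ ^ 4 = 1)

include hWdeg hinj hκ in
theorem s4_surj (g : L ≃ₐ[ℚ] L) (z : ℂˣ) (hz : z ^ 4 = 1) :
    ∃ σ : W ≃ₐ[ℚ] W, AlgEquiv.restrictNormalHom (F := ℚ) (K₁ := W) L σ = g ∧ κ σ = z := by
  set ρ := AlgEquiv.restrictNormalHom (F := ℚ) (K₁ := W) L with hρ
  have hρc : ∀ (σ : W ≃ₐ[ℚ] W) (x : L), algebraMap L W (ρ σ x) = σ (algebraMap L W x) :=
    fun σ x => AlgEquiv.restrictNormal_commutes σ L x
  let κ' : (W ≃ₐ[ℚ] W) →* rootsOfUnity 4 ℂ :=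
    κ.codRestrict (rootsOfUnity 4 ℂ) fun σ => (mem_rootsOfUnity 4 _).2 (hκ σ)
  let Φ : (W ≃ₐ[ℚ] W) →* (L ≃ₐ[ℚ] L) × rootsOfUnity 4 ℂ := ρ.prod κ'
  have hΦinj : Function.Injective Φ := by
    rw [injective_iff_map_eq_one]
    intro σ hσ
    have h1 : ρ σ = 1 := congrArg Prod.fst hσ
    have h2 : κ' σ = 1 := congrArg Prod.snd hσ
    refine hinj σ (fun x => ?_) (congrArg Subtype.val h2)
    rw [← hρc, h1]
    rfl
  have hcard : Nat.card (W ≃ₐ[ℚ] W) = Nat.card ((L ≃ₐ[ℚ] L) × rootsOfUnity 4 ℂ) := by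
    rw [Nat.card_prod, IsGalois.card_aut_eq_finrank, IsGalois.card_aut_eq_finrank, hWdeg,
      Complex.card_rootsOfUnity, mul_comm]
  have hbij : Function.Bijective Φ := (Nat.bijective_iff_injective_and_card _).mpr ⟨hΦinj, hcard⟩
  obtain ⟨σ, hσ⟩ := hbij.2 (g, ⟨z, (mem_rootsOfUnity 4 _).2 hz⟩)
  exact ⟨σ, congrArg Prod.fst hσ, congrArg (fun p => ((p.2 : rootsOfUnity 4 ℂ) : ℂˣ)) hσ⟩

include hWdeg hinj hκ in
theorem s4_card {M M' M'' : Subgroup (L ≃ₐ[ℚ] L)} (ψ : M'' →* ℂˣ)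
    (hψ4 : ∀ h : M'', ψ h ^ 4 = 1) (hψ2 : ∃ h : M'', ψ h ^ 2 ≠ 1)
    (hM : ∀ h : M'', ψ h = 1 ↔ (h : L ≃ₐ[ℚ] L) ∈ M)
    (hM' : ∀ h : M'', ψ h ^ 2 = 1 ↔ (h : L ≃ₐ[ℚ] L) ∈ M') (h1 : M ≤ M') (h2 : M' ≤ M'') :
    Nat.card (M'.comap (AlgEquiv.restrictNormalHom (F := ℚ) (K₁ := W) L)) =
      2 * Nat.card (Hs (AlgEquiv.restrictNormalHom (F := ℚ) (K₁ := W) L) M'' ψ κ 2) ∧
    Nat.card (M'.comap (AlgEquiv.restrictNormalHom (F := ℚ) (K₁ := W) L)) =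
      2 * Nat.card (M.comap (AlgEquiv.restrictNormalHom (F := ℚ) (K₁ := W) L)) := by
  have hs := s4_surj κ hWdeg hinj hκ
  set ρ := AlgEquiv.restrictNormalHom (F := ℚ) (K₁ := W) L with hρ
  let ι : M'.comap ρ →* M'' :=
    { toFun := fun σ => ⟨ρ σ, h2 σ.2⟩
      map_one' := Subtype.ext (map_one ρ)
      map_mul' := fun a b => Subtype.ext (map_mul ρ _ _) }
  have hι : ∀ σ : M'.comap ρ, ((ι σ : M'') : L ≃ₐ[ℚ] L) = ρ σ := fun σ => rfl
  constructor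
  · refine card_two_mul_ker ((ψ.comp ι) * ((κ.comp (M'.comap ρ).subtype) ^ 2)) ?_ ?_ ?_
    · intro a
      have h3 : ψ (ι a) ^ 2 = 1 := (hM' (ι a)).2 a.2
      have h4 : κ (a : W ≃ₐ[ℚ] W) ^ 4 = 1 := hκ _
      change (ψ (ι a) * (κ (a : W ≃ₐ[ℚ] W)) ^ 2) ^ 2 = 1
      rw [mul_pow, h3, one_mul, ← pow_mul]
      exact h4
    · obtain ⟨σ, hσ1, hσ2⟩ := hs 1 (Units.mk0 Complex.I Complex.I_ne_zero) (by
        ext
        simp [Complex.I_pow_four])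
      have hσm : σ ∈ M'.comap ρ := by
        rw [Subgroup.mem_comap, hσ1]
        exact M'.one_mem
      refine ⟨⟨σ, hσm⟩, ?_⟩
      have h3 : ι ⟨σ, hσm⟩ = 1 := Subtype.ext hσ1
      change ψ (ι ⟨σ, hσm⟩) * (κ σ) ^ 2 ≠ 1
      rw [h3, map_one, one_mul, hσ2]
      intro h4
      have h5 := congrArg (fun u : ℂˣ => (u : ℂ)) h4
      simp only [Units.val_pow_eq_pow_val, Units.val_mk0, Complex.I_sq, Units.val_one] at h5
      norm_num at h5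
    · intro σ
      constructor
      · rintro ⟨h3, h4⟩
        have h5 : ψ ⟨ρ σ, h3⟩ ^ 2 = 1 := by
          have h6 : (ψ ⟨ρ σ, h3⟩ * κ σ ^ 2) ^ 2 = 1 := by rw [h4, one_pow]
          rw [mul_pow, ← pow_mul] at h6
          have h7 : κ σ ^ (2 * 2) = 1 := hκ σ
          rwa [h7, mul_one] at h6
        exact ⟨(hM' _).1 h5, h4⟩
      · rintro ⟨h3, h4⟩
        exact ⟨h2 h3, h4⟩
  · refine card_two_mul_ker (ψ.comp ι) ?_ ?_ ?_
    · intro a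
      exact (hM' (ι a)).2 a.2
    · obtain ⟨h, hh⟩ := hψ2
      have h3 : ((h ^ 2 : M'') : L ≃ₐ[ℚ] L) ∈ M' := by
        rw [← hM', map_pow, ← pow_mul]
        exact hψ4 h
      obtain ⟨σ, hσ1, -⟩ := hs ((h ^ 2 : M'') : L ≃ₐ[ℚ] L) 1 (one_pow 4)
      have hσm : σ ∈ M'.comap ρ := by
        rw [Subgroup.mem_comap, hσ1]
        exact h3
      refine ⟨⟨σ, hσm⟩, ?_⟩
      have h4 : ι ⟨σ, hσm⟩ = h ^ 2 := Subtype.ext hσ1
      change ψ (ι ⟨σ, hσm⟩) ≠ 1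
      rw [h4, map_pow]
      exact hh
    · intro σ
      constructor
      · intro h3
        exact ⟨h1 h3, (hM _).2 h3⟩
      · rintro ⟨h3, h4⟩
        exact (hM _).1 h4

end

end Vale.Agent.P007.H11
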