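import Vale.Agent.P007.H11.QDefs

/-! Slopes of the model functions. -/

set_option autoImplicit false

open NumberField

namespace Vale.Agent.P007.H11

open Vale.Agent.P007 Vale.Agent.P007.Z

/-- all slopes are at most one -/
theorem model_slope {δ : ℕ} {d : List ℝ} (hδ : δ ≤ 1) {η η' : ℝ} (hη : 0 < η) (h : η ≤ η') :
    model δ d η - model δ d η' ≤ Real.log η' - Real.log η := by
  have h1 : (d.map fun x => Real.log (max η x)).sum ≤ (d.map fun x => Real.log (max η' x)).sum := by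
    refine List.sum_le_sum fun x _ => ?_
    exact Real.log_le_log (lt_max_of_lt_left hη) (max_le_max_right _ h)
  have h2 : Real.log η ≤ Real.log η' := Real.log_le_log hη h
  have h3 : (δ : ℝ) ≤ 1 := by exact_mod_cast hδ
  unfold model
  nlinarith

theorem slope_le {D : ℝ → ℝ} {δ : ℕ} {d : List ℝ} {C : ℝ} (hδ : δ ≤ 1)
    (hD : ∀ η : ℝ, 0 < η → η ≤ 1 → |D η - model δ d η| ≤ C) {η η' : ℝ} (hη : 0 < η) (h : η ≤ η')
    (h1 : η' ≤ 1) : D η - D η' ≤ Real.log η' - Real.log η + 2 * C := by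
  have h2 := (abs_le.1 (hD η hη (h.trans h1))).2
  have h3 := (abs_le.1 (hD η' (hη.trans_le h) h1)).1
  have h4 := model_slope (d := d) hδ hη h
  linarith

/-- A nonnegative function which is near a model function with `δ = 1`. -/
theorem quant {D : ℝ → ℝ} {d : List ℝ} {C : ℝ} (hd : ∀ x ∈ d, 0 < x ∧ x ≤ 1)
    (hD : ∀ η : ℝ, 0 < η → η ≤ 1 → |D η - model 1 d η| ≤ C) {η₀ : ℝ} (hη₀ : 0 < η₀)
    (hη₁ : η₀ ≤ 1) : ∃ x : ℝ, η₀ ≤ x ∧ x ≤ 1 ∧ D x ≤ C ∧
      ∀ η, η₀ ≤ η → η ≤ x → Real.log x - Real.log η - 2 * C ≤ D η - D x := by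
  obtain ⟨x, hx0, hx1, hmin, hx⟩ := exists_min_entry d hd
  have hC : 0 ≤ C := (abs_nonneg _).trans (hD 1 one_pos le_rfl)
  rcases le_total x η₀ with h | h
  · refine ⟨η₀, le_rfl, hη₁, ?_, fun η h1 h2 => ?_⟩
    · have h1 := model_above hd hx hη₀ hη₁ h
      have h2 := (abs_le.1 (hD η₀ hη₀ hη₁)).2
      linarith
    · have h3 : η = η₀ := le_antisymm h2 h1
      subst h3
      linarith
  · refine ⟨x, h, hx1, ?_, fun η h1 h2 => ?_⟩
    · have h1 := model_above hd hx hx0 hx1 le_rfl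
      have h2 := (abs_le.1 (hD x hx0 hx1)).2
      linarith
    · have h3 := model_below hmin h2
      have h4 := (abs_le.1 (hD η (hη₀.trans_le h1) (h2.trans hx1))).1
      have h5 := (abs_le.1 (hD x hx0 hx1)).2
      linarith

end Vale.Agent.P007.H11
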