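import Vale.Agent.P007.H11.QDefs

/-! Zero quantisation for all even characters. -/

set_option autoImplicit false

section

open MeasureTheory Matrix NumberField Filter Topology Module
open scoped ENNReal NNReal nonZeroDivisors

namespace Vale.Agent.P007.N.SA

open Vale.Agent.P007 Vale.Agent.P007.R Vale.Agent.P007.N

theorem char_even_of {q : ℕ} {χ : DirichletCharacter ℂ q} (h : χ (-1) = 1) (a : ZMod q) :
    χ (-a) = χ a := by
  rw [← neg_one_mul, map_mul, h, one_mul]

theorem part_even_of {q : ℕ} {χ : DirichletCharacter ℂ q} (h : χ (-1) = 1) (l : Fin 4)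
    (a : ZMod q) : part χ l (-a) = part χ l a := by
  rw [part, part, char_even_of h]

/-- **Riesz means with characters**, given the unfolding identity. -/
theorem S_asymp_even_of (n : ℕ) (hn : 2 ≤ n) : ∃ κ C : ℝ, 0 < κ ∧ ∀ D : Datum n, UnfoldAt D →
    rO D 0 = 0 → ∀ (q : ℕ) [NeZero q]
    (χ : DirichletCharacter ℂ q), χ (-1) = 1 → ∃ α : ℂ,
      (q = 1 → α = κ * (vol D).toReal / √(D.disc : ℝ)) ∧
      (χ = 1 → α ≠ 0) ∧
      ‖α‖ ≤ (D.disc * q : ℝ) ^ C * C ∧
      ∀ Y : ℝ, 1 ≤ Y →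
        ‖∑ m ∈ Finset.Icc 1 ⌊Y⌋₊, χ (m : ZMod q) * (rO D m : ℂ) * (Real.log (Y / m) : ℂ) ^ (n - 1) -
          α * Y‖ ≤ C * (D.disc * q : ℝ) ^ C * Y ^ (1 - 1 / (n : ℝ)) := by
  obtain ⟨K, hK0, hK⟩ := riesz_bound n hn
  obtain ⟨Cv, hCv1, hCv⟩ := vol_bound n hn
  have hcn := cn_pos hn
  refine ⟨2 ^ n / cn n, 4 * K + (n * n + n + n : ℕ) + 1, by positivity,
    fun D hU h0 q _ χ hχ => ?_⟩
  set C : ℝ := 4 * K + (n * n + n + n : ℕ) + 1 with hCdef
  obtain ⟨hv, -⟩ := hCv D hU h0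
  have hparts := fun l => hK D hU h0 q (part χ l) (part_even_of hχ l) (part_le_one χ l)
  set Δ : ℝ := (D.disc : ℝ) * q with hΔ
  have hd1 : (1 : ℝ) ≤ D.disc := by exact_mod_cast disc_pos D
  have hq1 : (1 : ℝ) ≤ q := by exact_mod_cast Nat.one_le_iff_ne_zero.mpr (NeZero.ne q)
  have hΔ1 : 1 ≤ Δ := by nlinarith
  have hCK : 4 * K ≤ C := by
    rw [hCdef]
    have : (0 : ℝ) ≤ (n * n + n + n : ℕ) := Nat.cast_nonneg _
    linarith
  have hpow : 4 * (K * Δ ^ (n * n + n + n)) ≤ C * Δ ^ C := by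
    have h1 : Δ ^ (n * n + n + n) ≤ Δ ^ C := by
      rw [← Real.rpow_natCast]
      refine Real.rpow_le_rpow_of_exponent_le hΔ1 ?_
      rw [hCdef]
      linarith
    have h2 : (0 : ℝ) ≤ Δ ^ (n * n + n + n) := by positivity
    calc 4 * (K * Δ ^ (n * n + n + n)) = 4 * K * Δ ^ (n * n + n + n) := by ring
      _ ≤ C * Δ ^ C := by gcongr
  set α : ℂ := ((alp D (part χ 0) - alp D (part χ 1) : ℝ) : ℂ) +
    ((alp D (part χ 2) - alp D (part χ 3) : ℝ) : ℂ) * Complex.I with hα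
  have hnorm : ∀ x y : ℝ, ‖(x : ℂ) + (y : ℂ) * Complex.I‖ ≤ |x| + |y| := by
    intro x y
    refine (norm_add_le _ _).trans (le_of_eq ?_)
    rw [norm_mul, Complex.norm_I, mul_one, Complex.norm_real, Complex.norm_real]
    rfl
  refine ⟨α, ?_, ?_, ?_, ?_⟩
  · intro hq
    subst hq
    have hone : ∀ a : ZMod 1, χ a = 1 := by
      intro a
      have : a = 1 := Subsingleton.elim _ _
      rw [this, map_one]
    have e0 : part χ 0 = fun _ => 1 := by
      funext a
      show Real.toNNReal (χ a).re = 1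
      rw [hone, Complex.one_re, Real.toNNReal_one]
    have e1 : part χ 1 = fun _ => 0 := by
      funext a
      show Real.toNNReal (-(χ a).re) = 0
      rw [hone, Complex.one_re]
      exact Real.toNNReal_of_nonpos (by norm_num)
    have e2 : part χ 2 = fun _ => 0 := by
      funext a
      show Real.toNNReal (χ a).im = 0
      rw [hone, Complex.one_im, Real.toNNReal_zero]
    have e3 : part χ 3 = fun _ => 0 := by
      funext a
      show Real.toNNReal (-(χ a).im) = 0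
      rw [hone, Complex.one_im, neg_zero, Real.toNNReal_zero]
    have hz : alp D (fun _ : ZMod 1 => 0) = 0 := by
      rw [alp, AF_zero]
      simp
    rw [hα, e0, e1, e2, e3, hz, alp, AF_one]
    push_cast
    ring
  · intro h1
    subst h1
    have hval : ∀ a : ZMod q, (1 : DirichletCharacter ℂ q) a = if IsUnit a then 1 else 0 := by
      intro a
      split_ifs with h
      · exact MulChar.one_apply h
      · exact MulChar.map_nonunit _ h
    have hp : 0 < alp D (part (1 : DirichletCharacter ℂ q) 0) := by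
      refine alp_pos hn D hv _ (part_le_one _ 0) ?_
      intro a ha
      show Real.toNNReal ((1 : DirichletCharacter ℂ q) a).re ≠ 0
      rw [hval, if_pos ha, Complex.one_re, Real.toNNReal_one]
      exact one_ne_zero
    have e1 : part (1 : DirichletCharacter ℂ q) 1 = fun _ => 0 := by
      funext a
      show Real.toNNReal (-((1 : DirichletCharacter ℂ q) a).re) = 0
      rw [hval]
      refine Real.toNNReal_of_nonpos ?_
      split_ifs <;> simp
    have hz : alp D (fun _ : ZMod q => 0) = 0 := by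
      rw [alp, AF_zero]
      simp
    intro hα0
    have h2 := congrArg Complex.re hα0
    rw [hα, e1, hz] at h2
    simp at h2
    exact hp.ne' h2
  · rw [hα]
    refine (hnorm _ _).trans ?_
    have hb : ∀ l, |alp D (part χ l)| ≤ K * Δ ^ (n * n + n + n) := by
      intro l
      rw [abs_of_nonneg (alp_nonneg hn D _)]
      exact (hparts l).1
    have h1 := abs_sub (alp D (part χ 0)) (alp D (part χ 1))
    have h2 := abs_sub (alp D (part χ 2)) (alp D (part χ 3))
    have h3 : Δ ^ C * C = C * Δ ^ C := mul_comm _ _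
    rw [h3]
    refine le_trans ?_ hpow
    linarith [hb 0, hb 1, hb 2, hb 3]
  · intro Y hY
    have hsum : ∑ m ∈ Finset.Icc 1 ⌊Y⌋₊, χ (m : ZMod q) * (rO D m : ℂ) *
          (Real.log (Y / m) : ℂ) ^ (n - 1) =
        ((SF D (part χ 0) Y - SF D (part χ 1) Y : ℝ) : ℂ) +
          ((SF D (part χ 2) Y - SF D (part χ 3) Y : ℝ) : ℂ) * Complex.I := by
      simp only [SF]
      rw [← Finset.sum_sub_distrib, ← Finset.sum_sub_distrib, Complex.ofReal_sum,
        Complex.ofReal_sum, Finset.sum_mul, ← Finset.sum_add_distrib]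
      refine Finset.sum_congr rfl fun m _ => ?_
      rw [char_eq_parts χ (m : ZMod q)]
      push_cast
      ring
    have hid : ∑ m ∈ Finset.Icc 1 ⌊Y⌋₊, χ (m : ZMod q) * (rO D m : ℂ) *
          (Real.log (Y / m) : ℂ) ^ (n - 1) - α * Y =
        (((SF D (part χ 0) Y - alp D (part χ 0) * Y) -
          (SF D (part χ 1) Y - alp D (part χ 1) * Y) : ℝ) : ℂ) +
        (((SF D (part χ 2) Y - alp D (part χ 2) * Y) -
          (SF D (part χ 3) Y - alp D (part χ 3) * Y) : ℝ) : ℂ) * Complex.I := by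
      rw [hsum, hα]
      push_cast
      ring
    rw [hid]
    refine (hnorm _ _).trans ?_
    have hb := fun l => (hparts l).2 Y hY
    have h1 := abs_sub (SF D (part χ 0) Y - alp D (part χ 0) * Y)
      (SF D (part χ 1) Y - alp D (part χ 1) * Y)
    have h2 := abs_sub (SF D (part χ 2) Y - alp D (part χ 2) * Y)
      (SF D (part χ 3) Y - alp D (part χ 3) * Y)
    have hY0 : 0 ≤ Y ^ (1 - 1 / (n : ℝ)) := Real.rpow_nonneg (by linarith) _
    calc |SF D (part χ 0) Y - alp D (part χ 0) * Y - (SF D (part χ 1) Y - alp D (part χ 1) * Y)| +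
          |SF D (part χ 2) Y - alp D (part χ 2) * Y - (SF D (part χ 3) Y - alp D (part χ 3) * Y)|
        ≤ 4 * (K * Δ ^ (n * n + n + n)) * Y ^ (1 - 1 / (n : ℝ)) := by
          linarith [hb 0, hb 1, hb 2, hb 3]
      _ ≤ C * Δ ^ C * Y ^ (1 - 1 / (n : ℝ)) := by gcongr

end Vale.Agent.P007.N.SA

end

section

open NumberField

namespace Vale.Agent.P007.H11

open Vale.Agent.P007 Vale.Agent.P007.N Vale.Agent.P007.Z

/-- Riesz means with even characters -/
def SAsympE : Prop := ∀ (n : ℕ), 2 ≤ n → ∃ C : ℝ, ∀ D : Datum n, ∀ (q : ℕ) [NeZero q]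
    (χ : DirichletCharacter ℂ q), χ (-1) = 1 → ∃ α : ℂ,
      (χ = 1 → α ≠ 0) ∧
      ‖α‖ ≤ (D.disc * q : ℝ) ^ C * C ∧
      ∀ Y : ℝ, 1 ≤ Y →
        ‖∑ m ∈ Finset.Icc 1 ⌊Y⌋₊, χ (m : ZMod q) * (rO D m : ℂ) * (Real.log (Y / m) : ℂ) ^ (n - 1) -
          α * Y‖ ≤ C * (D.disc * q : ℝ) ^ C * Y ^ (1 - 1 / (n : ℝ))

theorem sAsympE : SAsympE := by
  intro n hn
  obtain ⟨κ, C, _, h⟩ := Vale.Agent.P007.N.SA.S_asymp_even_of n hn
  refine ⟨C, fun D q _ χ hχ => ?_⟩
  obtain ⟨α, _, h2, h3, h4⟩ := h D (fun φ hφ => unfold D φ hφ) (rO_zero' D) q χ hχ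
  exact ⟨α, h2, h3, h4⟩

theorem exists_ZFormE_of (hSA : SAsympE) (N : ℕ) (C₀ : ℝ) :
    ∃ C ℓ₀ : ℝ, 1 ≤ ℓ₀ ∧ ZFormE N C₀ C ℓ₀ := by
  classical
  choose! Cn hCn using hSA
  set Kn : ℕ → ℝ := fun n => |Cn n| * (2 * |C₀|) + |Cn n| + |C₀| + 2 with hKn
  have hKn0 : ∀ n, 0 ≤ Kn n := fun n => by positivity
  set K : ℝ := ∑ n ∈ Finset.range (N + 1), Kn n with hK
  have hKle : ∀ n, n ≤ N → Kn n ≤ K := fun n hn =>
    Finset.single_le_sum (f := Kn) (fun i _ => hKn0 i) (Finset.mem_range.mpr (by omega))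
  have hK0 : 0 ≤ K := Finset.sum_nonneg fun n _ => hKn0 n
  obtain ⟨C, ℓ₀, hℓ₀, hcore⟩ := zform_core N K hK0
  refine ⟨C, ℓ₀, hℓ₀, ?_⟩
  intro E _ _ _ hEN q _ χ hodd ℓ hℓ hdisc hq
  have hℓ1 : 1 ≤ ℓ := hℓ₀.trans hℓ
  have hℓ0 : 0 < ℓ := by linarith only [hℓ₀, hℓ]
  have hq1 : (1 : ℝ) ≤ q := by exact_mod_cast Nat.pos_of_ne_zero (NeZero.ne q)
  have hn0 : 0 < Module.finrank ℚ E := Module.finrank_pos
  -- the asymptotics in all degrees
  have key : ∃ (α : ℂ) (B : ℝ), (χ = 1 → α ≠ 0) ∧ ‖α‖ ≤ Real.exp (K * ℓ) ∧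
      B ≤ Real.exp (K * ℓ) ∧
      (∀ Y : ℝ, 1 ≤ Y → ‖∑ m ∈ Finset.Icc 1 ⌊Y⌋₊, dchar χ m * (aN E m : ℂ) *
        (Real.log (Y / m) : ℂ) ^ (Module.finrank ℚ E - 1) - α * Y‖ ≤
          B * Y ^ (1 - 1 / (Module.finrank ℚ E : ℝ))) := by
    by_cases hn1 : Module.finrank ℚ E = 1
    · obtain ⟨α, h1, h2, h3⟩ := asymp_deg_one χ
      have hexp1 : 1 ≤ Real.exp (K * ℓ) := Real.one_le_exp (by (clear * - hℓ1; positivity))
      refine ⟨α, 3 * q, h1, h2.trans hexp1, ?_, ?_⟩
      · have h4 : Kn 1 ≤ K := hKle 1 (by omega)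
        have h5 : |C₀| + 2 ≤ Kn 1 := by
          rw [hKn]
          have : 0 ≤ |Cn 1| * (2 * |C₀|) + |Cn 1| := by (clear * -; positivity)
          simp only
          linarith only [this]
        have h6 : (q : ℝ) ≤ Real.exp (|C₀| * ℓ) := by
          rw [← Real.log_le_iff_le_exp (by linarith only [hq1])]
          refine hq.trans ?_
          gcongr
          exact le_abs_self C₀
        have h7 : (3 : ℝ) ≤ Real.exp (2 * ℓ) := by
          have := Real.add_one_le_exp (2 * ℓ)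
          linarith only [hℓ₀, hℓ, this]
        calc (3 : ℝ) * q ≤ Real.exp (2 * ℓ) * Real.exp (|C₀| * ℓ) := by (clear * - hq1 h6 h7; gcongr)
          _ = Real.exp ((|C₀| + 2) * ℓ) := by
              rw [← Real.exp_add]
              congr 1
              ring
          _ ≤ Real.exp (K * ℓ) := by
              apply Real.exp_le_exp.mpr
              gcongr
              linarith only [h4, h5]
      · intro Y hY
        rw [hn1]
        simp only [Nat.cast_one, div_one, sub_self, Real.rpow_zero, mul_one]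
        have h4 : ∑ m ∈ Finset.Icc 1 ⌊Y⌋₊, dchar χ m * (aN E m : ℂ) *
            (Real.log (Y / m) : ℂ) ^ (1 - 1) = ∑ m ∈ Finset.Icc 1 ⌊Y⌋₊, χ (m : ZMod q) := by
          refine Finset.sum_congr rfl fun m hm => ?_
          have hm0 : m ≠ 0 := by
            have := (Finset.mem_Icc.mp hm).1
            omega
          have h5 : aN E m = 1 := aE_of_finrank_one E hn1 hm0
          rw [dchar_apply χ hm0, h5, Nat.cast_one, mul_one, Nat.sub_self, pow_zero, mul_one]
        rw [h4]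
        exact h3 Y hY
    · have hn2 : 2 ≤ Module.finrank ℚ E := by omega
      obtain ⟨σ⟩ := nonempty_ordering E _ rfl
      obtain ⟨α, h1, h2, h3⟩ := hCn (Module.finrank ℚ E) hn2 (maxDatum E rfl σ) q χ hodd
      have hd : ((maxDatum E rfl σ).disc : ℝ) = |(discr E : ℝ)| := by
        rw [maxDatum_disc, ← Int.cast_abs, Int.abs_eq_natAbs]
        simp only [Nat.cast_natAbs, Int.cast_abs, Int.cast_eq]
      rw [hd] at h2
      simp_rw [hd] at h3
      have hx : (1 : ℝ) ≤ |(discr E : ℝ)| := by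
        rw [← hd]
        have h4 : 0 < (maxDatum E rfl σ).disc := by
          rw [maxDatum_disc]
          exact Int.natAbs_pos.mpr (discr_ne_zero E)
        exact_mod_cast h4
      have hb := rpow_mul_le (C := Cn (Module.finrank ℚ E)) hx hq1 hℓ1 hdisc hq
      have hle : Real.exp ((|Cn (Module.finrank ℚ E)| * (2 * |C₀|) + |Cn (Module.finrank ℚ E)|) * ℓ)
          ≤ Real.exp (K * ℓ) := by
        apply Real.exp_le_exp.mpr
        have h4 : Kn (Module.finrank ℚ E) ≤ K := hKle _ hEN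
        have h5 : |Cn (Module.finrank ℚ E)| * (2 * |C₀|) + |Cn (Module.finrank ℚ E)| ≤
            Kn (Module.finrank ℚ E) := by
          rw [hKn]
          have := abs_nonneg C₀
          simp only
          linarith
        gcongr
        linarith
      refine ⟨α, Cn (Module.finrank ℚ E) * (|(discr E : ℝ)| * q) ^ Cn (Module.finrank ℚ E),
        h1, h2.trans (hb.trans hle), ?_, ?_⟩
      · rw [mul_comm]
        exact hb.trans hle
      · intro Y hY
        have h4 : ∑ m ∈ Finset.Icc 1 ⌊Y⌋₊, dchar χ m * (aN E m : ℂ) *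
            (Real.log (Y / m) : ℂ) ^ (Module.finrank ℚ E - 1) =
            ∑ m ∈ Finset.Icc 1 ⌊Y⌋₊, χ (m : ZMod q) * (rO (maxDatum E rfl σ) m : ℂ) *
            (Real.log (Y / m) : ℂ) ^ (Module.finrank ℚ E - 1) := by
          refine Finset.sum_congr rfl fun m hm => ?_
          have hm0 : m ≠ 0 := by
            have := (Finset.mem_Icc.mp hm).1
            omega
          rw [dchar_apply χ hm0, rO_maxDatum E rfl σ hm0]
          rfl
        rw [h4]
        exact h3 Y hY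
  obtain ⟨α, B, hα1, hα, hB, hS⟩ := key
  obtain ⟨δ, d, h1, h2, h3, h4, h5⟩ := hcore E hEN (dchar χ) (norm_dchar_le χ) ℓ hℓ α B hα hB hS
  refine ⟨δ, d, h1, h2, h3, fun hχ => h4 (hα1 hχ), fun η hη hη1 => ?_⟩
  rw [Del_eq E χ hℓ0 hη]
  exact h5 η hη hη1

/-- zero quantisation for all even characters -/
theorem exists_ZFormE (N : ℕ) (C₀ : ℝ) : ∃ C ℓ₀ : ℝ, 1 ≤ ℓ₀ ∧ ZFormE N C₀ C ℓ₀ :=
  exists_ZFormE_of sAsympE N C₀

end Vale.Agent.P007.H11

end
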