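import Vale.Agent.P007.H11.QV4
import Vale.Agent.P007.H11.QZ
import Vale.Agent.P007.H11.QAux
import Vale.Agent.P007.H11.QPar
import Vale.Agent.P007.H11.QNT2
import Vale.Agent.P007.H11.QS4g

/-! The cyclic step of degree four. -/

set_option autoImplicit false

open NumberField

namespace Vale.Agent.P007.H11

open Vale.Agent.P007 Vale.Agent.P007.Z Vale.Agent.P007.Z.CStep

/-- fourth roots of unity -/
theorem re4 {z : ℂ} (hz : z ^ 4 = 1) : z = 1 ∨ z = -1 ∨ (z ^ 2 = -1 ∧ z.re = 0) := by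
  have h1 : (z - 1) * ((z + 1) * (z ^ 2 + 1)) = 0 := by linear_combination hz
  rcases mul_eq_zero.1 h1 with h | h
  · exact Or.inl (sub_eq_zero.1 h)
  · rcases mul_eq_zero.1 h with h | h
    · exact Or.inr (Or.inl (eq_neg_of_add_eq_zero_left h))
    · refine Or.inr (Or.inr ⟨eq_neg_of_add_eq_zero_left h, ?_⟩)
      have h2 : z ^ 2 = -1 := eq_neg_of_add_eq_zero_left h
      have h3 := congrArg Complex.re h2
      have h4 := congrArg Complex.im h2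
      rw [pow_two, Complex.mul_re] at h3
      rw [pow_two, Complex.mul_im] at h4
      simp only [Complex.neg_re, Complex.one_re, Complex.neg_im, Complex.one_im, neg_zero] at h3 h4
      have h5 : z.re * z.im = 0 := by linarith
      rcases mul_eq_zero.1 h5 with h6 | h6
      · exact h6
      · rw [h6] at h3
        nlinarith [mul_self_nonneg z.re]

section Point

variable {q : ℕ} {χ : DirichletCharacter ℂ q}

open Classical in
/-- indicator of `χ(p) = 1` -/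
noncomputable def i1 (χ : DirichletCharacter ℂ q) (p : Nat.Primes) : ℝ :=
  if χ ((p : ℕ) : ZMod q) = 1 then 1 else 0

open Classical in
/-- indicator of `χ(p) = -1` -/
noncomputable def im (χ : DirichletCharacter ℂ q) (p : Nat.Primes) : ℝ :=
  if χ ((p : ℕ) : ZMod q) = -1 then 1 else 0

theorem i1_mem (p : Nat.Primes) : 0 ≤ i1 χ p ∧ i1 χ p ≤ 1 := by
  unfold i1
  split_ifs <;> norm_num

theorem im_mem (p : Nat.Primes) : 0 ≤ im χ p ∧ im χ p ≤ 1 := by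
  unfold im
  split_ifs <;> norm_num

theorem bddC_i1 : BddC (i1 χ) := ⟨1, fun p => by
  rw [abs_of_nonneg (i1_mem p).1]
  exact (i1_mem p).2⟩

theorem bddC_im : BddC (im χ) := ⟨1, fun p => by
  rw [abs_of_nonneg (im_mem p).1]
  exact (im_mem p).2⟩

/-- the three cases -/
theorem cases4 (hq : q.Prime) (hord : orderOf χ = 4) (p : Nat.Primes) (hp : (p : ℕ) ≠ q) :
    (χ ((p : ℕ) : ZMod q) = 1 ∧ i1 χ p = 1 ∧ im χ p = 0) ∨
    (χ ((p : ℕ) : ZMod q) = -1 ∧ i1 χ p = 0 ∧ im χ p = 1) ∨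
    (χ ((p : ℕ) : ZMod q) ^ 2 = -1 ∧ (χ ((p : ℕ) : ZMod q)).re = 0 ∧ i1 χ p = 0 ∧ im χ p = 0) := by
  have h1 := chi_pow_eq hord ((p : ℕ) : ZMod q) (chi_ne hq χ p.2 hp)
  have h11 : (1 : ℂ) ≠ -1 := by norm_num
  rcases re4 h1 with h | h | ⟨h, h'⟩
  · left
    refine ⟨h, if_pos h, if_neg ?_⟩
    rw [h]
    exact h11
  · right
    left
    refine ⟨h, if_neg ?_, if_pos h⟩
    rw [h]
    exact h11.symm
  · right
    right
    refine ⟨h, h', if_neg ?_, if_neg ?_⟩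
    · intro h2
      rw [h2] at h
      norm_num at h
    · intro h2
      rw [h2] at h
      norm_num at h

theorem i1_self (hq : q.Prime) (p : Nat.Primes) (hp : (p : ℕ) = q) : i1 χ p = 0 := by
  refine if_neg ?_
  rw [hp, chi_self hq]
  exact zero_ne_one

theorem im_self (hq : q.Prime) (p : Nat.Primes) (hp : (p : ℕ) = q) : im χ p = 0 := by
  refine if_neg ?_
  rw [hp, chi_self hq]
  norm_num

variable (E : Type) [Field E] [NumberField E]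

theorem id_zeta (hq : q.Prime) (hord : orderOf χ = 4) (p : Nat.Primes) :
    cf E χ p = (i1 χ p - im χ p) * (aE E p : ℝ) := by
  by_cases hp : (p : ℕ) = q
  · rw [cf_self hq E χ hp, i1_self hq p hp, im_self hq p hp, sub_self, zero_mul]
  · unfold cf
    rcases cases4 hq hord p hp with ⟨h1, h2, h3⟩ | ⟨h1, h2, h3⟩ | ⟨h1, h2, h3, h4⟩
    · rw [h1, h2, h3, Complex.one_re, sub_zero]
    · rw [h1, h2, h3, Complex.neg_re, Complex.one_re, zero_sub]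
    · rw [h2, h3, h4, sub_self]

theorem id_beta (hq : q.Prime) (hord : orderOf χ = 4) (p : Nat.Primes) :
    cf E (1 : DirichletCharacter ℂ q) p + cf E (χ ^ 2) p =
      2 * ((i1 χ p + im χ p) * (aE E p : ℝ)) := by
  by_cases hp : (p : ℕ) = q
  · rw [cf_self hq E _ hp, cf_self hq E _ hp, i1_self hq p hp, im_self hq p hp]
    ring
  · rw [cf_one_ne hq E hp]
    unfold cf
    rw [MulChar.pow_apply' χ two_ne_zero]
    rcases cases4 hq hord p hp with ⟨h1, h2, h3⟩ | ⟨h1, h2, h3⟩ | ⟨h1, h2, h3, h4⟩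
    · rw [h1, h2, h3, one_pow, Complex.one_re]
      ring
    · rw [h1, h2, h3, neg_one_sq, Complex.one_re]
      ring
    · rw [h1, h3, h4, Complex.neg_re, Complex.one_re]
      ring

theorem id_alpha (hq : q.Prime) (hord : orderOf χ = 4) (p : Nat.Primes) :
    cf E (1 : DirichletCharacter ℂ q) p + cf E (χ ^ 2) p + 2 * cf E χ p =
      4 * (i1 χ p * (aE E p : ℝ)) := by
  rw [id_beta E hq hord p, id_zeta E hq hord p]
  ring

end Point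

/-- the conclusion of `parity4` -/
def Par4 (C C' : ℝ) : Prop :=
  ∀ (d₀ d₁ d₂ : List ℝ) (δ₁ δ₂ : ℕ), (d₀.length : ℝ) ≤ C → (d₁.length : ℝ) ≤ C →
    (d₂.length : ℝ) ≤ C → (∀ x ∈ d₀, 0 < x ∧ x ≤ 1) → δ₁ ≤ 1 → (∀ x ∈ d₁, 0 ≤ x ∧ x ≤ 1) →
    δ₂ ≤ 1 → (∀ x ∈ d₂, 0 ≤ x ∧ x ≤ 1) → (δ₂ = 0 ∨ (0 : ℝ) ∈ d₂) → ∀ η₀ : ℝ, 0 < η₀ → η₀ ≤ 1 →
    (∀ η, η₀ ≤ η → η ≤ 1 → -C ≤ model 1 d₀ η + model δ₂ d₂ η) →
    (∀ η, η₀ ≤ η → η ≤ 1 → |model 1 d₀ η + model δ₂ d₂ η + 2 * model δ₁ d₁ η| ≤ C) →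
    ∀ η, η₀ ≤ η → η ≤ 1 → model 1 d₀ η + model δ₂ d₂ η ≤ C'

/-- a model function of a nontrivial character is nonpositive -/
theorem model_nonpos' {δ : ℕ} {d : List ℝ} (hδ : δ ≤ 1) (hd : ∀ x ∈ d, 0 ≤ x ∧ x ≤ 1)
    (h : δ = 0 ∨ (0 : ℝ) ∈ d) {η : ℝ} (hη : 0 < η) (hη1 : η ≤ 1) : model δ d η ≤ 0 := by
  have hd1 : ∀ x ∈ d, x ≤ 1 := fun x hx => (hd x hx).2
  rcases h with rfl | h0
  · have h1 := sum_log_max_nonpos hd1 hη hη1
    unfold model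
    simpa only [CharP.cast_eq_zero, zero_mul, neg_zero, zero_add, ge_iff_le] using h1
  · have h1 := sum_log_max_le hd1 hη hη1 h0
    rw [max_eq_left hη.le] at h1
    have h2 : (δ : ℝ) ≤ 1 := by exact_mod_cast hδ
    have h3 := Real.log_nonpos hη.le hη1
    unfold model
    nlinarith

section Grp

variable {G' G : Type} [Group G'] [Group G] (ρ : G' →* G) {M M' M'' : Subgroup G} (ψ : M'' →* ℂˣ)
  (κ : G' →* ℂˣ)

theorem grp1 (hM : ∀ h : M'', ψ h = 1 ↔ (h : G) ∈ M) {σ : G'} (h : σ ∈ Hs ρ M'' ψ κ 1)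
    (hk : (κ σ : ℂ) = 1) : σ ∈ M.comap ρ := by
  obtain ⟨h1, h2⟩ := h
  have h3 : κ σ = 1 := Units.ext hk
  rw [h3, one_pow, mul_one] at h2
  exact (hM _).1 h2

theorem unit_cases {u : ℂˣ} (h : u ^ 2 = 1) : u = 1 ∨ (u : ℂ) = -1 := by
  have h1 : (u : ℂ) * (u : ℂ) = 1 := by
    rw [← Units.val_mul, ← pow_two, h, Units.val_one]
  rcases mul_self_eq_one_iff.1 h1 with h2 | h2
  · exact Or.inl (Units.ext h2)
  · exact Or.inr h2

theorem grp2 (hM : ∀ h : M'', ψ h = 1 ↔ (h : G) ∈ M)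
    (hM' : ∀ h : M'', ψ h ^ 2 = 1 ↔ (h : G) ∈ M') (hMM'' : M' ≤ M'') {σ : G'}
    (h : σ ∈ M'.comap ρ) (hk : (κ σ : ℂ) = -1) : σ ∈ M.comap ρ ∨ σ ∈ Hs ρ M'' ψ κ 1 := by
  have h1 : ρ σ ∈ M'' := hMM'' h
  rcases unit_cases ((hM' ⟨ρ σ, h1⟩).2 h) with h2 | h2
  · exact Or.inl ((hM _).1 h2)
  · refine Or.inr ⟨h1, Units.ext ?_⟩
    rw [pow_one, Units.val_mul, h2, hk, Units.val_one]
    norm_num

theorem grp3 (hM : ∀ h : M'', ψ h = 1 ↔ (h : G) ∈ M)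
    (hM' : ∀ h : M'', ψ h ^ 2 = 1 ↔ (h : G) ∈ M') (hMM' : M ≤ M') (hMM'' : M' ≤ M'') {σ : G'}
    (hk : (κ σ : ℂ) ^ 2 = -1) :
    (σ ∈ M'.comap ρ ∧ σ ∈ M.comap ρ ∧ σ ∉ Hs ρ M'' ψ κ 2) ∨
    (σ ∈ M'.comap ρ ∧ σ ∉ M.comap ρ ∧ σ ∈ Hs ρ M'' ψ κ 2) ∨
    (σ ∉ M'.comap ρ ∧ σ ∉ M.comap ρ ∧ σ ∉ Hs ρ M'' ψ κ 2) := by
  by_cases h : σ ∈ M'.comap ρ
  · have h1 : ρ σ ∈ M'' := hMM'' h
    rcases unit_cases ((hM' ⟨ρ σ, h1⟩).2 h) with h2 | h2
    · refine Or.inl ⟨h, (hM _).1 h2, ?_⟩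
      rintro ⟨h3, h4⟩
      have h5 : ψ ⟨ρ σ, h3⟩ * κ σ ^ 2 = 1 := h4
      rw [show ψ ⟨ρ σ, h3⟩ = 1 from h2, one_mul] at h5
      have h6 : (κ σ : ℂ) ^ 2 = 1 := by
        rw [← Units.val_pow_eq_pow_val, h5, Units.val_one]
      rw [h6] at hk
      norm_num at hk
    · refine Or.inr (Or.inl ⟨h, ?_, h1, Units.ext ?_⟩)
      · intro h3
        have h4 : ψ ⟨ρ σ, h1⟩ = 1 := (hM ⟨ρ σ, h1⟩).2 h3
        rw [h4, Units.val_one] at h2
        norm_num at h2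
      · rw [Units.val_mul, Units.val_pow_eq_pow_val, h2, hk, Units.val_one]
        norm_num
  · refine Or.inr (Or.inr ⟨h, fun h1 => h (hMM' h1), ?_⟩)
    rintro ⟨h3, h4⟩
    refine h ((hM' ⟨ρ σ, h3⟩).1 (Units.ext ?_))
    have h5 : ((ψ ⟨ρ σ, h3⟩ : ℂˣ) : ℂ) * (κ σ : ℂ) ^ 2 = 1 := by
      rw [← Units.val_pow_eq_pow_val, ← Units.val_mul, h4, Units.val_one]
    rw [hk] at h5
    have h6 : ((ψ ⟨ρ σ, h3⟩ : ℂˣ) : ℂ) = -1 := by linear_combination -h5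
    rw [Units.val_pow_eq_pow_val, h6, Units.val_one]
    norm_num

end Grp

section Core

variable {L W : Type} [Field L] [NumberField L] [IsGalois ℚ L] [Field W] [NumberField W]
  [IsGalois ℚ W] [Algebra L W] {M M' M'' : Subgroup (L ≃ₐ[ℚ] L)} (ψ : M'' →* ℂˣ)
  {q : ℕ} {χ : DirichletCharacter ℂ q} (κ : (W ≃ₐ[ℚ] W) →* ℂˣ)

/-- the count of primes of degree one when `χ(p)` is a primitive fourth root of unity -/
theorem nu_count (hψ4 : ∀ h : M'', ψ h ^ 4 = 1)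
    (hψ2 : ∃ h : M'', ψ h ^ 2 ≠ 1) (hM : ∀ h : M'', ψ h = 1 ↔ (h : L ≃ₐ[ℚ] L) ∈ M)
    (hM' : ∀ h : M'', ψ h ^ 2 = 1 ↔ (h : L ≃ₐ[ℚ] L) ∈ M') (hMM' : M ≤ M') (hMM'' : M' ≤ M'')
    (hWdeg : Module.finrank ℚ W = 4 * Module.finrank ℚ L)
    (hinj : ∀ σ : W ≃ₐ[ℚ] W, (∀ x : L, σ (algebraMap L W x) = algebraMap L W x) →
      κ σ = 1 → σ = 1) (hκ : ∀ σ : W ≃ₐ[ℚ] W, κ σ ^ 4 = 1)
    (hfrob : ∀ (p : ℕ), p.Prime → p ≠ q → ∀ (Q : Ideal (𝓞 W)) (σ : W ≃ₐ[ℚ] W), Q.IsMaximal →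
        (p : 𝓞 W) ∈ Q → (∀ x : 𝓞 W, RingOfIntegers.mapRingEquiv σ.toRingEquiv x - x ^ p ∈ Q) →
        (κ σ : ℂ) = χ (p : ZMod q)) (p : ℕ) (hp : p.Prime) (hpq : p ≠ q)
    (hD : ¬ (p : ℤ) ∣ discr W) (hχ : χ (p : ZMod q) ^ 2 = -1) :
    2 * (aE (IntermediateField.fixedField
      (M'.comap (AlgEquiv.restrictNormalHom (F := ℚ) (K₁ := W) L))) p : ℝ) =
    (aE (IntermediateField.fixedField
      (M.comap (AlgEquiv.restrictNormalHom (F := ℚ) (K₁ := W) L))) p : ℝ) +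
    (aE (IntermediateField.fixedField
      (Hs (AlgEquiv.restrictNormalHom (F := ℚ) (K₁ := W) L) M'' ψ κ 2)) p : ℝ) := by
  obtain ⟨hc1, hc2⟩ := s4_card κ hWdeg hinj hκ ψ hψ4 hψ2 hM hM' hMM' hMM''
  obtain ⟨ν, -, hν1, hν⟩ := exists_nu W p hp hD
  set ρ := AlgEquiv.restrictNormalHom (F := ℚ) (K₁ := W) L with hρ
  have e1 := hν (M'.comap ρ)
  have e2 := hν (M.comap ρ)
  have e3 := hν (Hs ρ M'' ψ κ 2)
  have hc3 : Nat.card (M.comap ρ) = Nat.card (Hs ρ M'' ψ κ 2) := by omega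
  rw [hc1] at e1
  rw [hc3] at e2
  push_cast at e1
  have key : (∑ σ : (W ≃ₐ[ℚ] W), (M'.comap ρ : Set (W ≃ₐ[ℚ] W)).indicator ν σ) =
      (∑ σ : (W ≃ₐ[ℚ] W), (M.comap ρ : Set (W ≃ₐ[ℚ] W)).indicator ν σ) +
      ∑ σ : (W ≃ₐ[ℚ] W), (Hs ρ M'' ψ κ 2 : Set (W ≃ₐ[ℚ] W)).indicator ν σ := by
    rw [← Finset.sum_add_distrib]
    refine Finset.sum_congr rfl fun σ _ => ?_
    by_cases h0 : ν σ = 0
    · have h1 : ∀ S : Set (W ≃ₐ[ℚ] W), S.indicator ν σ = 0 := fun S => by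
        classical
        rw [Set.indicator_apply, h0, ite_self]
      rw [h1, h1, h1, add_zero]
    · obtain ⟨Q, hQ, hpQ, hfr⟩ := hν1 σ h0
      have h1 := hfrob p hp hpq Q σ hQ hpQ hfr
      have h2 : (κ σ : ℂ) ^ 2 = -1 := by rw [h1, hχ]
      rcases grp3 ρ ψ κ hM hM' hMM' hMM'' h2 with ⟨a, b, c⟩ | ⟨a, b, c⟩ | ⟨a, b, c⟩
      · rw [Set.indicator_of_mem (show σ ∈ (M'.comap ρ : Set (W ≃ₐ[ℚ] W)) from a),
          Set.indicator_of_mem (show σ ∈ (M.comap ρ : Set (W ≃ₐ[ℚ] W)) from b),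
          Set.indicator_of_notMem (show σ ∉ (Hs ρ M'' ψ κ 2 : Set (W ≃ₐ[ℚ] W)) from c), add_zero]
      · rw [Set.indicator_of_mem (show σ ∈ (M'.comap ρ : Set (W ≃ₐ[ℚ] W)) from a),
          Set.indicator_of_notMem (show σ ∉ (M.comap ρ : Set (W ≃ₐ[ℚ] W)) from b),
          Set.indicator_of_mem (show σ ∈ (Hs ρ M'' ψ κ 2 : Set (W ≃ₐ[ℚ] W)) from c), zero_add]
      · rw [Set.indicator_of_notMem (show σ ∉ (M'.comap ρ : Set (W ≃ₐ[ℚ] W)) from a),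
          Set.indicator_of_notMem (show σ ∉ (M.comap ρ : Set (W ≃ₐ[ℚ] W)) from b),
          Set.indicator_of_notMem (show σ ∉ (Hs ρ M'' ψ κ 2 : Set (W ≃ₐ[ℚ] W)) from c), add_zero]
  rw [← e1, ← e2, ← e3] at key
  have hc : (0 : ℝ) < Nat.card (Hs ρ M'' ψ κ 2) := by exact_mod_cast Nat.card_pos
  have key2 : (Nat.card (Hs ρ M'' ψ κ 2) : ℝ) *
      (2 * (aE (IntermediateField.fixedField (M'.comap ρ)) p : ℝ)) =
      (Nat.card (Hs ρ M'' ψ κ 2) : ℝ) *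
      ((aE (IntermediateField.fixedField (M.comap ρ)) p : ℝ) +
        (aE (IntermediateField.fixedField (Hs ρ M'' ψ κ 2)) p : ℝ)) := by linarith
  exact mul_left_cancel₀ hc.ne' key2

/-- the quartic step with given auxiliary data -/
theorem step4_core [IsTotallyReal W] {N' : ℕ} {C₀ C ℓ₀ A C' CP : ℝ} (hZ : ZFormE N' C₀ C ℓ₀)
    (hℓ₀ : 1 ≤ ℓ₀)
    (hC : 0 ≤ C) (hpar : Par4 CP C') (hψ4 : ∀ h : M'', ψ h ^ 4 = 1)
    (hψ2 : ∃ h : M'', ψ h ^ 2 ≠ 1) (hM : ∀ h : M'', ψ h = 1 ↔ (h : L ≃ₐ[ℚ] L) ∈ M)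
    (hM' : ∀ h : M'', ψ h ^ 2 = 1 ↔ (h : L ≃ₐ[ℚ] L) ∈ M') (hMM' : M ≤ M') (hMM'' : M' ≤ M'')
    (hq : q.Prime) (hord : orderOf χ = 4) (heven : χ (-1) = 1)
    (hWdeg : Module.finrank ℚ W = 4 * Module.finrank ℚ L) (hWN : Module.finrank ℚ W ≤ N')
    (hCP : 4 * N' * A + 4 * C ≤ CP) (hA : 0 ≤ A)
    (ℓ : ℝ) (hℓ : ℓ₀ ≤ ℓ) (hqℓ : Real.log q ≤ C₀ * ℓ)
    (hWℓ : Real.log |(discr W : ℝ)| ≤ C₀ * ℓ)
    (hinj : ∀ σ : W ≃ₐ[ℚ] W, (∀ x : L, σ (algebraMap L W x) = algebraMap L W x) →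
      κ σ = 1 → σ = 1) (hκ : ∀ σ : W ≃ₐ[ℚ] W, κ σ ^ 4 = 1)
    (hfrob : ∀ (p : ℕ), p.Prime → p ≠ q → ∀ (Q : Ideal (𝓞 W)) (σ : W ≃ₐ[ℚ] W), Q.IsMaximal →
        (p : 𝓞 W) ∈ Q → (∀ x : 𝓞 W, RingOfIntegers.mapRingEquiv σ.toRingEquiv x - x ^ p ∈ Q) →
        (κ σ : ℂ) = χ (p : ZMod q))
    (η : ℝ) (hη : 0 < η) (hη1 : η ≤ 1)
    (hS : Sc (IntermediateField.fixedField M) (fun _ => True) ℓ η ≤ A) :
    Sc (IntermediateField.fixedField M') (fun _ => True) ℓ η ≤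
      9 * C + (N' * A + 2 * (C + N' * (A + (C' + 2 * C) / 2)) +
        2 * N' * (A + (C' + 2 * C) / 2) + 2 * N' * C₀) + 1 := by
  classical
  have : NeZero q := ⟨hq.ne_zero⟩
  have hℓ1 : 1 ≤ ℓ := hℓ₀.trans hℓ
  have hℓ0 : 0 < ℓ := by linarith
  have hN0 : (0 : ℝ) ≤ N' := Nat.cast_nonneg _
  have hC₀ : 0 ≤ C₀ := by
    have h1 : 0 ≤ Real.log q := Real.log_nonneg (by exact_mod_cast hq.one_lt.le)
    by_contra h
    have h2 : C₀ < 0 := not_le.1 h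
    nlinarith
  have hnt1 := s4_surj κ hWdeg hinj hκ
  have hnu := nu_count ψ κ hψ4 hψ2 hM hM' hMM' hMM'' hWdeg hinj hκ hfrob
  rw [Sc_congr (fun m => aE_fixed_comap (W := W) M m)] at hS
  rw [Sc_congr (fun m => aE_fixed_comap (W := W) M' m)]
  set ρ : (W ≃ₐ[ℚ] W) →* (L ≃ₐ[ℚ] L) := AlgEquiv.restrictNormalHom (F := ℚ) (K₁ := W) L with hρ
  have hZE : ∀ (E : IntermediateField ℚ W) (χ' : DirichletCharacter ℂ q),
      χ' (-1) = 1 → ZOne E χ' ℓ C := fun E χ' hχ' =>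
    hZ E ((finrank_sub_le W E).trans hWN) q χ' hχ' ℓ hℓ ((log_discr_le W E).trans hWℓ) hqℓ
  have hZ1 : ∀ E : IntermediateField ℚ W, ∃ d : List ℝ, (∀ x ∈ d, 0 < x ∧ x ≤ 1) ∧
      ∀ η : ℝ, 0 < η → η ≤ 1 → |Del E (1 : DirichletCharacter ℂ 1) ℓ η - model 1 d η| ≤ C := by
    intro E
    obtain ⟨δ, d, -, -, hdd, h1, h2⟩ := hZ E ((finrank_sub_le W E).trans hWN) 1 1
      (by rw [MulChar.one_apply]; exact isUnit_one.neg) ℓ hℓ ((log_discr_le W E).trans hWℓ)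
      (by rw [Nat.cast_one, Real.log_one]; positivity)
    obtain ⟨rfl, hpos⟩ := h1 rfl
    exact ⟨d, fun x hx => ⟨hpos x hx, (hdd x hx).2⟩, h2⟩
  have haE : ∀ (E : IntermediateField ℚ W) (p : Nat.Primes), (aE E p : ℝ) ≤ N' := fun E p => by
    exact_mod_cast (aE_le E p p.2).trans ((finrank_sub_le W E).trans hWN)
  have haE0 : ∀ (E : IntermediateField ℚ W) (p : Nat.Primes), (0 : ℝ) ≤ (aE E p : ℝ) :=
    fun E p => Nat.cast_nonneg _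
  have hone : (1 : DirichletCharacter ℂ q) (-1) = 1 := by
    rw [MulChar.one_apply]
    exact isUnit_one.neg
  have hsqe : (χ ^ 2) (-1) = 1 := by
    rw [MulChar.pow_apply' χ two_ne_zero, heven, one_pow]
  -- the fields
  obtain ⟨E1, hE1⟩ : ∃ E : IntermediateField ℚ W, E = IntermediateField.fixedField
    (Hs ρ M'' ψ κ 1) := ⟨_, rfl⟩
  obtain ⟨E2, hE2⟩ : ∃ E : IntermediateField ℚ W, E = IntermediateField.fixedField
    (Hs ρ M'' ψ κ 2) := ⟨_, rfl⟩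
  obtain ⟨F0, hF0⟩ : ∃ E : IntermediateField ℚ W, E = IntermediateField.fixedField
    (M.comap ρ) := ⟨_, rfl⟩
  obtain ⟨F1, hF1⟩ : ∃ E : IntermediateField ℚ W, E = IntermediateField.fixedField
    (M'.comap ρ) := ⟨_, rfl⟩
  rw [← hF0] at hS
  rw [← hF1]
  rw [← hF1, ← hF0, ← hE2] at hnu
  -- indicator of split primes
  obtain ⟨ind, hind⟩ : ∃ ind : IntermediateField ℚ W → Nat.Primes → ℝ,
    ∀ E p, ind E p = if 0 < aE E p then 1 else 0 := ⟨fun E p => if 0 < aE E p then 1 else 0,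
      fun _ _ => rfl⟩
  have hindb : ∀ E, BddC (ind E) := fun E => by
    have : ind E = fun p : Nat.Primes => if 0 < aE E p then (1 : ℝ) else 0 := funext (hind E)
    rw [this]
    exact bddC_ind _
  have hSc : ∀ (E : IntermediateField ℚ W) (η : ℝ), Sc E (fun _ => True) ℓ η = TSm ℓ η (ind E) :=
    fun E η => by
      have : ind E = fun p : Nat.Primes => if 0 < aE E p then (1 : ℝ) else 0 := funext (hind E)
      rw [this]
      exact Sc_eq E ℓ η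
  have hind1 : ∀ (E : IntermediateField ℚ W) (p : Nat.Primes), 0 < aE E p → ind E p = 1 :=
    fun E p h => by rw [hind, if_pos h]
  have hind0 : ∀ (E : IntermediateField ℚ W) (p : Nat.Primes), 0 ≤ ind E p := fun E p => by
    rw [hind]
    split_ifs
    · exact zero_le_one
    · exact le_rfl
  have haN : ∀ (E : IntermediateField ℚ W) (p : Nat.Primes), (aE E p : ℝ) ≤ N' * ind E p := by
    intro E p
    by_cases h : 0 < aE E p
    · rw [hind1 E p h, mul_one]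
      exact haE E p
    · have h1 : aE E p = 0 := by omega
      rw [h1, Nat.cast_zero]
      exact mul_nonneg hN0 (hind0 E p)
  -- the facts from the Frobenius elements
  have fα : ∀ p : Nat.Primes, 4 * (i1 χ p * (aE E1 p : ℝ)) ≤ (4 * N') * ind F0 p := by
    intro p
    by_cases hpq : (p : ℕ) = q
    · rw [i1_self hq p hpq, zero_mul, mul_zero]
      exact mul_nonneg (by positivity) (hind0 F0 p)
    · by_cases h1 : χ ((p : ℕ) : ZMod q) = 1 ∧ 0 < aE E1 p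
      · have h2 : 0 < aE F0 p := by
          have h3 := h1.2
          rw [hE1] at h3
          obtain ⟨Q, σ, hQ, hpQ, hσ, hfr⟩ := (frobIn_iff p.2).1 h3
          have h4 : (κ σ : ℂ) = 1 := by rw [hfrob p p.2 hpq Q σ hQ hpQ hfr, h1.1]
          rw [hF0]
          exact (frobIn_iff p.2).2 ⟨Q, σ, hQ, hpQ, grp1 ρ ψ κ hM hσ h4, hfr⟩
        rw [hind1 F0 p h2, mul_one]
        have h3 := haE E1 p
        have h4 := haE0 E1 p
        have h5 := i1_mem (χ := χ) p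
        nlinarith [mul_le_mul_of_nonneg_right h5.2 h4]
      · have h2 : i1 χ p * (aE E1 p : ℝ) = 0 := by
          by_cases h3 : χ ((p : ℕ) : ZMod q) = 1
          · have h4 : aE E1 p = 0 := by
              by_contra h
              exact h1 ⟨h3, Nat.pos_of_ne_zero h⟩
            rw [h4, Nat.cast_zero, mul_zero]
          · have h4 : i1 χ p = 0 := if_neg h3
            rw [h4, zero_mul]
        rw [h2, mul_zero]
        exact mul_nonneg (by positivity) (hind0 F0 p)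
  have fε : ∀ p : Nat.Primes, im χ p * ind F1 p ≤
      ind F0 p + (1 / 2) * (cf E1 (1 : DirichletCharacter ℂ q) p + cf E1 (χ ^ 2) p) := by
    intro p
    rw [id_beta E1 hq hord p]
    have h0 := haE0 E1 p
    have h5 := i1_mem (χ := χ) p
    have h6 := im_mem (χ := χ) p
    have h7 : 0 ≤ (i1 χ p + im χ p) * (aE E1 p : ℝ) := mul_nonneg (by linarith) h0
    have h8 := hind0 F0 p
    by_cases hpq : (p : ℕ) = q
    · rw [im_self hq p hpq, zero_mul]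
      rw [im_self hq p hpq] at h7
      linarith
    · by_cases h1 : χ ((p : ℕ) : ZMod q) = -1 ∧ 0 < aE F1 p
      · have h2 : im χ p = 1 := if_pos h1.1
        rw [hind1 F1 p h1.2, mul_one, h2]
        rw [h2] at h7
        have h3 := h1.2
        rw [hF1] at h3
        obtain ⟨Q, σ, hQ, hpQ, hσ, hfr⟩ := (frobIn_iff p.2).1 h3
        have h4 : (κ σ : ℂ) = -1 := by rw [hfrob p p.2 hpq Q σ hQ hpQ hfr, h1.1]
        rcases grp2 ρ ψ κ hM hM' hMM'' hσ h4 with h9 | h9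
        · have h10 : 0 < aE F0 p := by
            rw [hF0]
            exact (frobIn_iff p.2).2 ⟨Q, σ, hQ, hpQ, h9, hfr⟩
          rw [hind1 F0 p h10]
          linarith
        · have h10 : 0 < aE E1 p := by
            rw [hE1]
            exact (frobIn_iff p.2).2 ⟨Q, σ, hQ, hpQ, h9, hfr⟩
          have h11 : (1 : ℝ) ≤ (aE E1 p : ℝ) := by exact_mod_cast h10
          nlinarith [mul_nonneg h5.1 h0]
      · have h2 : im χ p * ind F1 p = 0 := by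
          by_cases h3 : χ ((p : ℕ) : ZMod q) = -1
          · have h4 : ¬ 0 < aE F1 p := fun h => h1 ⟨h3, h⟩
            rw [hind, if_neg h4, mul_zero]
          · have h4 : im χ p = 0 := if_neg h3
            rw [h4, zero_mul]
        rw [h2]
        linarith
  have fη : ∀ p : Nat.Primes, 2 * cf F1 (1 : DirichletCharacter ℂ q) p ≤
      cf E2 (1 : DirichletCharacter ℂ q) p + cf F0 (1 : DirichletCharacter ℂ q) p +
        2 * (i1 χ p * (aE F1 p : ℝ)) + (2 * N') * (im χ p * ind F1 p) +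
        (2 * N') * (if ((p : ℕ) : ℤ) ∣ discr W then 1 else 0) := by
    intro p
    have h5 := i1_mem (χ := χ) p
    have h6 := im_mem (χ := χ) p
    have h7 : 0 ≤ i1 χ p * (aE F1 p : ℝ) := mul_nonneg h5.1 (haE0 F1 p)
    have h8 : 0 ≤ (2 * N' : ℝ) * (im χ p * ind F1 p) :=
      mul_nonneg (by positivity) (mul_nonneg h6.1 (hind0 F1 p))
    have h9 : 0 ≤ (2 * N' : ℝ) * (if ((p : ℕ) : ℤ) ∣ discr W then 1 else 0) := by
      split_ifs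
      · positivity
      · simp
    by_cases hpq : (p : ℕ) = q
    · rw [cf_self hq F1 _ hpq, cf_self hq E2 _ hpq, cf_self hq F0 _ hpq]
      linarith
    · rw [cf_one_ne hq F1 hpq, cf_one_ne hq E2 hpq, cf_one_ne hq F0 hpq]
      have e1 := haE0 E2 p
      have e2 := haE0 F0 p
      rcases cases4 hq hord p hpq with ⟨a1, a2, a3⟩ | ⟨a1, a2, a3⟩ | ⟨a1, a2, a3, a4⟩
      · rw [a2, one_mul]
        linarith
      · have e3 := haN F1 p
        rw [a3, one_mul] at h8 ⊢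
        nlinarith
      · by_cases hD : ((p : ℕ) : ℤ) ∣ discr W
        · rw [if_pos hD, mul_one]
          have e3 := haE F1 p
          linarith
        · have e3 := hnu p p.2 hpq hD a1
          linarith
  -- the models
  obtain ⟨δ₀, d₀, -, hl₀, hd₀, h₀, hb₀⟩ := hZE E1 1 hone
  obtain ⟨rfl, hpos₀⟩ := h₀ rfl
  obtain ⟨δ₁, d₁, hδ₁, hl₁, hd₁, -, hb₁⟩ := hZE E1 χ heven
  obtain ⟨δ₂, d₂, hδ₂, hl₂, hd₂, -, hb₂⟩ := hZE E1 (χ ^ 2) hsqe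
  have hγ : δ₂ = 0 ∨ (0 : ℝ) ∈ d₂ := by
    refine del_nontriv hq κ hκ hfrob (Hs ρ M'' ψ κ 1) 2 (Or.inr rfl) ?_ hℓ1 hZ1 δ₂ d₂ hδ₂ hd₂ ?_
    · obtain ⟨h, hh⟩ := hψ2
      obtain ⟨σ, h1, h2⟩ := hnt1 (h : L ≃ₐ[ℚ] L) (ψ h)⁻¹ (by rw [inv_pow, hψ4, inv_one])
      refine ⟨σ, ⟨by rw [h1]; exact h.2, ?_⟩, ?_⟩
      · have h3 : (⟨ρ σ, by rw [h1]; exact h.2⟩ : M'') = h := Subtype.ext h1
        rw [h3, h2, pow_one, mul_inv_cancel]
      · rw [h2, inv_pow]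
        exact fun h4 => hh (inv_eq_one.1 h4)
    · rw [← hE1]
      exact hb₂
  have hNA : 0 ≤ (N' : ℝ) * A := mul_nonneg hN0 hA
  have hCCP : C ≤ CP := by linarith
  have hβ : ∀ ε : ℝ, 0 < ε → ε ≤ 1 →
      0 ≤ Del E1 (1 : DirichletCharacter ℂ q) ℓ ε + Del E1 (χ ^ 2) ℓ ε := by
    intro ε h1 h2
    rw [CStep.Del_eq, CStep.Del_eq, ← TSm_add (bddC_cf _ _) (bddC_cf _ _) hℓ1 h1 h2]
    refine TSm_nonneg hℓ1 h1 h2 fun p => ?_
    rw [id_beta E1 hq hord p]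
    have h5 := i1_mem (χ := χ) p
    have h6 := im_mem (χ := χ) p
    have h7 : 0 ≤ (i1 χ p + im χ p) * (aE E1 p : ℝ) := mul_nonneg (by linarith) (haE0 E1 p)
    linarith
  have hα : ∀ ε : ℝ, η ≤ ε → ε ≤ 1 →
      0 ≤ Del E1 (1 : DirichletCharacter ℂ q) ℓ ε + Del E1 (χ ^ 2) ℓ ε + 2 * Del E1 χ ℓ ε ∧
      Del E1 (1 : DirichletCharacter ℂ q) ℓ ε + Del E1 (χ ^ 2) ℓ ε + 2 * Del E1 χ ℓ ε ≤
        4 * N' * A := by
    intro ε h1 h2
    have h3 := hη.trans_le h1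
    have e : Del E1 (1 : DirichletCharacter ℂ q) ℓ ε + Del E1 (χ ^ 2) ℓ ε + 2 * Del E1 χ ℓ ε =
        TSm ℓ ε (fun p => 4 * (i1 χ p * (aE E1 p : ℝ))) := by
      rw [CStep.Del_eq, CStep.Del_eq, CStep.Del_eq, ← TSm_const_mul, ← TSm_add (bddC_cf _ _) (bddC_cf _ _) hℓ1 h3 h2,
        ← TSm_add ((bddC_cf _ _).add (bddC_cf _ _)) ((bddC_cf _ _).const_mul 2) hℓ1 h3 h2]
      congr 1
      funext p
      exact id_alpha E1 hq hord p
    rw [e]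
    refine ⟨TSm_nonneg hℓ1 h3 h2 fun p => ?_, ?_⟩
    · exact mul_nonneg (by norm_num) (mul_nonneg (i1_mem (χ := χ) p).1 (haE0 E1 p))
    · refine (TSm_mono ((bddC_i1.mul (bddC_aE E1)).const_mul 4) ((hindb F0).const_mul (4 * N'))
        hℓ1 h3 h2 fα).trans ?_
      rw [TSm_const_mul, ← hSc]
      exact mul_le_mul_of_nonneg_left ((CStep.Sc_anti F0 hℓ1 hη h1 h2).trans hS) (by positivity)
  have hδ : model 1 d₀ η + model δ₂ d₂ η ≤ C' := by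
    refine hpar d₀ d₁ d₂ δ₁ δ₂ (hl₀.trans hCCP) (hl₁.trans hCCP) (hl₂.trans hCCP)
      (fun x hx => ⟨hpos₀ x hx, (hd₀ x hx).2⟩) hδ₁ hd₁ hδ₂ hd₂ hγ η hη hη1 ?_ ?_ η le_rfl hη1
    · intro ε h1 h2
      have h3 := hη.trans_le h1
      have h4 := hβ ε h3 h2
      have h5 := (abs_le.1 (hb₀ ε h3 h2)).2
      have h6 := (abs_le.1 (hb₂ ε h3 h2)).2
      linarith
    · intro ε h1 h2
      have h3 := hη.trans_le h1
      obtain ⟨h4, h4'⟩ := hα ε h1 h2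
      have h5 := abs_le.1 (hb₀ ε h3 h2)
      have h6 := abs_le.1 (hb₂ ε h3 h2)
      have h7 := abs_le.1 (hb₁ ε h3 h2)
      rw [abs_le]
      constructor
      · linarith [h5.1, h5.2, h6.1, h6.2, h7.1, h7.2]
      · linarith [h5.1, h5.2, h6.1, h6.2, h7.1, h7.2]
  -- the primes with `χ(p) = -1`
  have hU : TSm ℓ η (fun p => im χ p * ind F1 p) ≤ A + (C' + 2 * C) / 2 := by
    have h1 := TSm_mono (ℓ := ℓ) (bddC_im.mul (hindb F1)) ((hindb F0).add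
      (((bddC_cf E1 (1 : DirichletCharacter ℂ q)).add (bddC_cf E1 (χ ^ 2))).const_mul (1 / 2)))
      hℓ1 hη hη1 fε
    rw [TSm_add (hindb F0)
      (((bddC_cf E1 (1 : DirichletCharacter ℂ q)).add (bddC_cf E1 (χ ^ 2))).const_mul (1 / 2))
      hℓ1 hη hη1, TSm_const_mul,
      TSm_add (bddC_cf E1 (1 : DirichletCharacter ℂ q)) (bddC_cf E1 (χ ^ 2)) hℓ1 hη hη1,
      ← hSc, ← CStep.Del_eq, ← CStep.Del_eq] at h1
    have h5 := (abs_le.1 (hb₀ η hη hη1)).2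
    have h6 := (abs_le.1 (hb₂ η hη hη1)).2
    linarith
  -- the primes with `χ(p) = 1`
  obtain ⟨δ₃, d₃, hδ₃, -, hd₃, -, hb₃⟩ := hZE F1 χ heven
  have hζ : δ₃ = 0 ∨ (0 : ℝ) ∈ d₃ := by
    refine del_nontriv hq κ hκ hfrob (M'.comap ρ) 1 (Or.inl rfl) ?_ hℓ1 hZ1 δ₃ d₃ hδ₃ hd₃ ?_
    · obtain ⟨σ, h1, h2⟩ := hnt1 1 (-1) (by norm_num)
      refine ⟨σ, by rw [Subgroup.mem_comap, h1]; exact M'.one_mem, ?_⟩
      rw [h2, pow_one]
      intro h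
      have h3 := congrArg Units.val h
      norm_num at h3
    · rw [← hF1, pow_one]
      exact hb₃
  have hV : TSm ℓ η (fun p => i1 χ p * (aE F1 p : ℝ)) ≤
      C + N' * (A + (C' + 2 * C) / 2) := by
    have h1 := model_nonpos' hδ₃ hd₃ hζ hη hη1
    have h2 := (abs_le.1 (hb₃ η hη hη1)).2
    have h3 : TSm ℓ η (fun p => i1 χ p * (aE F1 p : ℝ)) =
        Del F1 χ ℓ η + TSm ℓ η (fun p => im χ p * (aE F1 p : ℝ)) := by
      rw [CStep.Del_eq, ← TSm_add (bddC_cf _ _) (bddC_im.mul (bddC_aE F1)) hℓ1 hη hη1]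
      congr 1
      funext p
      rw [id_zeta F1 hq hord p]
      ring
    have h4 : TSm ℓ η (fun p => im χ p * (aE F1 p : ℝ)) ≤
        N' * TSm ℓ η (fun p => im χ p * ind F1 p) := by
      rw [← TSm_const_mul]
      refine TSm_mono (bddC_im.mul (bddC_aE F1)) ((bddC_im.mul (hindb F1)).const_mul _) hℓ1 hη hη1
        fun p => ?_
      have h5 := mul_le_mul_of_nonneg_left (haN F1 p) (im_mem (χ := χ) p).1
      linarith
    have h5 := mul_le_mul_of_nonneg_left hU hN0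
    linarith
  -- the main comparison
  obtain ⟨δ₄, d₄, -, -, hd₄, h₄, hb₄⟩ := hZE F1 1 hone
  obtain ⟨rfl, hpos₄⟩ := h₄ rfl
  obtain ⟨x, hx, hx1, hDx, hslope⟩ := quant
    (D := fun ε => Del F1 (1 : DirichletCharacter ℂ q) ℓ ε)
    (fun x hx => ⟨hpos₄ x hx, (hd₄ x hx).2⟩) hb₄ hη hη1
  have hL := hslope η le_rfl hx
  have hx0 := hη.trans_le hx
  have s1 := slope_le (D := fun ε => Del F1 (1 : DirichletCharacter ℂ q) ℓ ε) le_rfl hb₄ hη hx hx1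
  obtain ⟨δ₅, d₅, hδ₅, -, -, -, hb₅⟩ := hZE E2 1 hone
  have s2 := slope_le (D := fun ε => Del E2 (1 : DirichletCharacter ℂ q) ℓ ε) hδ₅ hb₅ hη hx hx1
  have b1 : BddC (cf E2 (1 : DirichletCharacter ℂ q)) := bddC_cf _ _
  have b2 : BddC (cf F0 (1 : DirichletCharacter ℂ q)) := bddC_cf _ _
  have b3 : BddC (fun p => 2 * (i1 χ p * (aE F1 p : ℝ))) :=
    (bddC_i1.mul (bddC_aE F1)).const_mul 2
  have b4 : BddC (fun p => (2 * N' : ℝ) * (im χ p * ind F1 p)) :=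
    (bddC_im.mul (hindb F1)).const_mul _
  have b5 : BddC (fun p : Nat.Primes =>
      (2 * N' : ℝ) * (if ((p : ℕ) : ℤ) ∣ discr W then (1 : ℝ) else 0)) :=
    (bddC_ind _).const_mul _
  have cmp := TSd_mono (ℓ := ℓ) ((bddC_cf F1 (1 : DirichletCharacter ℂ q)).const_mul 2)
    ((((b1.add b2).add b3).add b4).add b5) fη hℓ1 hη hx hx1
  have ex : ∀ ε : ℝ, 0 < ε → ε ≤ 1 → TSm ℓ ε (fun p =>
      cf E2 (1 : DirichletCharacter ℂ q) p + cf F0 (1 : DirichletCharacter ℂ q) p +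
        2 * (i1 χ p * (aE F1 p : ℝ)) + (2 * N') * (im χ p * ind F1 p) +
        (2 * N') * (if ((p : ℕ) : ℤ) ∣ discr W then 1 else 0)) =
      Del E2 (1 : DirichletCharacter ℂ q) ℓ ε + Del F0 (1 : DirichletCharacter ℂ q) ℓ ε +
        2 * TSm ℓ ε (fun p => i1 χ p * (aE F1 p : ℝ)) +
        (2 * N') * TSm ℓ ε (fun p => im χ p * ind F1 p) +
        (2 * N') * TSm ℓ ε (fun p => if ((p : ℕ) : ℤ) ∣ discr W then 1 else 0) := by
    intro ε h1 h2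
    rw [TSm_add (((b1.add b2).add b3).add b4) b5 hℓ1 h1 h2,
      TSm_add ((b1.add b2).add b3) b4 hℓ1 h1 h2, TSm_add (b1.add b2) b3 hℓ1 h1 h2,
      TSm_add b1 b2 hℓ1 h1 h2, TSm_const_mul, TSm_const_mul, TSm_const_mul]
    rfl
  rw [ex η hη hη1, ex x hx0 hx1, TSm_const_mul, TSm_const_mul, ← CStep.Del_eq, ← CStep.Del_eq] at cmp
  have n1 : 0 ≤ TSm ℓ x (fun p => i1 χ p * (aE F1 p : ℝ)) :=
    TSm_nonneg hℓ1 hx0 hx1 fun p => mul_nonneg (i1_mem p).1 (haE0 F1 p)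
  have n2 : 0 ≤ TSm ℓ x (fun p => im χ p * ind F1 p) :=
    TSm_nonneg hℓ1 hx0 hx1 fun p => mul_nonneg (im_mem p).1 (hind0 F1 p)
  have n3 : 0 ≤ TSm ℓ x (fun p : Nat.Primes =>
      if ((p : ℕ) : ℤ) ∣ discr W then (1 : ℝ) else 0) :=
    TSm_nonneg hℓ1 hx0 hx1 fun p => by
      split_ifs
      · exact zero_le_one
      · exact le_rfl
  have n4 : 0 ≤ Del F0 (1 : DirichletCharacter ℂ q) ℓ x := Del_one_nonneg hq F0 hℓ1 hx0 hx1
  have n5 : TSm ℓ η (fun p : Nat.Primes =>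
      if ((p : ℕ) : ℤ) ∣ discr W then (1 : ℝ) else 0) ≤ C₀ := by
    refine (TSm_dvd_le hℓ1 (discr_ne_zero W) hη hη1).trans ?_
    rw [div_le_iff₀ hℓ0]
    exact hWℓ
  have n6 : Del F0 (1 : DirichletCharacter ℂ q) ℓ η ≤ N' * A := by
    have h1 : Del F0 (1 : DirichletCharacter ℂ q) ℓ η ≤ N' * TSm ℓ η (ind F0) := by
      rw [CStep.Del_eq, ← TSm_const_mul]
      refine TSm_mono (bddC_cf _ _) ((hindb F0).const_mul _) hℓ1 hη hη1 fun p => ?_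
      by_cases hpq : (p : ℕ) = q
      · rw [cf_self hq F0 _ hpq]
        exact mul_nonneg hN0 (hind0 F0 p)
      · rw [cf_one_ne hq F0 hpq]
        exact haN F0 p
    rw [← hSc] at h1
    exact h1.trans (mul_le_mul_of_nonneg_left hS hN0)
  have m1 : (2 * N' : ℝ) * TSm ℓ η (fun p => im χ p * ind F1 p) ≤
      2 * N' * (A + (C' + 2 * C) / 2) := mul_le_mul_of_nonneg_left hU (by positivity)
  have m2 : (2 * N' : ℝ) * TSm ℓ η (fun p : Nat.Primes =>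
      if ((p : ℕ) : ℤ) ∣ discr W then (1 : ℝ) else 0) ≤ 2 * N' * C₀ :=
    mul_le_mul_of_nonneg_left n5 (by positivity)
  have m3 : 0 ≤ (2 * N' : ℝ) * TSm ℓ x (fun p => im χ p * ind F1 p) :=
    mul_nonneg (by positivity) n2
  have m4 : 0 ≤ (2 * N' : ℝ) * TSm ℓ x (fun p : Nat.Primes =>
      if ((p : ℕ) : ℤ) ∣ discr W then (1 : ℝ) else 0) := mul_nonneg (by positivity) n3
  have fin := CStep.Sc_le_Del F1 hq hℓ1 hη hη1
  linarith

end Core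

/-- the quartic step -/
theorem step4 (N : ℕ) (A : ℝ) : ∃ A' ℓ₁ : ℝ, ∀ (L : Type) [Field L] [NumberField L]
    [IsTotallyReal L] [IsGalois ℚ L], Module.finrank ℚ L ≤ N → ∀ ℓ : ℝ, ℓ₁ ≤ ℓ →
    Real.log |(discr L : ℝ)| ≤ A * ℓ → ∀ η : ℝ, 0 < η → η ≤ 1 →
    ∀ (M M' M'' : Subgroup (L ≃ₐ[ℚ] L)) (ψ : M'' →* ℂˣ), (∀ h : M'', ψ h ^ 4 = 1) →
    (∃ h : M'', ψ h ^ 2 ≠ 1) → (∀ h : M'', ψ h = 1 ↔ (h : L ≃ₐ[ℚ] L) ∈ M) →
    (∀ h : M'', ψ h ^ 2 = 1 ↔ (h : L ≃ₐ[ℚ] L) ∈ M') → M ≤ M' → M' ≤ M'' →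
    Sc (IntermediateField.fixedField M) (fun _ => True) ℓ η ≤ A →
    Sc (IntermediateField.fixedField M') (fun _ => True) ℓ η ≤ A' := by
  obtain ⟨Ca, hCa⟩ := exists_aux4 N
  set B : ℝ := |A| with hB
  set C₀ : ℝ := |Ca| * (1 + B) with hC₀
  obtain ⟨C, ℓ₀, hℓ₀, hZ'⟩ := exists_ZFormE (4 * N) C₀
  have hZ : ZFormE (4 * N) C₀ |C| ℓ₀ := by
    intro E _ _ _ hE q _ χ hχ ℓ hℓ h1 h2
    obtain ⟨δ, d, hδ, hlen, hd, h3, h4⟩ := hZ' E hE q χ hχ ℓ hℓ h1 h2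
    exact ⟨δ, d, hδ, hlen.trans (le_abs_self C), hd, h3,
      fun η hη hη1 => (h4 η hη hη1).trans (le_abs_self C)⟩
  obtain ⟨C', hpar⟩ := parity4 (4 * (4 * N : ℕ) * B + 4 * |C|)
  refine ⟨9 * |C| + ((4 * N : ℕ) * B + 2 * (|C| + (4 * N : ℕ) * (B + (C' + 2 * |C|) / 2)) +
    2 * (4 * N : ℕ) * (B + (C' + 2 * |C|) / 2) + 2 * (4 * N : ℕ) * C₀) + 1, ℓ₀, ?_⟩
  intro L _ _ _ _ hLN ℓ hℓ hLℓ η hη hη1 M M' M'' ψ hψ4 hψ2 hM hM' hMM' hMM'' hS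
  obtain ⟨q, χ, W, _, _, _, κ, hq, hord, heven, _, _, hWdeg, hqℓ, hWℓ, hinj, hκ, hfrob⟩ :=
    hCa L hLN
  have hL0 := log_discr_nonneg L
  have hLℓ' : 1 + Real.log |(discr L : ℝ)| ≤ (1 + B) * ℓ := by
    have h1 : A * ℓ ≤ B * ℓ := mul_le_mul_of_nonneg_right (le_abs_self _) (by linarith)
    linarith
  have hbound : Ca * (1 + Real.log |(discr L : ℝ)|) ≤ C₀ * ℓ := by
    calc Ca * (1 + Real.log |(discr L : ℝ)|) ≤ |Ca| * (1 + Real.log |(discr L : ℝ)|) :=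
          mul_le_mul_of_nonneg_right (le_abs_self _) (by linarith)
      _ ≤ |Ca| * ((1 + B) * ℓ) := mul_le_mul_of_nonneg_left hLℓ' (abs_nonneg _)
      _ = C₀ * ℓ := by rw [hC₀]; ring
  exact step4_core (A := B) ψ κ hZ hℓ₀ (abs_nonneg C) hpar hψ4 hψ2 hM hM' hMM' hMM'' hq hord heven
    hWdeg (by rw [hWdeg]; omega) le_rfl (abs_nonneg _) ℓ hℓ (hqℓ.trans hbound)
    (hWℓ.trans hbound) hinj hκ hfrob η hη hη1 (hS.trans (le_abs_self _))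

end Vale.Agent.P007.H11
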