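import Vale.Agent.P007.H11.QSlope

/-! Weighted sums over primes at two scales. -/

set_option autoImplicit false

open NumberField

namespace Vale.Agent.P007.H11

open Vale.Agent.P007 Vale.Agent.P007.Z Vale.Agent.P007.Z.CStep

variable {ℓ η η' : ℝ}

theorem TSm_anti {c : Nat.Primes → ℝ} (hb : BddC c) (hc : ∀ p, 0 ≤ c p) (hℓ : 1 ≤ ℓ) (hη : 0 < η)
    (h : η ≤ η') (h1 : η' ≤ 1) : TSm ℓ η' c ≤ TSm ℓ η c :=
  (hb.summable hℓ (hη.trans_le h) h1).tsum_le_tsum
    (fun p => mul_le_mul_of_nonneg_left (wt_anti hℓ hη h p p.2) (hc p))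
    (hb.summable hℓ hη (h.trans h1))

/-- monotonicity of the difference between two scales -/
theorem TSd_mono {c c' : Nat.Primes → ℝ} (hb : BddC c) (hb' : BddC c') (hc : ∀ p, c p ≤ c' p)
    (hℓ : 1 ≤ ℓ) (hη : 0 < η) (h : η ≤ η') (h1 : η' ≤ 1) :
    TSm ℓ η c - TSm ℓ η' c ≤ TSm ℓ η c' - TSm ℓ η' c' := by
  have h2 := TSm_anti (hb'.sub hb) (fun p => sub_nonneg.2 (hc p)) hℓ hη h h1
  rw [TSm_sub hb' hb hℓ (hη.trans_le h) h1, TSm_sub hb' hb hℓ hη (h.trans h1)] at h2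
  linarith

open Classical in
/-- the weight of the primes dividing a nonzero integer, uniform bound -/
theorem TSm_dvd_le (hℓ : 1 ≤ ℓ) {D : ℤ} (hD : D ≠ 0) (hη : 0 < η) (hη1 : η ≤ 1) :
    TSm ℓ η (fun p => if ((p : ℕ) : ℤ) ∣ D then 1 else 0) ≤ Real.log |(D : ℝ)| / ℓ := by
  have hℓ0 : 0 < ℓ := by linarith
  have hfin : {p : Nat.Primes | ((p : ℕ) : ℤ) ∣ D}.Finite := by
    refine Set.Finite.of_finite_image (f := fun p : Nat.Primes => (p : ℕ)) ?_
      (fun p _ p' _ h => Subtype.ext h)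
    refine (Set.finite_Iic D.natAbs).subset ?_
    rintro _ ⟨p, hp, rfl⟩
    exact Nat.le_of_dvd (Int.natAbs_pos.2 hD) (Int.natCast_dvd.1 hp)
  have h1 : TSm ℓ η (fun p => if ((p : ℕ) : ℤ) ∣ D then 1 else 0) =
      ∑ p ∈ hfin.toFinset, (if ((p : ℕ) : ℤ) ∣ D then (1 : ℝ) else 0) * wt ℓ η p := by
    refine tsum_eq_sum fun p hp => ?_
    have hp' : ¬ ((p : ℕ) : ℤ) ∣ D := by simpa only [Set.Finite.mem_toFinset,
                                           Set.mem_ofPred_eq] using hp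
    beta_reduce
    rw [if_neg hp', zero_mul]
  rw [h1, le_div_iff₀ hℓ0, Finset.sum_mul]
  have h2 : ∀ p ∈ hfin.toFinset, (if ((p : ℕ) : ℤ) ∣ D then (1 : ℝ) else 0) * wt ℓ η p * ℓ ≤
      Real.log ((p : ℕ) : ℝ) := by
    intro p hp
    have hp' : ((p : ℕ) : ℤ) ∣ D := by simpa only [Set.Finite.mem_toFinset,
                                         Set.mem_ofPred_eq] using hp
    rw [if_pos hp', one_mul]
    have h3 := (wt_nonneg hℓ hη hη1 p p.2).2
    have hp1 : (1 : ℝ) ≤ ((p : ℕ) : ℝ) := by exact_mod_cast p.2.one_lt.le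
    have h4 : Real.log ((p : ℕ) : ℝ) / (((p : ℕ) : ℝ) * ℓ) ≤ Real.log ((p : ℕ) : ℝ) / ℓ := by
      refine div_le_div_of_nonneg_left (Real.log_nonneg hp1) hℓ0 ?_
      nlinarith
    calc wt ℓ η p * ℓ ≤ Real.log ((p : ℕ) : ℝ) / ℓ * ℓ :=
          mul_le_mul_of_nonneg_right (h3.trans h4) hℓ0.le
      _ = Real.log ((p : ℕ) : ℝ) := by field_simp
  refine (Finset.sum_le_sum h2).trans ?_
  have h5 : ∏ p ∈ hfin.toFinset, (p : ℕ) ∣ D.natAbs := by
    have h6 : ∏ p ∈ hfin.toFinset, (p : ℕ) = ∏ q ∈ hfin.toFinset.image (fun p : Nat.Primes => (p : ℕ)), q := by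
      rw [Finset.prod_image]
      intro p _ p' _ h
      exact Subtype.ext h
    rw [h6]
    refine Finset.prod_primes_dvd _ ?_ ?_
    · intro q hq
      obtain ⟨p, -, rfl⟩ := Finset.mem_image.1 hq
      exact p.2.prime
    · intro q hq
      obtain ⟨p, hp, rfl⟩ := Finset.mem_image.1 hq
      have hp' : ((p : ℕ) : ℤ) ∣ D := by simpa only [Set.Finite.mem_toFinset,
                                           Set.mem_ofPred_eq] using hp
      exact Int.natCast_dvd.1 hp'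
  have h7 := Nat.le_of_dvd (Int.natAbs_pos.2 hD) h5
  have h8 : (∏ p ∈ hfin.toFinset, ((p : ℕ) : ℝ)) ≤ |(D : ℝ)| := by
    have h9 : (((∏ p ∈ hfin.toFinset, (p : ℕ) : ℕ)) : ℝ) ≤ ((D.natAbs : ℕ) : ℝ) := by
      exact_mod_cast h7
    rw [Nat.cast_prod] at h9
    rwa [Nat.cast_natAbs, Int.cast_abs] at h9
  rw [← Real.log_prod (fun p _ => by
    have := p.2.pos
    positivity)]
  refine Real.log_le_log (Finset.prod_pos fun p _ => ?_) h8
  exact_mod_cast p.2.pos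

end Vale.Agent.P007.H11
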