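import Vale.Agent.P007.H11.QStep4
import Vale.Agent.P007.H11.QTop0

/-! No exceptional zeros for the fields whose quadratic subfields have bounded discriminants. -/

set_option autoImplicit false

open NumberField

namespace Vale.Agent.P007.H11

open Vale.Agent.P007 Vale.Agent.P007.Z

/-- Totally real fields of degree `n` all of whose quadratic subfields have discriminant at most
`B` have no exceptional zero. -/
theorem not_exceptional_quad (n : ℕ) (B : ℝ) :
    ∃ C ℓ₀ : ℝ, ∀ (K : Type) [Field K] [NumberField K] [IsTotallyReal K],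
      Module.finrank ℚ K = n →
      (∀ E : IntermediateField ℚ K, Module.finrank ℚ E = 2 → |(discr E : ℝ)| ≤ B) →
      ∀ ℓ : ℝ, ℓ₀ ≤ ℓ → Real.log |(discr K : ℝ)| ≤ ℓ → ∀ η : ℝ, 0 < η → η ≤ 1 →
      -Real.log η - C ≤ Del K (1 : DirichletCharacter ℂ 1) ℓ η :=
  not_exceptional_quad_of_step4 (fun N A => step4 N A) n B

end Vale.Agent.P007.H11
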