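import Vale.Agent.P007.H11.QGrp2

/-! Block R4a: the compositum of two different real quadratic fields. -/

set_option autoImplicit false

open NumberField

namespace Vale.Agent.P007.H11

open Vale.Agent.P007 Vale.Agent.P007.Z

/-- a Galois field with a real embedding is totally real -/
theorem totallyReal_of_real (F : Type) [Field F] [NumberField F] [IsGalois ℚ F] (ι : F →+* ℝ) :
    IsTotallyReal F := by
  rw [isTotallyReal_iff]
  intro w
  rw [InfinitePlace.isReal_iff, ComplexEmbedding.isReal_iff]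
  obtain ⟨σ, hσ⟩ := ComplexEmbedding.exists_comp_symm_eq_of_comp_eq (k := ℚ)
    ((algebraMap ℝ ℂ).comp ι) w.embedding (Subsingleton.elim _ _)
  apply RingHom.ext
  intro x
  rw [ComplexEmbedding.conjugate_coe_eq, ← hσ]
  exact Complex.conj_ofReal _

theorem normal_quad {L : Type} [Field L] [NumberField L] (A : IntermediateField ℚ L)
    (h : Module.finrank ℚ A = 2) : @Normal ℚ A _ _ (IntermediateField.algebra' A) := by
  have h1 : Algebra.IsQuadraticExtension ℚ A := ⟨h⟩
  have h2 : Normal ℚ A := inferInstance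
  have h3 : (DivisionRing.toRatAlgebra : Algebra ℚ A) = IntermediateField.algebra' A :=
    Subsingleton.elim _ _
  rw [← h3]
  exact h2

theorem range_le_adjoin {L E : Type} [Field L] [NumberField L] [Field E] [NumberField E]
    (i : E →+* L) (θ : E) (hθ : IntermediateField.adjoin ℚ {θ} = ⊤) {T : Set L} (hT : i θ ∈ T) :
    i.fieldRange ≤ (IntermediateField.adjoin ℚ T).toSubfield := by
  rintro _ ⟨x, rfl⟩
  have h1 : x ∈ IntermediateField.adjoin ℚ {θ} := by
    rw [hθ]
    exact IntermediateField.mem_top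
  have h2 : i.toRatAlgHom x ∈ IntermediateField.map i.toRatAlgHom (IntermediateField.adjoin ℚ {θ}) :=
    ⟨x, h1, rfl⟩
  rw [IntermediateField.adjoin_map] at h2
  refine IntermediateField.adjoin.mono ℚ _ _ ?_ h2
  rintro _ ⟨y, rfl, rfl⟩
  exact hT

theorem comp_aux (L : Type) [Field L] [NumberField L] (ι : L →+* ℝ) {E E' : Type} [Field E]
    [Field E'] [NumberField E] [NumberField E'] [IsTotallyReal E] [IsTotallyReal E']
    (hE : Module.finrank ℚ E = 2) (hE' : Module.finrank ℚ E' = 2) (i : E →+* L) (i' : E' →+* L)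
    (hne : i.fieldRange ≠ i'.fieldRange)
    (hgen : ∀ F : Subfield L, i.fieldRange ≤ F → i'.fieldRange ≤ F → F = ⊤) :
    IsTotallyReal L ∧ IsGalois ℚ L ∧ Module.finrank ℚ L = 4 ∧
      Real.log |(discr L : ℝ)| ≤
        848 * (1 + Real.log |(discr E : ℝ)| + Real.log |(discr E' : ℝ)|) ∧
      ∃ M₁ M₂ M₃ : Subgroup (L ≃ₐ[ℚ] L), V4 ⊥ M₁ M₂ M₃ ⊤ ∧
        Nonempty (E ≃+* IntermediateField.fixedField M₁) ∧
        Nonempty (E' ≃+* IntermediateField.fixedField M₂) := by
  set A : IntermediateField ℚ L := i.toRatAlgHom.fieldRange with hA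
  set A' : IntermediateField ℚ L := i'.toRatAlgHom.fieldRange with hA'
  have hmA : ∀ x, x ∈ A ↔ x ∈ i.fieldRange := fun x => Iff.rfl
  have hmA' : ∀ x, x ∈ A' ↔ x ∈ i'.fieldRange := fun x => Iff.rfl
  have hAA : A ≠ A' := by
    intro h
    apply hne
    ext x
    rw [← hmA, ← hmA', h]
  have hsup : A ⊔ A' = ⊤ := by
    have h1 := hgen (A ⊔ A').toSubfield
      (fun x hx => (le_sup_left : A ≤ A ⊔ A') ((hmA x).2 hx))
      (fun x hx => (le_sup_right : A' ≤ A ⊔ A') ((hmA' x).2 hx))
    rw [eq_top_iff]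
    intro x _
    have h2 : x ∈ (⊤ : Subfield L) := Subfield.mem_top x
    rw [← h1] at h2
    exact h2
  let e : E ≃+* A := RingEquiv.ofBijective (i.codRestrict A fun x => ⟨x, rfl⟩)
    ⟨fun x y h => i.injective (congrArg Subtype.val h), fun ⟨y, x, hx⟩ => ⟨x, Subtype.ext hx⟩⟩
  let e' : E' ≃+* A' := RingEquiv.ofBijective (i'.codRestrict A' fun x => ⟨x, rfl⟩)
    ⟨fun x y h => i'.injective (congrArg Subtype.val h), fun ⟨y, x, hx⟩ => ⟨x, Subtype.ext hx⟩⟩
  have hfA : Module.finrank ℚ A = 2 := by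
    rw [← hE]
    exact (LinearEquiv.finrank_eq e.toRatAlgEquiv.toLinearEquiv).symm
  have hfA' : Module.finrank ℚ A' = 2 := by
    rw [← hE']
    exact (LinearEquiv.finrank_eq e'.toRatAlgEquiv.toLinearEquiv).symm
  have hnA := normal_quad A hfA
  have hnA' := normal_quad A' hfA'
  have hnorm : Normal ℚ L := by
    have h1 := IntermediateField.normal_sup ℚ L A A'
    rw [hsup] at h1
    exact Normal.of_algEquiv (h := h1) IntermediateField.topEquiv
  have hgal : IsGalois ℚ L := ⟨⟩
  have htr : IsTotallyReal L := totallyReal_of_real L ι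
  have hV := Grp2.v4_of_two (A := A.fixingSubgroup) (A' := A'.fixingSubgroup) (B := ⊤) le_top le_top
    (by rw [Subgroup.relIndex_top_right, ← IntermediateField.finrank_eq_fixingSubgroup_index, hfA])
    (by rw [Subgroup.relIndex_top_right, ← IntermediateField.finrank_eq_fixingSubgroup_index, hfA'])
    (fun h => hAA (by
      rw [← IsGalois.fixedField_fixingSubgroup A, h, IsGalois.fixedField_fixingSubgroup A']))
  rw [← IntermediateField.fixingSubgroup_sup, hsup, IntermediateField.fixingSubgroup_top] at hV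
  have hdeg : Module.finrank ℚ L = 4 := by
    rw [← IsGalois.card_aut_eq_finrank]
    have h1 := hV.card'
    rw [Subgroup.card_top, Subgroup.card_bot] at h1
    exact h1
  refine ⟨htr, hgal, hdeg, ?_, _, _, _, hV, ?_, ?_⟩
  · obtain ⟨θ, hθ, hbound⟩ := zc_theta E
    obtain ⟨θ', hθ', hbound'⟩ := zc_theta E'
    set d : ℝ := |(discr E : ℝ)| with hd0
    set d' : ℝ := |(discr E' : ℝ)| with hd0'
    have hd1 : 1 ≤ d := by
      rw [hd0]
      exact_mod_cast Int.one_le_abs (discr_ne_zero E)
    have hd1' : 1 ≤ d' := by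
      rw [hd0']
      exact_mod_cast Int.one_le_abs (discr_ne_zero E')
    have hs : ∀ x : ℝ, 1 ≤ x → Real.sqrt x * 2 ^ 2 + 1 ≤ 5 * x := by
      intro x hx
      have h2 : Real.sqrt x ≤ x := by
        rw [Real.sqrt_le_left (by linarith only [hx])]
        nlinarith only [hx]
      linarith only [h2, hx]
    rw [hE] at hbound
    rw [hE'] at hbound'
    have hdd : 1 ≤ d * d' := one_le_mul_of_one_le_of_one_le hd1 hd1'
    have hB1 : 1 ≤ 25 * (d * d') := by linarith only [hdd]
    have hle : 5 * d ≤ 25 * (d * d') := by nlinarith only [hd1, hd1']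
    have hle' : 5 * d' ≤ 25 * (d * d') := by nlinarith only [hd1, hd1']
    have hadj : Algebra.adjoin ℚ ({i θ, i' θ'} : Set L) = ⊤ := by
      have h1 : IntermediateField.adjoin ℚ ({i θ, i' θ'} : Set L) = ⊤ := by
        have h2 := hgen (IntermediateField.adjoin ℚ ({i θ, i' θ'} : Set L)).toSubfield
          (range_le_adjoin i (θ : E) hθ (by simp)) (range_le_adjoin i' (θ' : E') hθ' (by simp))
        rw [eq_top_iff]
        intro x _
        have h3 : x ∈ (⊤ : Subfield L) := Subfield.mem_top x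
        rw [← h2] at h3
        exact h3
      rw [← IntermediateField.adjoin_toSubalgebra_of_isAlgebraic
        (fun x _ => Algebra.IsAlgebraic.isAlgebraic x), h1, IntermediateField.top_toSubalgebra]
    have h1 := zc_discr (L := L) ({i θ, i' θ'} : Set L)
      (by
        rintro x (rfl | rfl)
        · exact (θ.isIntegral_coe).map i.toIntAlgHom
        · exact (θ'.isIntegral_coe).map i'.toIntAlgHom) hB1
      (by
        rintro x (rfl | rfl) φ
        · exact (hbound (φ.comp i)).trans ((hs d hd1).trans hle)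
        · exact (hbound' (φ.comp i')).trans ((hs d' hd1').trans hle')) hadj
    rw [hdeg] at h1
    have hdL : 0 < |(discr L : ℝ)| := by
      rw [abs_pos]
      exact_mod_cast discr_ne_zero L
    have h2 := Real.log_le_log hdL h1
    have h3 : Real.log (((Nat.factorial 4 : ℕ) * ((25 * (d * d')) ^ 4) ^ 4 : ℝ) ^ 2) =
        2 * (Real.log 24 + 16 * (Real.log 25 + (Real.log d + Real.log d'))) := by
      have hd0 : d ≠ 0 := by linarith only [hd1]
      have hd0' : d' ≠ 0 := by linarith only [hd1']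
      have h4 : ((Nat.factorial 4 : ℕ) : ℝ) = 24 := by norm_num [Nat.factorial]
      rw [h4, Real.log_pow, Real.log_mul (by norm_num) (by positivity), ← pow_mul, Real.log_pow,
        Real.log_mul (by norm_num) (by positivity), Real.log_mul hd0 hd0']
      push_cast
      ring
    rw [h3] at h2
    have h5 : Real.log 24 ≤ 24 := Real.log_le_self (by norm_num)
    have h6 : Real.log 25 ≤ 25 := Real.log_le_self (by norm_num)
    have h7 : 0 ≤ Real.log d := Real.log_nonneg hd1
    have h8 : 0 ≤ Real.log d' := Real.log_nonneg hd1'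
    linarith only [h2, h5, h6, h7, h8]
  · rw [IsGalois.fixedField_fixingSubgroup]
    exact ⟨e⟩
  · rw [IsGalois.fixedField_fixingSubgroup]
    exact ⟨e'⟩

/-- **R4a** -/
theorem exists_compositum : ∃ C : ℝ, ∀ (E E' : IntermediateField ℚ ℝ) [NumberField E] [NumberField E'],
    Module.finrank ℚ E = 2 → Module.finrank ℚ E' = 2 → E ≠ E' →
    ∃ (L : Type) (_ : Field L) (_ : NumberField L), IsTotallyReal L ∧ IsGalois ℚ L ∧
      Module.finrank ℚ L = 4 ∧
      Real.log |(discr L : ℝ)| ≤
        C * (1 + Real.log |(discr E : ℝ)| + Real.log |(discr E' : ℝ)|) ∧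
      ∃ M₁ M₂ M₃ : Subgroup (L ≃ₐ[ℚ] L), V4 ⊥ M₁ M₂ M₃ ⊤ ∧
        Nonempty (E ≃+* IntermediateField.fixedField M₁) ∧
        Nonempty (E' ≃+* IntermediateField.fixedField M₂) := by
  refine ⟨848, fun E E' _ _ hE hE' hne => ?_⟩
  have hfd : FiniteDimensional ℚ E := inferInstance
  have hfd' : FiniteDimensional ℚ E' := inferInstance
  have hL : NumberField (E ⊔ E' : IntermediateField ℚ ℝ) :=
    { to_charZero := inferInstance, to_finiteDimensional := inferInstance }
  have hq : Algebra.IsQuadraticExtension ℚ E := ⟨hE⟩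
  have hq' : Algebra.IsQuadraticExtension ℚ E' := ⟨hE'⟩
  have hr : IsTotallyReal E := totallyReal_of_real E E.val.toRingHom
  have hr' : IsTotallyReal E' := totallyReal_of_real E' E'.val.toRingHom
  refine ⟨(E ⊔ E' : IntermediateField ℚ ℝ), inferInstance, hL, ?_⟩
  refine comp_aux (E ⊔ E' : IntermediateField ℚ ℝ) (E ⊔ E').val.toRingHom hE hE'
    (IntermediateField.inclusion (le_sup_left : E ≤ E ⊔ E')).toRingHom
    (IntermediateField.inclusion (le_sup_right : E' ≤ E ⊔ E')).toRingHom ?_ ?_
  · intro h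
    apply hne
    ext x
    constructor
    · intro hx
      have h1 : (IntermediateField.inclusion (le_sup_left : E ≤ E ⊔ E')).toRingHom ⟨x, hx⟩ ∈
          (IntermediateField.inclusion (le_sup_left : E ≤ E ⊔ E')).toRingHom.fieldRange :=
        ⟨_, rfl⟩
      rw [h] at h1
      obtain ⟨y, hy⟩ := h1
      have h2 : (y : ℝ) = x := congrArg Subtype.val hy
      rw [← h2]
      exact y.2
    · intro hx
      have h1 : (IntermediateField.inclusion (le_sup_right : E' ≤ E ⊔ E')).toRingHom ⟨x, hx⟩ ∈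
          (IntermediateField.inclusion (le_sup_right : E' ≤ E ⊔ E')).toRingHom.fieldRange :=
        ⟨_, rfl⟩
      rw [← h] at h1
      obtain ⟨y, hy⟩ := h1
      have h2 : (y : ℝ) = x := congrArg Subtype.val hy
      rw [← h2]
      exact y.2
  · intro F h1 h2
    let G : IntermediateField ℚ ℝ := (F.map (E ⊔ E').val.toRingHom).toIntermediateField
      (fun q => by
        rw [eq_ratCast]
        exact SubfieldClass.ratCast_mem _ q)
    have hEG : E ≤ G := fun x hx => ⟨_, h1 ⟨⟨x, hx⟩, rfl⟩, rfl⟩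
    have hEG' : E' ≤ G := fun x hx => ⟨_, h2 ⟨⟨x, hx⟩, rfl⟩, rfl⟩
    have hG : E ⊔ E' ≤ G := sup_le hEG hEG'
    rw [eq_top_iff]
    rintro z -
    obtain ⟨w, hw, hwz⟩ := hG z.2
    have h3 : w = z := Subtype.ext hwz
    rw [← h3]
    exact hw

end Vale.Agent.P007.H11
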