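import Vale.Agent.P007.MathlibUsed

/-! Quadratic fields without exceptional zeros. -/

set_option autoImplicit false

open NumberField

namespace Vale.Agent.P007.F

/-- The zeta function of `E` has no exceptional zero on the scale `log D`, with constant `c`: the
residue at `1` is at least `c` times the value of `(s - 1) * zeta_E(s)` at `s = 1 + 1 / log D`. -/
def Reg (c : ℝ) (E : Type) [Field E] [NumberField E] (D : ℝ) : Prop :=
  c * ‖dedekindZeta E ((1 + 1 / Real.log D : ℝ) : ℂ)‖ ≤ dedekindZeta_residue E * Real.log D

end Vale.Agent.P007.F
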