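import Vale.Agent.P007.H11.QV4
import Vale.Agent.P007.H11.QQuad

/-!
Landau-Page for real quadratic fields: of two different real quadratic fields at most one has
an exceptional zero at a given scale.
-/

set_option autoImplicit false

open NumberField

namespace Vale.Agent.P007.H11

open Vale.Agent.P007 Vale.Agent.P007.Z Vale.Agent.P007.Z.FinalAux

/-- **[R4b]** Landau-Page, from the composite of two real quadratic fields. -/
theorem landau_page_of
    (hcomp : ∃ C : ℝ, ∀ (E E' : IntermediateField ℚ ℝ) [NumberField E] [NumberField E'],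
      Module.finrank ℚ E = 2 → Module.finrank ℚ E' = 2 → E ≠ E' →
      ∃ (L : Type) (_ : Field L) (_ : NumberField L), IsTotallyReal L ∧ IsGalois ℚ L ∧
        Module.finrank ℚ L = 4 ∧
        Real.log |(discr L : ℝ)| ≤
          C * (1 + Real.log |(discr E : ℝ)| + Real.log |(discr E' : ℝ)|) ∧
        ∃ M₁ M₂ M₃ : Subgroup (L ≃ₐ[ℚ] L), V4 ⊥ M₁ M₂ M₃ ⊤ ∧
          Nonempty (E ≃+* IntermediateField.fixedField M₁) ∧
          Nonempty (E' ≃+* IntermediateField.fixedField M₂)) :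
    ∃ B ℓ₀ : ℝ, ∀ (E E' : IntermediateField ℚ ℝ) [NumberField E] [NumberField E'],
      Module.finrank ℚ E = 2 → Module.finrank ℚ E' = 2 → E ≠ E' →
      ∀ ℓ : ℝ, ℓ₀ ≤ ℓ → Real.log |(discr E : ℝ)| ≤ ℓ → Real.log |(discr E' : ℝ)| ≤ ℓ →
      (∀ η : ℝ, 0 < η → η ≤ 1 →
        -Real.log η - B ≤ Del E (1 : DirichletCharacter ℂ 1) ℓ η) ∨
      (∀ η : ℝ, 0 < η → η ≤ 1 →
        -Real.log η - B ≤ Del E' (1 : DirichletCharacter ℂ 1) ℓ η) := by
  obtain ⟨C, hC⟩ := hcomp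
  obtain ⟨CZ, ℓZ, hℓZ, hZ⟩ := exists_ZForm 4 (3 * |C|)
  obtain ⟨CQ, hQ⟩ := Sc_rat
  obtain ⟨A', ℓ₁, hv⟩ := v4b 4 (max (3 * |C|) CZ)
  refine ⟨|CZ| + |CZ| * (|A'| + |CQ|), max ℓZ ℓ₁, ?_⟩
  intro E E' _ _ hE hE' hne ℓ hℓ hd hd'
  have hℓZ' : ℓZ ≤ ℓ := (le_max_left _ _).trans hℓ
  have hℓ1 : 1 ≤ ℓ := hℓZ.trans hℓZ'
  obtain ⟨L, iF, iN, hTR, hG, hfr, hdisc, M₁, M₂, M₃, hV, ⟨e₁⟩, ⟨e₂⟩⟩ := hC E E' hE hE' hne
  have hLd : Real.log |(discr L : ℝ)| ≤ 3 * |C| * ℓ := by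
    have hnn : ∀ (F : Type) [Field F] [NumberField F], 0 ≤ Real.log |(discr F : ℝ)| := by
      intro F _ _
      apply Real.log_nonneg
      have h2 : (1 : ℤ) ≤ |discr F| := Int.one_le_abs (discr_ne_zero F)
      have h3 : ((1 : ℤ) : ℝ) ≤ ((|discr F| : ℤ) : ℝ) := by exact_mod_cast h2
      rw [Int.cast_abs] at h3
      simpa only [Int.cast_one] using h3
    have h0 := hnn E
    have h0' := hnn E'
    have h1 : C * (1 + Real.log |(discr E : ℝ)| + Real.log |(discr E' : ℝ)|) ≤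
        |C| * (1 + Real.log |(discr E : ℝ)| + Real.log |(discr E' : ℝ)|) :=
      mul_le_mul_of_nonneg_right (le_abs_self _) (by linarith)
    have h2 : |C| * (1 + Real.log |(discr E : ℝ)| + Real.log |(discr E' : ℝ)|) ≤
        |C| * (3 * ℓ) :=
      mul_le_mul_of_nonneg_left (by linarith) (abs_nonneg _)
    linarith
  have hN : Module.finrank ℚ L ≤ 4 := hfr.le
  -- the models
  have key : ∀ H : Subgroup (L ≃ₐ[ℚ] L), ∃ (x : ℝ), 0 < x ∧ x ≤ 1 ∧
      (∀ η : ℝ, x ≤ η → η ≤ 1 →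
        Sc (IntermediateField.fixedField H) (fun _ => True) ℓ η ≤ CZ) ∧
      (∀ R : ℝ, 0 ≤ R → -R ≤ Real.log x → ∀ η : ℝ, 0 < η → η ≤ 1 →
        -Real.log η - (|CZ| + |CZ| * R) ≤
          Del (IntermediateField.fixedField H) (1 : DirichletCharacter ℂ 1) ℓ η) := by
    intro H
    obtain ⟨δ, d, -, hlen, hdd, h1, h2⟩ := hZ (IntermediateField.fixedField H)
      ((CStep.finrank_sub_le L _).trans hN) 1 1 (by rw [orderOf_one]; exact odd_one) ℓ hℓZ'
      ((CStep.log_discr_le L _).trans hLd) (by rw [Nat.cast_one, Real.log_one]; positivity)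
    obtain ⟨rfl, hpos⟩ := h1 rfl
    have hd1 : ∀ x ∈ d, 0 < x ∧ x ≤ 1 := fun x hx => ⟨hpos x hx, (hdd x hx).2⟩
    obtain ⟨x, hx0, hx1, hmin, hx⟩ := exists_min_entry d hd1
    refine ⟨x, hx0, hx1, ?_, ?_⟩
    · intro η hxη hη1
      have hη0 : 0 < η := hx0.trans_le hxη
      have h3 := model_above hd1 hx hη0 hη1 hxη
      have h4 := (abs_le.1 (h2 η hη0 hη1)).2
      have h5 := FinalAux.Sc_le_Del (IntermediateField.fixedField H) hℓ1 hη0 hη1
      linarith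
    · intro R hR hRx η hη0 hη1
      have h3 := model_ge d x η hx0 hmin
      have h4 := (abs_le.1 (h2 η hη0 hη1)).1
      have hlen0 : (0 : ℝ) ≤ (d.length : ℝ) := Nat.cast_nonneg _
      have h6 : (d.length : ℝ) * (-R) ≤ (d.length : ℝ) * Real.log x :=
        mul_le_mul_of_nonneg_left hRx hlen0
      have h7 : (d.length : ℝ) * R ≤ |CZ| * R :=
        mul_le_mul_of_nonneg_right (hlen.trans (le_abs_self _)) hR
      have h8 := le_abs_self CZ
      linarith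
  obtain ⟨x₁, a0, a1, aS, aD⟩ := key M₁
  obtain ⟨x₂, b0, b1, bS, bD⟩ := key M₂
  have hη0 : 0 < max x₁ x₂ := lt_max_of_lt_left a0
  have hη1 : max x₁ x₂ ≤ 1 := max_le a1 b1
  have hS := hv L hN ℓ ((le_max_right _ _).trans hℓ)
    (hLd.trans (mul_le_mul_of_nonneg_right (le_max_left _ _) (by linarith)))
    (max x₁ x₂) hη0 hη1 ⊥ M₁ M₂ M₃ ⊤ hV
    ((aS _ (le_max_left _ _) hη1).trans (le_max_right _ _))
    ((bS _ (le_max_right _ _) hη1).trans (le_max_right _ _))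
  have htop : ∑' p : Nat.Primes, wt ℓ (max x₁ x₂) p ≤ A' := by
    refine le_trans (le_of_eq ?_) hS
    rw [FinalAux.Sc_eq]
    congr 1
    funext p
    simp only [tm, aE_top_pos L p p.2, if_true]
  have hQm := hQ ℓ hℓ1 _ hη0 hη1
  have hlog : -(|A'| + |CQ|) ≤ Real.log (max x₁ x₂) := by
    have g1 := le_abs_self CQ
    have g2 := le_abs_self A'
    linarith
  have hR : 0 ≤ |A'| + |CQ| := by positivity
  rcases le_total x₂ x₁ with h | h
  · left
    intro η hη hη'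
    rw [Del_congr (fun m => aE_congr _ _ e₁ m)]
    rw [max_eq_left h] at hlog
    exact aD _ hR hlog η hη hη'
  · right
    intro η hη hη'
    rw [Del_congr (fun m => aE_congr _ _ e₂ m)]
    rw [max_eq_right h] at hlog
    exact bD _ hR hlog η hη hη'

end Vale.Agent.P007.H11
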