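import Vale.Agent.P007.H11.RSparse
import Vale.Agent.P007.H11.RLP
import Vale.Agent.P007.H11.RComp
import Vale.Agent.P007.H11.RDel

/-! The quadratic fields outside a sparse set have no exceptional zero. -/

set_option autoImplicit false

open NumberField

namespace Vale.Agent.P007.H11

open Vale.Agent.P007 Vale.Agent.P007.Z
open Vale.Agent.P007.F (Reg)

theorem sparse_set (M : ℝ) (hM : 1 ≤ M) : ∃ (S : Set ℕ) (c : ℝ), 0 < c ∧
    (∀ d ∈ S, ∀ d' ∈ S, d < d' → (d : ℝ) ^ M < d') ∧
    ∀ (E : Type) [Field E] [NumberField E] [IsTotallyReal E], Module.finrank ℚ E = 2 →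
      (discr E).natAbs ∉ S → ∀ D : ℝ, 3 ≤ D → |(discr E : ℝ)| ≤ D → Reg c E D :=
  sparse_set_of (landau_page_of exists_compositum) (fun c hc => reg_del c hc) M hM

end Vale.Agent.P007.H11
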