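import Vale.Agent.P007.H11.QQuad
import Vale.Agent.P007.H11.RDefs

/-! Quadratic fields without exceptional zeros: the residue and the sums over primes. -/

set_option autoImplicit false

open NumberField

namespace Vale.Agent.P007.H11

open Vale.Agent.P007 Vale.Agent.P007.Z
open Vale.Agent.P007.F (Reg)

theorem zeta_pos (E : Type) [Field E] [NumberField E] {s : ℝ} (hs : 1 < s) :
    0 < ‖dedekindZeta E (s : ℂ)‖ := by
  rw [norm_pos_iff, ← N.Lf_chi0]
  exact Z.Lf_ne_zero N.norm_chi0_le (by simpa using hs)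

/-- the upper bound for the zeta function by the sum over primes -/
theorem zeta_le_exp_PS (E : Type) [Field E] [NumberField E] (h2 : Module.finrank ℚ E = 2)
    {s : ℝ} (hs : 1 < s) :
    ‖dedekindZeta E (s : ℂ)‖ ≤ Real.exp (Z.PS E N.chi0 s + 8) := by
  have h := (abs_le.1 (abs_log_zeta_sub_PS E hs)).2
  rw [h2] at h
  push_cast at h
  rw [← Real.log_le_iff_le_exp (zeta_pos E hs)]
  linarith only [h]

theorem exp_PS_le_zeta (E : Type) [Field E] [NumberField E] (h2 : Module.finrank ℚ E = 2)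
    {s : ℝ} (hs : 1 < s) :
    Real.exp (Z.PS E N.chi0 s - 8) ≤ ‖dedekindZeta E (s : ℂ)‖ := by
  have h := (abs_le.1 (abs_log_zeta_sub_PS E hs)).1
  rw [h2] at h
  push_cast at h
  rw [← Real.le_log_iff_exp_le (zeta_pos E hs)]
  linarith only [h]

/-- **[R3]** A lower bound for `Δ_{E,1}` on the scale `log D` gives regularity. -/
theorem reg_of_del (B : ℝ) : ∃ c : ℝ, 0 < c ∧ ∀ (E : Type) [Field E] [NumberField E],
    Module.finrank ℚ E = 2 → ∀ D : ℝ, 1 ≤ Real.log D →
    (∀ η : ℝ, 0 < η → η ≤ 1 →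
      -Real.log η - B ≤ Del E (1 : DirichletCharacter ℂ 1) (Real.log D) η) → Reg c E D := by
  refine ⟨Real.exp (-B - 16), Real.exp_pos _, fun E _ _ h2 D hD h => ?_⟩
  have hD0 : 0 < Real.log D := by linarith
  have hs : 1 < 1 + 1 / Real.log D := by
    have : 0 < 1 / Real.log D := by positivity
    linarith
  have h3 := N.residue_ge_of_Del (E := E) hD0 h
  rw [h2, inv_mul_le_iff₀ hD0] at h3
  have h4 := zeta_le_exp_PS E h2 hs
  unfold Reg
  calc Real.exp (-B - 16) * ‖dedekindZeta E ((1 + 1 / Real.log D : ℝ) : ℂ)‖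
      ≤ Real.exp (-B - 16) * Real.exp (Z.PS E N.chi0 (1 + 1 / Real.log D) + 8) := by gcongr
    _ = Real.exp (Z.PS E N.chi0 (1 + 1 / Real.log D) - B - 4 * ((2 : ℕ) : ℝ)) := by
      rw [← Real.exp_add]
      congr 1
      push_cast
      ring
    _ ≤ Real.log D * dedekindZeta_residue E := h3
    _ = dedekindZeta_residue E * Real.log D := mul_comm _ _

/-- **[R3]** One constant for all quadratic fields of bounded discriminant. -/
theorem reg_bdd (B : ℝ) : ∃ c : ℝ, 0 < c ∧ ∀ (E : Type) [Field E] [NumberField E],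
    Module.finrank ℚ E = 2 → |(discr E : ℝ)| ≤ B → ∀ D : ℝ, 1 ≤ Real.log D → Reg c E D := by
  obtain ⟨C, hC⟩ := Del_quad B
  obtain ⟨c, hc, h⟩ := reg_of_del C
  exact ⟨c, hc, fun E _ _ h2 hB D hD => h E h2 D hD fun η hη hη1 => hC E h2 hB _ hD η hη hη1⟩

/-- **[R3]** Regularity on a scale gives regularity on comparable smaller scales. -/
theorem reg_down {c M : ℝ} (hc : 0 < c) (hM : 1 ≤ M) : ∃ c' : ℝ, 0 < c' ∧
    ∀ (E : Type) [Field E] [NumberField E], Module.finrank ℚ E = 2 → ∀ D D' : ℝ, 0 < D →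
    1 ≤ Real.log D → D ≤ D' → Real.log D' ≤ M * Real.log D → Reg c E D' → Reg c' E D := by
  have hM0 : 0 < M := by linarith
  refine ⟨c * Real.exp (-16) / M, by positivity, fun E _ _ h2 D D' hD0 hD hDD hM' h => ?_⟩
  have hL : 0 < Real.log D := by linarith
  have hLL : Real.log D ≤ Real.log D' := Real.log_le_log hD0 hDD
  have hL' : 0 < Real.log D' := by linarith
  have hs : 1 < 1 + 1 / Real.log D := by
    have : 0 < 1 / Real.log D := by positivity
    linarith
  have hs' : 1 < 1 + 1 / Real.log D' := by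
    have : 0 < 1 / Real.log D' := by positivity
    linarith
  have hss : 1 + 1 / Real.log D' ≤ 1 + 1 / Real.log D := by gcongr
  have h3 := zeta_le_exp_PS E h2 hs
  have h4 := exp_PS_le_zeta E h2 hs'
  have h5 := PS_anti E hs' hss
  have hρ : 0 < dedekindZeta_residue E := dedekindZeta_residue_pos E
  have h6 : Real.exp (-16) * ‖dedekindZeta E ((1 + 1 / Real.log D : ℝ) : ℂ)‖ ≤
      ‖dedekindZeta E ((1 + 1 / Real.log D' : ℝ) : ℂ)‖ := by
    refine le_trans ?_ h4
    refine (mul_le_mul_of_nonneg_left h3 (Real.exp_pos _).le).trans ?_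
    rw [← Real.exp_add]
    apply Real.exp_le_exp.2
    linarith only [h5]
  unfold Reg at h ⊢
  rw [div_mul_eq_mul_div, div_le_iff₀ hM0]
  calc c * Real.exp (-16) * ‖dedekindZeta E ((1 + 1 / Real.log D : ℝ) : ℂ)‖
      = c * (Real.exp (-16) * ‖dedekindZeta E ((1 + 1 / Real.log D : ℝ) : ℂ)‖) := by ring
    _ ≤ c * ‖dedekindZeta E ((1 + 1 / Real.log D' : ℝ) : ℂ)‖ := by gcongr
    _ ≤ dedekindZeta_residue E * Real.log D' := h
    _ ≤ dedekindZeta_residue E * (M * Real.log D) := by gcongr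
    _ = dedekindZeta_residue E * Real.log D * M := by ring

end Vale.Agent.P007.H11
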