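import Vale.Agent.P007.H11.RReg

/-! Block R5: the set of exceptional quadratic fields is sparse. -/

set_option autoImplicit false

open NumberField

namespace Vale.Agent.P007.H11

open Vale.Agent.P007 Vale.Agent.P007.Z
open Vale.Agent.P007.F (Reg)

theorem Reg.mono {c c' : ℝ} (h : c' ≤ c) {E : Type} [Field E] [NumberField E] {D : ℝ}
    (hE : Reg c E D) : Reg c' E D := by
  unfold Reg at hE ⊢
  refine le_trans ?_ hE
  gcongr

/-- a totally real field is isomorphic to a subfield of `ℝ` -/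
theorem exists_real_model (F : Type) [Field F] [NumberField F] [IsTotallyReal F] :
    ∃ (E : IntermediateField ℚ ℝ) (_ : NumberField E), Nonempty (F ≃ₐ[ℚ] E) := by
  obtain ⟨w⟩ : Nonempty (InfinitePlace F) := inferInstance
  let ψ : F →+* ℝ := InfinitePlace.embedding_of_isReal (IsTotallyReal.isReal w)
  let φ : F →ₐ[ℚ] ℝ := ψ.toRatAlgHom
  have hfd : FiniteDimensional ℚ φ.fieldRange :=
    LinearEquiv.finiteDimensional (AlgEquiv.ofInjectiveField φ).toLinearEquiv
  have : NumberField φ.fieldRange := @NumberField.mk _ _ inferInstance hfd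
  exact ⟨φ.fieldRange, this, ⟨AlgEquiv.ofInjectiveField φ⟩⟩

/-- **[R5]** The discriminants of the exceptional real quadratic fields are `M`-sparse. -/
theorem sparse_set_of
    (hlp : ∃ B ℓ₀ : ℝ, ∀ (E E' : IntermediateField ℚ ℝ) [NumberField E] [NumberField E'],
      Module.finrank ℚ E = 2 → Module.finrank ℚ E' = 2 → E ≠ E' → ∀ ℓ : ℝ, ℓ₀ ≤ ℓ →
      Real.log |(discr E : ℝ)| ≤ ℓ → Real.log |(discr E' : ℝ)| ≤ ℓ →
      (∀ η : ℝ, 0 < η → η ≤ 1 →
        -Real.log η - B ≤ Del E (1 : DirichletCharacter ℂ 1) ℓ η) ∨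
      (∀ η : ℝ, 0 < η → η ≤ 1 →
        -Real.log η - B ≤ Del E' (1 : DirichletCharacter ℂ 1) ℓ η))
    (hdel : ∀ c : ℝ, 0 < c → ∃ B ℓ₀ : ℝ, ∀ (E : Type) [Field E] [NumberField E]
      [IsTotallyReal E], Module.finrank ℚ E = 2 → ∀ D : ℝ, ℓ₀ ≤ Real.log D →
      |(discr E : ℝ)| ≤ D → Reg c E D → ∀ ℓ : ℝ, Real.log D ≤ ℓ →
      ∀ η : ℝ, 0 < η → η ≤ 1 →
        -Real.log η - B ≤ Del E (1 : DirichletCharacter ℂ 1) ℓ η)
    (M : ℝ) (hM : 1 ≤ M) :
    ∃ (S : Set ℕ) (c : ℝ), 0 < c ∧ (∀ d ∈ S, ∀ d' ∈ S, d < d' → (d : ℝ) ^ M < d') ∧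
      ∀ (E : Type) [Field E] [NumberField E] [IsTotallyReal E], Module.finrank ℚ E = 2 →
        (discr E).natAbs ∉ S → ∀ D : ℝ, 3 ≤ D → |(discr E : ℝ)| ≤ D → Reg c E D := by
  obtain ⟨B, ℓ₀, hlp⟩ := hlp
  obtain ⟨c₁, hc₁, hod₁⟩ := reg_of_del B
  obtain ⟨B₂', ℓ₂, hdel₂'⟩ := hdel c₁ hc₁
  -- enlarge `B₂`
  obtain ⟨B₂, hB₂, hB₂'⟩ : ∃ B₂, B ≤ B₂ ∧ B₂' ≤ B₂ := ⟨max B B₂', le_max_left _ _, le_max_right _ _⟩
  obtain ⟨c₂, hc₂, hod₂⟩ := reg_of_del B₂
  obtain ⟨B₃, ℓ₃, hdel₃⟩ := hdel c₂ hc₂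
  obtain ⟨c₃, hc₃, hod₃⟩ := reg_of_del B₃
  obtain ⟨c₄, hc₄, hdown⟩ := reg_down hc₂ hM
  obtain ⟨L, hL0, hL1, hL2, hL3⟩ : ∃ L : ℝ, ℓ₀ ≤ L ∧ 1 ≤ L ∧ ℓ₂ ≤ L ∧ ℓ₃ ≤ L :=
    ⟨max (max ℓ₀ 1) (max ℓ₂ ℓ₃), by simp, by simp, by simp, by simp⟩
  obtain ⟨c₅, hc₅, hbdd⟩ := reg_bdd (Real.exp L)
  have key : ∀ d : ℕ, Real.exp L ≤ (d : ℝ) → 0 < (d : ℝ) ∧ L ≤ Real.log d ∧
      Real.log d ≤ M * Real.log d := by
    intro d hd
    have h0 : 0 < (d : ℝ) := (Real.exp_pos L).trans_le hd
    have h1 : L ≤ Real.log d := (Real.le_log_iff_exp_le h0).2 hd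
    exact ⟨h0, h1, by nlinarith⟩
  refine ⟨{d : ℕ | Real.exp L ≤ (d : ℝ) ∧ ∃ (E : IntermediateField ℚ ℝ) (_ : NumberField E)
      (_ : IsTotallyReal E), Module.finrank ℚ E = 2 ∧ (discr E).natAbs = d ∧
      ¬ ∀ η : ℝ, 0 < η → η ≤ 1 →
        -Real.log η - B₂ ≤ Del E (1 : DirichletCharacter ℂ 1) (M * Real.log d) η},
    min (min c₃ c₄) c₅, by positivity, ?_, ?_⟩
  · rintro d ⟨hd, E, _, _, hE2, hEd, hE⟩ d' ⟨hd', E', _, _, hE2', hEd', hE'⟩ hdd
    by_contra hcon
    rw [not_lt] at hcon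
    obtain ⟨hd0, hdL, hdM⟩ := key d hd
    obtain ⟨hd0', hdL', hdM'⟩ := key d' hd'
    have hne : E ≠ E' := by
      rintro rfl
      omega
    have hlE : Real.log |(discr E : ℝ)| = Real.log d := by
      rw [← hEd, Nat.cast_natAbs, Int.cast_abs]
    have hlE' : Real.log |(discr E' : ℝ)| = Real.log d' := by
      rw [← hEd', Nat.cast_natAbs, Int.cast_abs]
    have hlog : Real.log d' ≤ M * Real.log d := by
      have := Real.log_le_log hd0' hcon
      rwa [Real.log_rpow hd0] at this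
    rcases hlp E E' hE2 hE2' hne (M * Real.log d) (by linarith) (by rw [hlE]; linarith)
      (by rw [hlE']; exact hlog) with h | h
    · exact hE fun η h0 h1 => by linarith [h η h0 h1]
    · have hexp : Real.log (Real.exp (M * Real.log d)) = M * Real.log d := Real.log_exp _
      have hreg : Reg c₁ E' (Real.exp (M * Real.log d)) := by
        refine hod₁ E' hE2' _ (by rw [hexp]; linarith) ?_
        rw [hexp]
        exact h
      have hle : |(discr E' : ℝ)| ≤ Real.exp (M * Real.log d) := by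
        have h1 : |(discr E' : ℝ)| = d' := by rw [← hEd', Nat.cast_natAbs, Int.cast_abs]
        rw [h1, ← Real.log_le_iff_le_exp hd0']
        exact hlog
      have hlogd : Real.log d ≤ Real.log d' :=
        Real.log_le_log hd0 (by exact_mod_cast hdd.le)
      have h2 := hdel₂' E' hE2' _ (by rw [hexp]; linarith) hle hreg (M * Real.log d') (by
        rw [hexp]
        nlinarith)
      exact hE' fun η h0 h1 => by linarith [h2 η h0 h1]
  · intro E _ _ _ hE2 hES D hD3 hED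
    have hD0 : 0 < D := by linarith
    have hD1 : 1 ≤ Real.log D := by
      rw [Real.le_log_iff_exp_le hD0]
      have := Real.exp_one_lt_d9
      linarith
    have hdisc : |(discr E : ℝ)| = ((discr E).natAbs : ℝ) := by
      rw [Nat.cast_natAbs, Int.cast_abs]
    rcases le_total |(discr E : ℝ)| (Real.exp L) with hsmall | hbig
    · exact Reg.mono (min_le_right _ _) (hbdd E hE2 hsmall D hD1)
    · set d := (discr E).natAbs with hd
      rw [hdisc] at hbig hED
      obtain ⟨hd0, hdL, hdM⟩ := key d hbig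
      have hdel0 : ∀ η : ℝ, 0 < η → η ≤ 1 →
          -Real.log η - B₂ ≤ Del E (1 : DirichletCharacter ℂ 1) (M * Real.log d) η := by
        by_contra hcon
        apply hES
        obtain ⟨E₀, _, ⟨e⟩⟩ := exists_real_model E
        have : IsTotallyReal E₀ := IsTotallyReal.ofRingEquiv e.toRingEquiv
        refine ⟨hbig, E₀, inferInstance, this, ?_, ?_, ?_⟩
        · rw [← hE2]
          exact e.toLinearEquiv.finrank_eq.symm
        · rw [hd, discr_eq_discr_of_algEquiv E e]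
        · intro h
          apply hcon
          intro η h0 h1
          have := h η h0 h1
          rwa [Del_congr (E := E) (E' := E₀) (fun m => aE_congr E E₀ e.toRingEquiv m)]
      have hexp : Real.log (Real.exp (M * Real.log d)) = M * Real.log d := Real.log_exp _
      have hreg : Reg c₂ E (Real.exp (M * Real.log d)) := by
        refine hod₂ E hE2 _ (by rw [hexp]; linarith) ?_
        rw [hexp]
        exact hdel0
      have hle : |(discr E : ℝ)| ≤ Real.exp (M * Real.log d) := by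
        rw [hdisc, ← Real.log_le_iff_le_exp hd0]
        exact hdM
      rcases le_total (M * Real.log d) (Real.log D) with hup | hlow
      · refine Reg.mono ((min_le_left _ _).trans (min_le_left _ _)) (hod₃ E hE2 D hD1 ?_)
        exact hdel₃ E hE2 _ (by rw [hexp]; linarith) hle hreg (Real.log D) (by rw [hexp]; exact hup)
      · refine Reg.mono ((min_le_left _ _).trans (min_le_right _ _))
          (hdown E hE2 D (Real.exp (M * Real.log d)) hD0 hD1 ?_ ?_ hreg)
        · rw [← Real.log_le_iff_le_exp hD0]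
          exact hlow
        · rw [hexp]
          have : Real.log d ≤ Real.log D := Real.log_le_log hd0 hED
          nlinarith

end Vale.Agent.P007.H11
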