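import Vale.Agent.P007.H11.RSparse
import Vale.Agent.P007.H11.RDel
import Vale.Agent.P007.H11.RLP
import Vale.Agent.P007.H11.RComp

/-! The discriminants of the exceptional real quadratic fields are sparse, without hypotheses. -/

set_option autoImplicit false

open NumberField

namespace Vale.Agent.P007.H11

open Vale.Agent.P007.F (Reg)

/-- The discriminants of the real quadratic fields with an exceptional zero (for one constant `c`)
form an `M`-sparse set. -/
theorem sparse_set (M : ℝ) (hM : 1 ≤ M) :
    ∃ (S : Set ℕ) (c : ℝ), 0 < c ∧ (∀ d ∈ S, ∀ d' ∈ S, d < d' → (d : ℝ) ^ M < d') ∧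
      ∀ (E : Type) [Field E] [NumberField E] [IsTotallyReal E], Module.finrank ℚ E = 2 →
        (discr E).natAbs ∉ S → ∀ D : ℝ, 3 ≤ D → |(discr E : ℝ)| ≤ D → Reg c E D :=
  sparse_set_of (landau_page_of exists_comp) (fun c hc => reg_del c hc) M hM

end Vale.Agent.P007.H11
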