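import Vale.Agent.P007.H11.Alg
import Vale.Agent.P007.H11.Main

/-! Fields containing a fixed subfield with prime relative degree. -/

set_option autoImplicit false

open MeasureTheory Matrix Filter Topology ProbabilityTheory
open scoped ENNReal

namespace Vale.Agent.P007.H11

open Vale.Agent.P007 Vale.Agent.P007.Koopman Vale.Agent.P007.Mautner Vale.Agent.P007.R
  Vale.Agent.P007.R.Blk

variable {n : ℕ}

/-- the characteristic polynomial of an integral matrix conjugate to `diag(p)` is a power of the
minimal polynomial -/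
theorem charpoly_pow {p : Fin n → ℝ} {f : Polynomial ℤ} (hf : f.Monic) (hfi : Irreducible f)
    (hroot : ∀ j, Polynomial.aeval (p j) f = 0) {g : G n} {M : Matrix (Fin n) (Fin n) ℤ}
    (hM : (g : Matrix (Fin n) (Fin n) ℝ) * diagonal p = castM M * (g : Matrix (Fin n) (Fin n) ℝ)) :
    ∃ k : ℕ, M.charpoly = f ^ k ∧ k * f.natDegree = n := by
  set q : Polynomial ℤ := M.charpoly with hq
  have hqm : q.Monic := M.charpoly_monic
  have hqd : q.natDegree = n := by rw [hq, M.charpoly_natDegree_eq_dim, Fintype.card_fin]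
  have hfpos : 0 < f.natDegree := by
    rcases Nat.eq_zero_or_pos f.natDegree with h | h
    · exfalso
      rw [hf.natDegree_eq_zero.1 h] at hfi
      exact hfi.not_isUnit isUnit_one
    · exact h
  have hmin : ∀ j, f = minpoly ℤ (p j) := by
    intro j
    have hint : IsIntegral ℤ (p j) := ⟨f, hf, by
      have := hroot j
      rwa [Polynomial.aeval_def] at this⟩
    have h1 : minpoly ℤ (p j) ∣ f := minpoly.isIntegrallyClosed_dvd hint (hroot j)
    have h2 : Associated (minpoly ℤ (p j)) f := by
      refine ((hfi.dvd_iff.1 h1).resolve_left ?_).symm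
      intro hu
      have := minpoly.natDegree_pos hint
      rw [Polynomial.natDegree_eq_zero_of_isUnit hu] at this
      exact lt_irrefl _ this
    exact (Polynomial.eq_of_monic_of_associated (minpoly.monic hint) hf h2).symm
  have hfin : FiniteMultiplicity f q := by
    refine Polynomial.finiteMultiplicity_of_degree_pos_of_monic ?_ hf hqm.ne_zero
    exact Polynomial.natDegree_pos_iff_degree_pos.1 hfpos
  obtain ⟨r, hr, hrn⟩ := hfin.exists_eq_pow_mul_and_not_dvd
  have hrm : r.Monic := (hf.pow _).of_mul_monic_left (by rw [← hr]; exact hqm)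
  have hr0 : r.natDegree = 0 := by
    by_contra hne
    -- `r` has a real root, which is some `p j`
    have h1 : (r.map (Int.castRingHom ℝ)) ∣ ∏ i, (Polynomial.X - Polynomial.C (p i)) := by
      rw [← charpoly_eq hM]
      exact Polynomial.map_dvd _ ⟨f ^ _, by rw [← hq, hr, mul_comm]⟩
    have h2 : (∏ i, (Polynomial.X - Polynomial.C (p i)) : Polynomial ℝ).Splits :=
      Polynomial.Splits.prod fun i _ => Polynomial.Splits.X_sub_C _
    have h3 : (∏ i, (Polynomial.X - Polynomial.C (p i)) : Polynomial ℝ) ≠ 0 :=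
      Finset.prod_ne_zero_iff.2 fun i _ => Polynomial.X_sub_C_ne_zero _
    have h4 : (r.map (Int.castRingHom ℝ)).Splits := h2.of_dvd h3 h1
    have h5 : (r.map (Int.castRingHom ℝ)).degree ≠ 0 := by
      rw [hrm.degree_map]
      intro h6
      exact hne (Polynomial.natDegree_eq_of_degree_eq_some h6)
    obtain ⟨a, ha⟩ := h4.exists_eval_eq_zero h5
    have h6 : (∏ i, (Polynomial.X - Polynomial.C (p i)) : Polynomial ℝ).eval a = 0 := by
      obtain ⟨s, hs⟩ := h1
      rw [hs, Polynomial.eval_mul, ha, zero_mul]
    rw [Polynomial.eval_prod, Finset.prod_eq_zero_iff] at h6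
    obtain ⟨j, -, hj⟩ := h6
    rw [Polynomial.eval_sub, Polynomial.eval_X, Polynomial.eval_C, sub_eq_zero] at hj
    subst hj
    have hint : IsIntegral ℤ (p j) := ⟨f, hf, by
      have := hroot j
      rwa [Polynomial.aeval_def] at this⟩
    apply hrn
    rw [hmin j]
    refine minpoly.isIntegrallyClosed_dvd hint ?_
    rw [Polynomial.aeval_def, ← Polynomial.eval_map]
    exact ha
  have hr1 : r = 1 := hrm.natDegree_eq_zero.1 hr0
  refine ⟨multiplicity f q, by rw [hr1, mul_one] at hr; exact hr, ?_⟩
  have h1 : q.natDegree = multiplicity f q * f.natDegree := by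
    conv_lhs => rw [hr]
    rw [(hf.pow _).natDegree_mul hrm, hf.natDegree_pow, hr0, add_zero]
  rw [← h1, hqd]

/-- the level sets of `p` have the same size -/
theorem level_card {p : Fin n → ℝ} {f : Polynomial ℤ} (hf : f.Monic) (hfi : Irreducible f)
    (hroot : ∀ j, Polynomial.aeval (p j) f = 0) {g : G n} (hs : Stab p g) (i : Fin n) :
    (Finset.univ.filter fun j => p j = p i).card * f.natDegree = n := by
  obtain ⟨M, hM⟩ := hs
  obtain ⟨k, hk, hkn⟩ := charpoly_pow hf hfi hroot hM
  have hint : IsIntegral ℤ (p i) := ⟨f, hf, by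
    have := hroot i
    rwa [Polynomial.aeval_def] at this⟩
  have hmin : f = minpoly ℤ (p i) := by
    have h1 : minpoly ℤ (p i) ∣ f := minpoly.isIntegrallyClosed_dvd hint (hroot i)
    have h2 : Associated (minpoly ℤ (p i)) f := by
      refine ((hfi.dvd_iff.1 h1).resolve_left ?_).symm
      intro hu
      have := minpoly.natDegree_pos hint
      rw [Polynomial.natDegree_eq_zero_of_isUnit hu] at this
      exact lt_irrefl _ this
    exact (Polynomial.eq_of_monic_of_associated (minpoly.monic hint) hf h2).symm
  have hsep : (f.map (Int.castRingHom ℝ)).Separable := by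
    have h3 : (minpoly ℚ (p i)).Separable :=
      (minpoly.irreducible (hint.tower_top)).separable
    rw [minpoly.isIntegrallyClosed_eq_field_fractions' ℚ hint, ← hmin] at h3
    have h4 := h3.map (f := algebraMap ℚ ℝ)
    rw [Polynomial.map_map] at h4
    have h5 : (algebraMap ℚ ℝ).comp (algebraMap ℤ ℚ) = Int.castRingHom ℝ := RingHom.ext_int _ _
    rw [h5] at h4
    exact h4
  have h0 : (f.map (Int.castRingHom ℝ)) ≠ 0 := (hf.map _).ne_zero
  have h1 : Multiset.count (p i) (f.map (Int.castRingHom ℝ)).roots = 1 := by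
    refine Multiset.count_eq_one_of_mem (Polynomial.nodup_roots hsep) ?_
    rw [Polynomial.mem_roots h0, Polynomial.IsRoot.def, Polynomial.eval_map]
    have := hroot i
    rwa [Polynomial.aeval_def] at this
  have h2 : Multiset.count (p i) ((M.charpoly).map (Int.castRingHom ℝ)).roots = k := by
    rw [hk, Polynomial.map_pow, Polynomial.roots_pow, Multiset.count_nsmul, h1, mul_one]
  rw [charpoly_roots hM, Multiset.count_map] at h2
  have h3 : (Finset.univ.filter fun j => p j = p i).card = k := by
    rw [← h2, Finset.card_def, Finset.filter_val]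
    congr 1
    refine Multiset.filter_congr fun j _ => ?_
    exact eq_comm
  rw [h3, hkn]

/-- Root groups which preserve a nonzero measure carried by `Yd p` commute with `diag(p)`. -/
theorem eq_of_uinv {p : Fin n → ℝ} (κ : Measure (X n)) [IsFiniteMeasure κ] (h0 : κ ≠ 0)
    (hY : κ (Yd p)ᶜ = 0) {i j : Fin n} (hij : i ≠ j) (hU : UInv κ i j) : p i = p j := by
  by_contra hd
  apply h0
  set S : Set (X n × ℝ) := (fun q : X n × ℝ => tr (tv hij q.2) q.1) ⁻¹' (Yd p) with hS
  have hcont : Continuous fun q : X n × ℝ => tr (tv hij q.2) q.1 :=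
    continuous_tr_uncurry.comp (continuous_fst.prodMk ((continuous_tv hij).comp continuous_snd))
  have hSm : MeasurableSet S := ((isClosed_Yd p).preimage hcont).measurableSet
  have h1 : (κ.prod (volume.restrict (Set.Icc (0 : ℝ) 1))) S = 0 := by
    rw [Measure.prod_apply hSm]
    have : ∀ x : X n, (volume.restrict (Set.Icc (0 : ℝ) 1)) (Prod.mk x ⁻¹' S) = 0 := by
      intro x
      obtain ⟨g, rfl⟩ := pt_surjective x
      have hc : (Prod.mk (pt g) ⁻¹' S : Set ℝ) = {t : ℝ | Stab p (g * tv hij t)} := by
        ext t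
        exact pt_mem_Yd
      rw [hc]
      exact (countable_times hij hd g).measure_zero _
    simp only [this, lintegral_zero]
  rw [Measure.prod_apply_symm hSm] at h1
  have h2 : ∀ t : ℝ, κ ((fun x => (x, t)) ⁻¹' S) = κ (Yd p) := by
    intro t
    have h3 : ((fun x => (x, t)) ⁻¹' S : Set (X n)) = tr (tv hij t) ⁻¹' (Yd p) := rfl
    have h4 := hU t
    rw [ug_of_ne hij] at h4
    rw [h3, ← Measure.map_apply (continuous_tr _).measurable (isClosed_Yd p).measurableSet, h4]
  simp only [h2, lintegral_const] at h1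
  have h3 : κ (Yd p) = 0 := by
    simpa only [MeasurableSet.univ, Measure.restrict_apply, Set.univ_inter, Real.volume_Icc,
      sub_zero, ENNReal.ofReal_one, mul_one] using h1
  rw [← Measure.measure_univ_eq_zero]
  have h4 : (Set.univ : Set (X n)) = Yd p ∪ (Yd p)ᶜ := (Set.union_compl_self _).symm
  rw [h4]
  exact measure_union_null h3 hY

/-- comparison of the level sets -/
theorem levels {p q : Fin n → ℝ} (hqp : ∀ i j, q i = q j → p i = p j) {k k' : ℕ} (hk : k.Prime)
    (hk' : 2 ≤ k') (hp : ∀ i, (Finset.univ.filter fun j => p j = p i).card = k)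
    (hq : ∀ i, (Finset.univ.filter fun j => q j = q i).card = k') {i j : Fin n}
    (h : p i = p j) : q i = q j := by
  classical
  set L : Finset (Fin n) := Finset.univ.filter fun l => p l = p i with hL
  have h1 : L.card = ∑ c ∈ L.image q, (L.filter fun l => q l = c).card :=
    Finset.card_eq_sum_card_image q L
  have h2 : ∀ c ∈ L.image q, (L.filter fun l => q l = c).card = k' := by
    intro c hc
    obtain ⟨a, ha, rfl⟩ := Finset.mem_image.1 hc
    rw [← hq a]
    congr 1
    ext l
    simp only [hL, Finset.mem_filter, Finset.mem_univ, true_and] at ha ⊢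
    exact ⟨fun h3 => h3.2, fun h3 => ⟨(hqp l a h3).trans ha, h3⟩⟩
  rw [Finset.sum_congr rfl h2, Finset.sum_const, hp i, smul_eq_mul] at h1
  have h3 : k' = k := by
    rcases (Nat.dvd_prime hk).1 (Dvd.intro_left _ h1.symm) with h4 | h4
    · omega
    · exact h4
  have h4 : (L.image q).card = 1 := by
    rw [h3] at h1
    have := hk.pos
    exact Nat.eq_of_mul_eq_mul_right this (by rw [one_mul]; exact h1.symm)
  obtain ⟨c, hc⟩ := Finset.card_eq_one.1 h4
  have hi : q i ∈ L.image q := Finset.mem_image_of_mem q (by simp [hL])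
  have hj : q j ∈ L.image q := Finset.mem_image_of_mem q (by simp [hL, h])
  rw [hc, Finset.mem_singleton] at hi hj
  rw [hi, hj]

/-- A measure with the decomposition of the structure theorem which is carried by `Yd p`, where the
level sets of `p` have a prime number of elements, is homogeneous of type `p`. -/
theorem homog_of_prime (hn1 : 1 < n) (ν : Measure (X n)) [IsProbabilityMeasure ν] {m : Measure (X n)}
    {κ : {p : Fin n → ℝ // IsMult p} → Measure (X n)} (hκ : ∀ p, Homog p.1 (κ p))
    (hν : ν = ν (RMs n)ᶜ • m + Measure.sum κ) {p : Fin n → ℝ} {f : Polynomial ℤ} {k : ℕ}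
    (hf : f.Monic) (hfi : Irreducible f) (hroot : ∀ j, Polynomial.aeval (p j) f = 0)
    (hf1 : 1 < f.natDegree) (hk : k.Prime) (hkn : f.natDegree * k = n) (hY : ν (Yd p)ᶜ = 0) :
    Homog p ν := by
  have hlt : f.natDegree < n := by
    have := hk.two_le
    nlinarith
  have hp : IsMult p := ⟨f, hf, hfi, hf1, hlt, hroot⟩
  have hR : ν (RMs n)ᶜ = 0 := by
    refine measure_mono_null (fun x hx => ?_) hY
    exact fun hx' => hx ⟨p, hp, hx'⟩
  rw [hR, zero_smul, zero_add] at hν
  have hle : ∀ q, κ q ≤ ν := by
    intro q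
    conv_rhs => rw [hν]
    exact Measure.le_sum _ _
  have hkey : ∀ q, Homog p (κ q) := by
    intro q
    by_cases h0 : κ q = 0
    · rw [h0]
      exact Homog.zero p
    have hfin : IsFiniteMeasure (κ q) := isFiniteMeasure_of_le ν (hle q)
    have hYp : κ q (Yd p)ᶜ = 0 := le_antisymm (((hle q) _).trans hY.le) zero_le
    obtain ⟨hq1, hq2, hq3⟩ := hκ q
    have hqp : ∀ i j, q.1 i = q.1 j → p i = p j := by
      intro i j hq
      by_cases hij : i = j
      · rw [hij]
      · exact eq_of_uinv (κ q) h0 hYp hij (hq3 i j hij hq)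
    -- a point in both sets
    obtain ⟨x, hx1, hx2⟩ : ∃ x, x ∈ (Yd p : Set (X n)) ∧ x ∈ (Yd q.1 : Set (X n)) := by
      by_contra hcon
      push Not at hcon
      apply h0
      rw [← Measure.measure_univ_eq_zero]
      refine measure_mono_null (fun x _ => ?_) (measure_union_null hYp hq2)
      by_cases hx : x ∈ (Yd p : Set (X n))
      · exact Or.inr (hcon x hx)
      · exact Or.inl hx
    obtain ⟨g, rfl⟩ := pt_surjective x
    have hs1 := pt_mem_Yd.1 hx1
    have hs2 := pt_mem_Yd.1 hx2
    obtain ⟨f', hf', hfi', hf1', hf2', hroot'⟩ := q.2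
    have hc1 : ∀ i, (Finset.univ.filter fun j => p j = p i).card = k := by
      intro i
      have h1 := level_card hf hfi hroot hs1 i
      have h2 : 0 < f.natDegree := by omega
      refine Nat.eq_of_mul_eq_mul_right h2 ?_
      rw [h1, mul_comm, hkn]
    set i₀ : Fin n := ⟨0, by omega⟩ with hi₀
    have hc2 : ∀ i, (Finset.univ.filter fun j => q.1 j = q.1 i).card =
        (Finset.univ.filter fun j => q.1 j = q.1 i₀).card := by
      intro i
      have h1 := level_card hf' hfi' hroot' hs2 i
      have h1' := level_card hf' hfi' hroot' hs2 i₀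
      have h2 : 0 < f'.natDegree := by omega
      exact Nat.eq_of_mul_eq_mul_right h2 (h1.trans h1'.symm)
    have hk' : 2 ≤ (Finset.univ.filter fun j => q.1 j = q.1 i₀).card := by
      have h1 := level_card hf' hfi' hroot' hs2 i₀
      by_contra hlt'
      have h2 : (Finset.univ.filter fun j => q.1 j = q.1 i₀).card ≤ 1 := by omega
      have h3 : (Finset.univ.filter fun j => q.1 j = q.1 i₀).card * f'.natDegree ≤
          1 * f'.natDegree := Nat.mul_le_mul_right _ h2
      omega
    refine ⟨hq1, hYp, fun i j hij hpij => hq3 i j hij ?_⟩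
    exact levels hqp hk hk' hc1 hc2 hpij
  rw [hν]
  exact Homog.sum hkey

end Vale.Agent.P007.H11
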